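import Vale.Agent.P156.MathlibUsed
import Vale.Agent.P156.Defs

set_option linter.all false

section

section

open Finset

namespace Vale.Agent.P156

/-- Half-edges of the configuration model on `n` vertices of degree `d`:
`(u, k)` is the `k`-th half-edge at the vertex `u`. -/
abbrev HE (n d : ℕ) : Type := Fin n × Fin d

/-- A perfect matching of `H`, as a fixed-point-free involution. -/
def IsMatching {H : Type*} (f : Equiv.Perm H) : Prop :=
  (∀ h, f (f h) = h) ∧ ∀ h, f h ≠ h

instance {H : Type*} [Fintype H] [DecidableEq H] :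
    DecidablePred (IsMatching : Equiv.Perm H → Prop) := fun f => by
  unfold IsMatching; infer_instance

/-- The finset of all perfect matchings of `H`. -/
def matchings (H : Type*) [Fintype H] [DecidableEq H] : Finset (Equiv.Perm H) :=
  univ.filter IsMatching

/-- The multigraph of the matching `f` of `HE n d` has no loop and no multiple edge. -/
def IsSimple {n d : ℕ} (f : Equiv.Perm (HE n d)) : Prop :=
  (∀ h, (f h).1 ≠ h.1) ∧ ∀ u : Fin n, ∀ k l : Fin d, (f (u, k)).1 = (f (u, l)).1 → k = l

instance {n d : ℕ} : DecidablePred (IsSimple : Equiv.Perm (HE n d) → Prop) := fun f => by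
  unfold IsSimple; infer_instance

/-- The (simple) graph of a matching: distinct `u`, `v` are adjacent iff some half-edge at one of
them is matched to a half-edge at the other. -/
def toGraph {n d : ℕ} (f : Equiv.Perm (HE n d)) : SimpleGraph (Fin n) :=
  SimpleGraph.fromRel (fun u v => ∃ k : Fin d, (f (u, k)).1 = v)

end Vale.Agent.P156
end
end

section

section

open Finset

set_option linter.unusedSectionVars false

namespace Vale.Agent.P156

section Collision

variable {H V : Type*} [Fintype H] [DecidableEq H] [Fintype V] [DecidableEq V]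

lemma mem_matchings {f : Equiv.Perm H} : f ∈ matchings H ↔ IsMatching f := by
  simp only [matchings, mem_filter, mem_univ, true_and]

/-- Matchings that agree with `φ` on `D`. -/
def ext (D : Finset H) (φ : Equiv.Perm H) : Finset (Equiv.Perm H) :=
  (matchings H).filter (fun f => ∀ x ∈ D, f x = φ x)

lemma mem_ext {D : Finset H} {φ f : Equiv.Perm H} :
    f ∈ ext D φ ↔ IsMatching f ∧ ∀ x ∈ D, f x = φ x := by
  simp only [ext, mem_filter, mem_matchings]

/-- Number of half-edges in `A` whose partner lies at the vertex `u`. -/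
def hitsR (π : H → V) (A : Finset H) (f : Equiv.Perm H) (u : V) : ℕ :=
  (A.filter (fun h => π (f h) = u)).card

/-- Number of vertices outside `T` with count exactly one. -/
def sing (T : Finset V) (c : V → ℕ) : ℕ := (univ.filter (fun u => u ∉ T ∧ c u = 1)).card

lemma conj_swap_apply (f : Equiv.Perm H) (a b x : H) :
    (Equiv.swap a b * f * Equiv.swap a b) x = Equiv.swap a b (f (Equiv.swap a b x)) := rfl

lemma conj_swap_matching {f : Equiv.Perm H} (hf : IsMatching f) (a b : H) :
    IsMatching (Equiv.swap a b * f * Equiv.swap a b) := by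
  refine ⟨fun x => ?_, fun x hx => ?_⟩
  · simp only [conj_swap_apply, Equiv.swap_apply_self, hf.1]
  · rw [conj_swap_apply] at hx
    have := congrArg (Equiv.swap a b) hx
    rw [Equiv.swap_apply_self] at this
    exact hf.2 _ this

lemma fiber_card_eq {D : Finset H} {φ : Equiv.Perm H} (hD : ∀ x ∈ D, φ x ∈ D)
    {h h1 h2 : H} (_hh : h ∉ D) (h1D : h1 ∉ D) (h2D : h2 ∉ D) (h1h : h1 ≠ h) (h2h : h2 ≠ h) :
    ((ext D φ).filter (fun f => f h = h1)).card ≤ ((ext D φ).filter (fun f => f h = h2)).card := by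
  refine Finset.card_le_card_of_injOn (fun f => Equiv.swap h1 h2 * f * Equiv.swap h1 h2) ?_ ?_
  · intro f hf
    simp only [Finset.coe_filter, Set.mem_ofPred_eq, mem_ext] at hf ⊢
    obtain ⟨⟨hm, hfD⟩, hfh⟩ := hf
    refine ⟨⟨conj_swap_matching hm _ _, fun x hx => ?_⟩, ?_⟩
    · rw [conj_swap_apply]
      have hx1 : x ≠ h1 := fun e => h1D (e ▸ hx)
      have hx2 : x ≠ h2 := fun e => h2D (e ▸ hx)
      rw [Equiv.swap_apply_of_ne_of_ne hx1 hx2, hfD x hx]
      have hy := hD x hx
      have hy1 : φ x ≠ h1 := fun e => h1D (e ▸ hy)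
      have hy2 : φ x ≠ h2 := fun e => h2D (e ▸ hy)
      rw [Equiv.swap_apply_of_ne_of_ne hy1 hy2]
    · rw [conj_swap_apply, Equiv.swap_apply_of_ne_of_ne h1h.symm h2h.symm, hfh,
        Equiv.swap_apply_left]
  · intro f _ g _ hfg
    simp only at hfg
    have := mul_right_cancel hfg
    exact mul_left_cancel this

lemma apply_mem_compl {D : Finset H} {φ f : Equiv.Perm H} (hD : ∀ x ∈ D, φ x ∈ D)
    (hf : f ∈ ext D φ) {h : H} (hh : h ∉ D) : f h ∈ univ \ insert h D := by
  rw [mem_ext] at hf
  simp only [mem_sdiff, mem_univ, true_and, mem_insert, not_or]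
  refine ⟨hf.1.2 h, fun hc => ?_⟩
  have h1 := hf.2 _ hc
  rw [hf.1.1] at h1
  apply hh
  rw [h1]
  exact hD _ hc

lemma fiber_card {D : Finset H} {φ : Equiv.Perm H} (hD : ∀ x ∈ D, φ x ∈ D)
    {h h' : H} (hh : h ∉ D) (hh' : h' ∈ univ \ insert h D) :
    ((ext D φ).filter (fun f => f h = h')).card * (univ \ insert h D).card = (ext D φ).card := by
  rw [Finset.card_eq_sum_card_fiberwise (f := fun f : Equiv.Perm H => f h)
    (s := ext D φ) (t := univ \ insert h D)]
  · rw [mul_comm, ← smul_eq_mul, ← Finset.sum_const]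
    refine Finset.sum_congr rfl (fun h2 h2m => ?_)
    simp only [mem_sdiff, mem_univ, true_and, mem_insert, not_or] at hh' h2m
    exact le_antisymm (fiber_card_eq hD hh hh'.2 h2m.2 hh'.1 h2m.1)
      (fiber_card_eq hD hh h2m.2 hh'.2 h2m.1 hh'.1)
  · intro f hf
    exact apply_mem_compl hD hf hh

lemma sing_add_single {T : Finset V} (c : V → ℕ) {u : V} (hu : u ∉ T) :
    (c u = 0 → sing T (fun w => c w + if w = u then 1 else 0) = sing T c + 1) ∧
    (c u = 1 → sing T (fun w => c w + if w = u then 1 else 0) + 1 = sing T c) ∧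
    (2 ≤ c u → sing T (fun w => c w + if w = u then 1 else 0) = sing T c) := by
  refine ⟨fun h0 => ?_, fun h1 => ?_, fun h2 => ?_⟩
  · unfold sing
    have : univ.filter (fun w => w ∉ T ∧ (c w + if w = u then 1 else 0) = 1)
        = insert u (univ.filter (fun w => w ∉ T ∧ c w = 1)) := by
      ext w
      simp only [mem_filter, mem_univ, true_and, mem_insert]
      by_cases hw : w = u
      · subst hw; simp [hu, h0]
      · simp [hw]
    rw [this, Finset.card_insert_of_notMem]
    simp only [mem_filter, mem_univ, h0, zero_ne_one, and_false, not_false_eq_true]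
  · unfold sing
    have : univ.filter (fun w => w ∉ T ∧ c w = 1)
        = insert u (univ.filter (fun w => w ∉ T ∧ (c w + if w = u then 1 else 0) = 1)) := by
      ext w
      simp only [mem_filter, mem_univ, true_and, mem_insert]
      by_cases hw : w = u
      · subst hw; simp [hu, h1]
      · simp [hw]
    rw [this, Finset.card_insert_of_notMem]
    simp only [mem_filter, mem_univ, h1, ↓reduceIte, Nat.reduceAdd, OfNat.ofNat_ne_one, and_false, not_false_eq_true]
  · unfold sing
    congr 1
    ext w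
    simp only [mem_filter, mem_univ, true_and]
    by_cases hw : w = u
    · subst hw
      simp only [if_true]
      constructor
      · rintro ⟨_, h⟩; omega
      · rintro ⟨_, h⟩; omega
    · simp [hw]

set_option maxHeartbeats 1000000 in
/-- The exposure recursion. -/
lemma exposure (π : H → V) (T : Finset V) (d : ℕ)
    (hd : ∀ u, (univ.filter (fun h => π h = u)).card ≤ d)
    (γ : ℝ) (hγ0 : 0 < γ) (hγ1 : γ ≤ 1)
    (hγ : (((univ.filter (fun h => π h ∈ T)).card : ℝ) +
        2 * d * (univ.filter (fun h => π h ∈ T)).card)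
      ≤ γ ^ 2 * ((Fintype.card H : ℝ) + 1 - 2 * (univ.filter (fun h => π h ∈ T)).card)) :
    ∀ (k : ℕ) (D : Finset H) (φ : Equiv.Perm H) (c : V → ℕ), (∀ x ∈ D, φ x ∈ D) →
      ((univ.filter (fun h => π h ∈ T)) \ D).card = k →
      D.card + 2 * k ≤ 2 * (univ.filter (fun h => π h ∈ T)).card →
      (univ.filter (fun u => u ∉ T ∧ c u ≠ 0)).card + k
        ≤ 2 * (univ.filter (fun h => π h ∈ T)).card →
      ∑ f ∈ ext D φ, γ ^ sing T (fun u => c u + hitsR π ((univ.filter (fun h => π h ∈ T)) \ D) f u)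
        ≤ 2 ^ k * γ ^ (k + sing T c) * ((ext D φ).card : ℝ) := by
  set TH := univ.filter (fun h => π h ∈ T) with hTH
  set a := TH.card with ha
  intro k
  induction k using Nat.strong_induction_on with
  | _ k ih =>
  intro D φ c hD hk hDk hck
  rcases Nat.eq_zero_or_pos k with hk0 | hkpos
  · subst hk0
    have hE : TH \ D = ∅ := Finset.card_eq_zero.mp hk
    rw [hE]
    have : ∀ f : Equiv.Perm H, (fun u => c u + hitsR π ∅ f u) = c := by
      intro f; funext u; simp [hitsR]
    simp only [this]
    rw [Finset.sum_const, nsmul_eq_mul]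
    simp [mul_comm]
  · obtain ⟨h, hh⟩ : (TH \ D).Nonempty := Finset.card_pos.mp (by omega)
    have hhT : h ∈ TH := (mem_sdiff.mp hh).1
    have hhD : h ∉ D := (mem_sdiff.mp hh).2
    set C := univ \ insert h D with hC
    have hCcard : C.card + (D.card + 1) = Fintype.card H := by
      rw [hC, ← Finset.card_insert_of_notMem hhD, Finset.card_sdiff_add_card_eq_card
        (Finset.subset_univ _), Finset.card_univ]
    -- split the sum
    rw [← Finset.sum_fiberwise_of_maps_to (s := ext D φ) (t := C)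
      (g := fun f : Equiv.Perm H => f h) (fun f hf => apply_mem_compl hD hf hhD)]
    -- the number of old candidates
    set Old := C.filter (fun h' => h' ∈ TH ∨ c (π h') ≠ 0) with hOld
    have hOldcard : (Old.card : ℝ) ≤ (a : ℝ) + 2 * d * a := by
      have h1 : Old ⊆ TH ∪ (univ.filter (fun u => u ∉ T ∧ c u ≠ 0)).biUnion
          (fun u => univ.filter (fun h' => π h' = u)) := by
        intro x hx
        simp only [hOld, mem_filter] at hx
        rw [mem_union]
        by_cases hxT : x ∈ TH
        · exact Or.inl hxT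
        · right
          simp only [mem_biUnion, mem_filter, mem_univ, true_and]
          refine ⟨π x, ⟨?_, ?_⟩, rfl⟩
          · intro hc; apply hxT; rw [hTH]; simp only [mem_filter, mem_univ, hc, and_self]
          · rcases hx.2 with h' | h'
            · exact absurd h' hxT
            · exact h'
      have h2 : Old.card ≤ a + (univ.filter (fun u => u ∉ T ∧ c u ≠ 0)).card * d := by
        refine (Finset.card_le_card h1).trans ((Finset.card_union_le _ _).trans ?_)
        refine Nat.add_le_add_left (Finset.card_biUnion_le_card_mul _ _ _ (fun u _ => hd u)) _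
      have h3 : (univ.filter (fun u => u ∉ T ∧ c u ≠ 0)).card ≤ 2 * a := by omega
      have h4 : Old.card ≤ a + 2 * a * d := h2.trans (Nat.add_le_add_left
        (Nat.mul_le_mul_right _ h3) _)
      have h5 : (Old.card : ℝ) ≤ ((a + 2 * a * d : ℕ) : ℝ) := by exact_mod_cast h4
      refine h5.trans (le_of_eq ?_)
      push_cast; ring
    have hCpos : (0 : ℝ) < (C.card : ℝ) := by
      by_contra hneg
      push Not at hneg
      have h0 : (C.card : ℝ) = 0 := le_antisymm hneg (Nat.cast_nonneg _)
      have hc0 : C.card = 0 := by exact_mod_cast h0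
      have h1 : Fintype.card H = D.card + 1 := by omega
      have h2 : (Fintype.card H : ℝ) + 1 - 2 * a ≤ 0 := by
        have : D.card + 2 ≤ 2 * a := by omega
        have h3 : ((D.card + 2 : ℕ) : ℝ) ≤ ((2 * a : ℕ) : ℝ) := by exact_mod_cast this
        push_cast at h3
        rw [h1]; push_cast; linarith only [h3]
      have ha1 : 1 ≤ a := Finset.card_pos.mpr ⟨h, hhT⟩
      have ha1' : (1 : ℝ) ≤ a := by exact_mod_cast ha1
      have h3 : γ ^ 2 * ((Fintype.card H : ℝ) + 1 - 2 * a) ≤ 0 :=
        mul_nonpos_of_nonneg_of_nonpos (by positivity) h2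
      have h4 : (0 : ℝ) < (a : ℝ) + 2 * d * a := by (clear * - ha1; positivity)
      linarith only [hγ, h3, h4]
    have hCbig : (Fintype.card H : ℝ) + 1 - 2 * a ≤ (C.card : ℝ) := by
      have : Fintype.card H + 1 ≤ C.card + 2 * a := by omega
      have h3 : ((Fintype.card H + 1 : ℕ) : ℝ) ≤ ((C.card + 2 * a : ℕ) : ℝ) := by
        exact_mod_cast this
      push_cast at h3
      linarith only [h3]
    have hOld2 : (Old.card : ℝ) ≤ γ ^ 2 * (C.card : ℝ) := by
      refine hOldcard.trans (hγ.trans ?_)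
      exact mul_le_mul_of_nonneg_left hCbig (by positivity)
    set s := sing T c with hs
    set n0 : ℝ := ((ext D φ).card : ℝ) / (C.card : ℝ) with hn0
    have hn0' : 0 ≤ n0 := by (clear * - hCpos; positivity)
    -- bound for each candidate
    have hterm : ∀ h' ∈ C, ∑ f ∈ (ext D φ).filter (fun f => f h = h'),
        γ ^ sing T (fun u => c u + hitsR π (TH \ D) f u)
        ≤ (2 ^ (k - 1) * γ ^ (k + s) * n0) * (1 + if h' ∈ Old then (γ ^ 2)⁻¹ else 0) := by
      intro h' hh'
      have hcardE : ((((ext D φ).filter (fun f => f h = h')).card : ℕ) : ℝ) = n0 := by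
        have := fiber_card hD hhD hh'
        rw [hn0, eq_div_iff hCpos.ne']
        exact_mod_cast this
      have hh'2 := hh'
      simp only [hC, mem_sdiff, mem_univ, true_and, mem_insert, not_or] at hh'2
      obtain ⟨hne, hh'D⟩ := hh'2
      rcases Finset.eq_empty_or_nonempty ((ext D φ).filter (fun f => f h = h')) with hE | hE
      · rw [hE, Finset.sum_empty]
        have : (0 : ℝ) ≤ (if h' ∈ Old then (γ ^ 2)⁻¹ else 0) := by
          split_ifs <;> positivity
        (clear * - hγ0 hCpos; positivity)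
      · obtain ⟨φ', hφ'⟩ := hE
        simp only [mem_filter, mem_ext] at hφ'
        obtain ⟨⟨hφm, hφD⟩, hφh⟩ := hφ'
        have hφh' : φ' h' = h := by rw [← hφh, hφm.1]
        set D' := insert h (insert h' D) with hD'
        have hD'closed : ∀ x ∈ D', φ' x ∈ D' := by
          intro x hx
          simp only [hD', mem_insert] at hx ⊢
          rcases hx with rfl | rfl | hx
          · right; left; exact hφh
          · left; exact hφh'
          · right; right; rw [hφD x hx]; exact hD x hx
        have hEq : (ext D φ).filter (fun f => f h = h') = ext D' φ' := by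
          ext f
          simp only [mem_filter, mem_ext]
          constructor
          · rintro ⟨⟨hm, hfD⟩, hfh⟩
            refine ⟨hm, fun x hx => ?_⟩
            simp only [hD', mem_insert] at hx
            rcases hx with rfl | rfl | hx
            · rw [hfh, hφh]
            · rw [hφh', ← hfh, hm.1]
            · rw [hfD x hx, hφD x hx]
          · rintro ⟨hm, hfD⟩
            refine ⟨⟨hm, fun x hx => ?_⟩, ?_⟩
            · rw [hfD x (by simp [hD', hx]), hφD x hx]
            · rw [hfD h (by simp [hD']), hφh]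
        have hD'card : D'.card = D.card + 2 := by
          rw [hD', Finset.card_insert_of_notMem, Finset.card_insert_of_notMem hh'D]
          simp only [mem_insert, not_or]
          exact ⟨fun e => hne e.symm, hhD⟩
        have hfh : ∀ f ∈ ext D' φ', f h = h' ∧ f h' = h := by
          intro f hf
          rw [mem_ext] at hf
          refine ⟨by rw [hf.2 h (by simp [hD']), hφh], by rw [hf.2 h' (by simp [hD']), hφh']⟩
        by_cases hT' : h' ∈ TH
        · -- partner inside T
          have hk2 : (TH \ D').card + 2 = k := by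
            have e1 : TH \ D' = ((TH \ D).erase h).erase h' := by
              ext x
              simp only [hD', mem_sdiff, mem_insert, not_or, mem_erase]
              (clear * -; tauto)
            rw [e1]
            have m1 : h' ∈ (TH \ D).erase h := by
              simp [hne, hT', hh'D]
            have c1 := Finset.card_erase_add_one m1
            have c2 := Finset.card_erase_add_one hh
            omega
          have hsame : ∀ f ∈ ext D' φ', sing T (fun u => c u + hitsR π (TH \ D) f u)
              = sing T (fun u => c u + hitsR π (TH \ D') f u) := by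
            intro f hf
            obtain ⟨f1, f2⟩ := hfh f hf
            unfold sing
            congr 1
            ext u
            simp only [mem_filter, mem_univ, true_and]
            refine and_congr_right (fun hu => ?_)
            have : hitsR π (TH \ D) f u = hitsR π (TH \ D') f u := by
              unfold hitsR
              congr 1
              ext x
              simp only [mem_filter, hD', mem_sdiff, mem_insert, not_or]
              constructor
              · rintro ⟨⟨x1, x2⟩, x3⟩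
                refine ⟨⟨x1, ?_, ?_, x2⟩, x3⟩
                · rintro rfl
                  apply hu
                  rw [← x3, f1]
                  simpa only [hTH, mem_filter, mem_univ, true_and] using hT'
                · rintro rfl
                  apply hu
                  rw [← x3, f2]
                  simpa [hTH] using hhT
              · rintro ⟨⟨x1, _, _, x2⟩, x3⟩
                exact ⟨⟨x1, x2⟩, x3⟩
            rw [this]
          have ihk := ih (TH \ D').card (by omega) D' φ' c hD'closed rfl (by omega) (by omega)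
          rw [← hEq, hcardE] at ihk
          rw [Finset.sum_congr rfl (fun f hf => by rw [hsame f (hEq ▸ hf)])]
          refine ihk.trans ?_
          have hOldm : h' ∈ Old := by simp [hOld, hh', hT']
          rw [if_pos hOldm]
          set k' := (TH \ D').card with hk'
          have e2 : γ ^ (k + s) = γ ^ (k' + s) * γ ^ 2 := by
            rw [← pow_add]; congr 1; omega
          have e3 : (2 : ℝ) ^ (k - 1) = 2 ^ k' * 2 := by
            rw [← pow_succ]; congr 1; omega
          have hg2 : 0 < γ ^ 2 := by positivity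
          calc 2 ^ k' * γ ^ (k' + s) * n0
              = (2 ^ k' * γ ^ (k' + s) * n0) * 1 := by ring
            _ ≤ (2 ^ k' * γ ^ (k' + s) * n0) * (2 * (γ ^ 2 + 1)) := by
                refine mul_le_mul_of_nonneg_left ?_ (by (clear * - hγ0 hCpos; positivity))
                nlinarith only []
            _ = _ := by
                rw [e2, e3]
                (clear * - hγ0; field_simp)
        · -- partner outside T
          have huT : π h' ∉ T := by
            intro hc; apply hT'; simp only [hTH, mem_filter, mem_univ, hc, and_self]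
          have hk1 : (TH \ D').card + 1 = k := by
            have e1 : TH \ D' = (TH \ D).erase h := by
              ext x
              simp only [hD', mem_sdiff, mem_insert, not_or, mem_erase]
              constructor
              · rintro ⟨x1, x2, x3, x4⟩; exact ⟨x2, x1, x4⟩
              · rintro ⟨x2, x1, x4⟩
                exact ⟨x1, x2, fun e => hT' (e ▸ x1), x4⟩
            rw [e1]
            have c2 := Finset.card_erase_add_one hh
            omega
          set c' : V → ℕ := fun w => c w + if w = π h' then 1 else 0 with hc'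
          have hsame : ∀ f ∈ ext D' φ', (fun u => c u + hitsR π (TH \ D) f u)
              = (fun u => c' u + hitsR π (TH \ D') f u) := by
            intro f hf
            obtain ⟨f1, f2⟩ := hfh f hf
            funext u
            have e1 : TH \ D = insert h (TH \ D') := by
              ext x
              simp only [hD', mem_sdiff, mem_insert, not_or]
              constructor
              · rintro ⟨x1, x2⟩
                by_cases hx : x = h
                · exact Or.inl hx
                · exact Or.inr ⟨x1, hx, fun e => hT' (e ▸ x1), x2⟩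
              · rintro (rfl | ⟨x1, _, _, x2⟩)
                · exact ⟨hhT, hhD⟩
                · exact ⟨x1, x2⟩
            have hnm : h ∉ TH \ D' := by simp [hD']
            have : hitsR π (TH \ D) f u
                = (if u = π h' then 1 else 0) + hitsR π (TH \ D') f u := by
              unfold hitsR
              rw [e1, Finset.filter_insert, f1]
              by_cases hu : u = π h'
              · rw [if_pos hu.symm, if_pos hu, Finset.card_insert_of_notMem]
                · ring
                · simp [hnm]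
              · rw [if_neg (fun e => hu e.symm), if_neg hu, zero_add]
            rw [this, hc']
            ring
          have hcount : (univ.filter (fun u => u ∉ T ∧ c' u ≠ 0)).card
              ≤ (univ.filter (fun u => u ∉ T ∧ c u ≠ 0)).card + 1 := by
            have : univ.filter (fun u => u ∉ T ∧ c' u ≠ 0)
                ⊆ insert (π h') (univ.filter (fun u => u ∉ T ∧ c u ≠ 0)) := by
              intro w hw
              simp only [hc', mem_filter, mem_univ, true_and, mem_insert] at hw ⊢
              by_cases hwu : w = π h'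
              · exact Or.inl hwu
              · right
                simpa [hwu] using hw
            exact (Finset.card_le_card this).trans (Finset.card_insert_le _ _)
          have ihk := ih (TH \ D').card (by omega) D' φ' c' hD'closed rfl (by omega) (by omega)
          rw [← hEq, hcardE] at ihk
          rw [Finset.sum_congr rfl (fun f hf => by rw [hsame f (hEq ▸ hf)])]
          refine ihk.trans ?_
          set k' := (TH \ D').card with hk'
          have hkk : k - 1 = k' := by omega
          rw [hkk]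
          obtain ⟨s0, s1, s2⟩ := sing_add_single c huT
          have hg2 : 0 < γ ^ 2 := by positivity
          rcases Nat.lt_trichotomy (c (π h')) 1 with hlt | heq | hgt
          · have e0 : c (π h') = 0 := by omega
            have e1 : sing T c' = s + 1 := s0 e0
            have hnot : h' ∉ Old := by
              simp [hOld, hT', e0]
            rw [if_neg hnot, e1, add_zero, mul_one]
            refine le_of_eq ?_
            congr 2
            congr 1
            omega
          · have e1 : sing T c' + 1 = s := s1 heq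
            have hOldm : h' ∈ Old := by simp [hOld, hh', heq]
            rw [if_pos hOldm]
            have e2 : γ ^ (k + s) = γ ^ (k' + sing T c') * γ ^ 2 := by
              rw [← pow_add]; congr 1; omega
            rw [e2]
            calc 2 ^ k' * γ ^ (k' + sing T c') * n0
                ≤ 2 ^ k' * γ ^ (k' + sing T c') * n0 * (γ ^ 2 + 1) := by
                  refine le_mul_of_one_le_right (by (clear * - hγ0 hCpos; positivity)) ?_
                  linarith only [hg2]
              _ = _ := by (clear * - hγ0; field_simp)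
          · have e1 : sing T c' = s := s2 (by (clear * - hgt; omega))
            have hOldm : h' ∈ Old := by
              simp only [hOld, mem_filter]
              exact ⟨hh', Or.inr (by omega)⟩
            rw [if_pos hOldm, e1]
            have e2 : γ ^ (k + s) = γ ^ (k' + s) * γ := by
              rw [← pow_succ]; congr 1; omega
            rw [e2]
            have hginv : 1 ≤ γ * (γ ^ 2)⁻¹ := by
              have : γ * (γ ^ 2)⁻¹ = γ⁻¹ := by field_simp
              rw [this]
              exact (one_le_inv₀ hγ0).mpr hγ1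
            calc 2 ^ k' * γ ^ (k' + s) * n0
                ≤ 2 ^ k' * γ ^ (k' + s) * n0 * (γ * (γ ^ 2)⁻¹) := by
                  refine le_mul_of_one_le_right (by (clear * - hγ0 hCpos; positivity)) hginv
              _ ≤ 2 ^ k' * γ ^ (k' + s) * n0 * (γ * (1 + (γ ^ 2)⁻¹)) := by
                  refine mul_le_mul_of_nonneg_left ?_ (by (clear * - hγ0 hCpos; positivity))
                  refine mul_le_mul_of_nonneg_left ?_ hγ0.le
                  linarith only []
              _ = _ := by ring
    refine (Finset.sum_le_sum hterm).trans ?_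
    rw [← Finset.mul_sum, Finset.sum_add_distrib, Finset.sum_const, nsmul_eq_mul, mul_one]
    have hsumOld : ∑ h' ∈ C, (if h' ∈ Old then (γ ^ 2)⁻¹ else 0) = (Old.card : ℝ) * (γ ^ 2)⁻¹ := by
      rw [← Finset.sum_filter, Finset.sum_const, nsmul_eq_mul]
      congr 2
      congr 1
      ext x
      simp only [mem_filter, hOld]
      (clear * -; tauto)
    rw [hsumOld]
    have hg2 : 0 < γ ^ 2 := by positivity
    have h6 : (Old.card : ℝ) * (γ ^ 2)⁻¹ ≤ (C.card : ℝ) := by
      rw [← div_eq_mul_inv, div_le_iff₀ hg2]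
      linarith only [hOld2]
    have hcoef : 0 ≤ 2 ^ (k - 1) * γ ^ (k + s) * n0 := by (clear * - hγ0 hCpos; positivity)
    calc 2 ^ (k - 1) * γ ^ (k + s) * n0 * ((C.card : ℝ) + (Old.card : ℝ) * (γ ^ 2)⁻¹)
        ≤ 2 ^ (k - 1) * γ ^ (k + s) * n0 * ((C.card : ℝ) + (C.card : ℝ)) :=
          mul_le_mul_of_nonneg_left (by linarith only [h6]) hcoef
      _ = (2 ^ (k - 1) * 2) * γ ^ (k + s) * (n0 * (C.card : ℝ)) := by ring
      _ = 2 ^ k * γ ^ (k + s) * ((ext D φ).card : ℝ) := by
          rw [← pow_succ, Nat.sub_add_cancel hkpos, hn0, div_mul_cancel₀ _ hCpos.ne']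

lemma ext_empty (φ : Equiv.Perm H) : ext ∅ φ = matchings H := by
  ext f; simp [mem_ext, mem_matchings]

lemma card_hits_ne_zero (π : H → V) (A : Finset H) (T : Finset V) (f : Equiv.Perm H) :
    (univ.filter (fun u => u ∉ T ∧ hitsR π A f u ≠ 0)).card ≤ A.card := by
  have : univ.filter (fun u => u ∉ T ∧ hitsR π A f u ≠ 0) ⊆ A.image (fun h => π (f h)) := by
    intro u hu
    have hu2 := (Finset.mem_filter.mp hu).2.2
    obtain ⟨h, hh⟩ := Finset.card_pos.mp (Nat.pos_of_ne_zero hu2)
    have hh2 := Finset.mem_filter.mp hh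
    exact mem_image.mpr ⟨h, hh2.1, hh2.2⟩
  exact (Finset.card_le_card this).trans Finset.card_image_le

/-- Two independent matchings: probability that no outside vertex is hit exactly once. -/
lemma collision_pairs (π : H → V) (T : Finset V) (d : ℕ)
    (hd : ∀ u, (univ.filter (fun h => π h = u)).card ≤ d)
    (γ : ℝ) (hγ0 : 0 < γ) (hγ1 : γ ≤ 1)
    (hγ : (((univ.filter (fun h => π h ∈ T)).card : ℝ) +
        2 * d * (univ.filter (fun h => π h ∈ T)).card)
      ≤ γ ^ 2 * ((Fintype.card H : ℝ) + 1 - 2 * (univ.filter (fun h => π h ∈ T)).card)) :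
    ((((matchings H) ×ˢ (matchings H)).filter (fun q => ∀ u, u ∉ T →
      hitsR π (univ.filter (fun h => π h ∈ T)) q.1 u
        + hitsR π (univ.filter (fun h => π h ∈ T)) q.2 u ≠ 1)).card : ℝ)
      ≤ (4 * γ ^ 2) ^ (univ.filter (fun h => π h ∈ T)).card * ((matchings H).card : ℝ) ^ 2 := by
  set TH := univ.filter (fun h => π h ∈ T) with hTH
  set a := TH.card with ha
  have key := exposure π T d hd γ hγ0 hγ1 hγ
  rw [← hTH, ← ha] at key
  have hphase : ∀ c : V → ℕ, (univ.filter (fun u => u ∉ T ∧ c u ≠ 0)).card ≤ a →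
      ∑ f ∈ matchings H, γ ^ sing T (fun u => c u + hitsR π TH f u)
        ≤ 2 ^ a * γ ^ (a + sing T c) * ((matchings H).card : ℝ) := by
    intro c hc
    have := key a ∅ 1 c (by simp only [notMem_empty, Equiv.Perm.coe_one, id_eq, imp_self, implies_true]) (by simp [ha]) (by simp) (by omega)
    rw [ext_empty] at this
    simpa only [ge_iff_le, sdiff_empty] using this
  have h1 : ((((matchings H) ×ˢ (matchings H)).filter (fun q => ∀ u, u ∉ T →
      hitsR π TH q.1 u + hitsR π TH q.2 u ≠ 1)).card : ℝ)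
      ≤ ∑ f ∈ matchings H, ∑ f' ∈ matchings H,
        γ ^ sing T (fun u => hitsR π TH f u + hitsR π TH f' u) := by
    rw [← Finset.sum_product', Finset.card_eq_sum_ones, Nat.cast_sum]
    rw [Finset.sum_filter]
    refine Finset.sum_le_sum (fun q _ => ?_)
    split_ifs with hq
    · have : sing T (fun u => hitsR π TH q.1 u + hitsR π TH q.2 u) = 0 := by
        unfold sing
        rw [Finset.card_eq_zero]
        ext u
        simp only [mem_filter, mem_univ, true_and, notMem_empty, iff_false, not_and]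
        exact hq u
      simp [this]
    · positivity
  refine h1.trans ?_
  calc ∑ f ∈ matchings H, ∑ f' ∈ matchings H,
        γ ^ sing T (fun u => hitsR π TH f u + hitsR π TH f' u)
      ≤ ∑ f ∈ matchings H, 2 ^ a * γ ^ (a + sing T (fun u => hitsR π TH f u))
          * ((matchings H).card : ℝ) :=
        Finset.sum_le_sum (fun f _ => hphase _ (card_hits_ne_zero π TH T f))
    _ = 2 ^ a * γ ^ a * ((matchings H).card : ℝ)
          * ∑ f ∈ matchings H, γ ^ sing T (fun u => 0 + hitsR π TH f u) := by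
        rw [Finset.mul_sum]
        refine Finset.sum_congr rfl (fun f _ => ?_)
        simp only [zero_add]
        rw [pow_add]; ring
    _ ≤ 2 ^ a * γ ^ a * ((matchings H).card : ℝ)
          * (2 ^ a * γ ^ (a + sing T (fun _ => 0)) * ((matchings H).card : ℝ)) := by
        refine mul_le_mul_of_nonneg_left (hphase (fun _ => 0) (by simp)) (by (clear * - hγ0; positivity))
    _ = (4 * γ ^ 2) ^ a * ((matchings H).card : ℝ) ^ 2 := by
        have : sing T (fun _ : V => 0) = 0 := by simp [sing]
        rw [this, add_zero, mul_pow, ← pow_mul, mul_comm 2 a, pow_mul]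
        have h4 : (4 : ℝ) = 2 * 2 := by norm_num
        rw [h4, mul_pow, ← pow_mul, mul_comm a 2, pow_mul]
        ring

end Collision

section Graph

/-- Half-edges at the vertices of `T`. -/
def TH (n d : ℕ) (T : Finset (Fin n)) : Finset (HE n d) := univ.filter (fun h => h.1 ∈ T)

lemma card_TH (n d : ℕ) (T : Finset (Fin n)) : (TH n d T).card = d * T.card := by
  have : TH n d T = T ×ˢ (univ : Finset (Fin d)) := by
    ext ⟨u, k⟩; simp only [TH, mem_filter, mem_univ, true_and, mem_product, and_true]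
  rw [this, Finset.card_product]
  simp only [card_univ, Fintype.card_fin, mul_comm]

lemma collision_bound {n d : ℕ} (hd : 1 ≤ d) (T : Finset (Fin n)) (hT : 1 ≤ T.card)
    (hTn : 6 * d * T.card ≤ n) :
    ((((matchings (HE n d)) ×ˢ (matchings (HE n d))).filter (fun q => ∀ u, u ∉ T →
      hitsR Prod.fst (TH n d T) q.1 u + hitsR Prod.fst (TH n d T) q.2 u ≠ 1)).card : ℝ)
      ≤ (24 * d * T.card / n) ^ (d * T.card) * ((matchings (HE n d)).card : ℝ) ^ 2 := by
  set j := T.card with hj
  have hn : 0 < n := by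
    have : 1 ≤ 6 * d * j := by nlinarith only [hd, hT]
    omega
  have hnR : (0 : ℝ) < n := by exact_mod_cast hn
  have hdR : (1 : ℝ) ≤ d := by exact_mod_cast hd
  have hjR : (1 : ℝ) ≤ j := by exact_mod_cast hT
  have hTnR : 6 * (d : ℝ) * j ≤ n := by exact_mod_cast hTn
  set γ : ℝ := Real.sqrt (6 * d * j / n) with hγ
  have hγ2 : γ ^ 2 = 6 * d * j / n := Real.sq_sqrt (by (clear * - hd hT hn; positivity))
  have hγ0 : 0 < γ := Real.sqrt_pos.mpr (by positivity)
  have hγ1 : γ ≤ 1 := by
    rw [hγ]
    refine Real.sqrt_le_one.mpr ?_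
    rw [div_le_one hnR]; exact hTnR
  have hcard : (univ.filter (fun h : HE n d => h.1 ∈ T)).card = d * j := card_TH n d T
  have := collision_pairs (H := HE n d) (V := Fin n) Prod.fst T d (by
      intro u
      have : univ.filter (fun h : HE n d => h.1 = u) = TH n d {u} := by
        ext h; simp only [mem_filter, mem_univ, true_and, TH, mem_singleton]
      rw [this, card_TH]; simp) γ hγ0 hγ1 (by
      rw [hcard, hγ2]
      have hc : (Fintype.card (HE n d) : ℝ) = n * d := by simp only [HE, Fintype.card_prod, Fintype.card_fin, Nat.cast_mul]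
      rw [hc]
      push_cast
      have h0 : 0 ≤ ((d : ℝ) - 1) * (d * j) := mul_nonneg (by linarith only [hdR]) (by (clear * - hd hT; positivity))
      have h1 : (d : ℝ) * j + 2 * d * (d * j) ≤ 3 * d * (d * j) := by nlinarith only [h0]
      refine h1.trans ?_
      have h2 : (n : ℝ) * d / 2 ≤ (n : ℝ) * d + 1 - 2 * (d * j) := by
        have : 2 * ((d : ℝ) * j) ≤ n * d / 2 := by nlinarith only [h0, hTnR]
        linarith only [this]
      calc 3 * (d : ℝ) * (d * j) = 6 * d * j / n * (n * d / 2) := by field_simp; ring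
        _ ≤ 6 * d * j / n * ((n : ℝ) * d + 1 - 2 * (d * j)) :=
          mul_le_mul_of_nonneg_left h2 (by (clear * - hd hT hn; positivity)))
  rw [hcard, hγ2] at this
  have e : (4 * (6 * (d : ℝ) * j / n)) = 24 * d * j / n := by ring
  rw [e] at this
  rw [show TH n d T = univ.filter (fun h : HE n d => h.1 ∈ T) from rfl]
  convert this

end Graph

end Vale.Agent.P156
end
end

section

section

open Finset

set_option linter.unusedSectionVars false

namespace Vale.Agent.P156

section Types

variable {P S : Type*} [Fintype P] [DecidableEq P] [Fintype S] [DecidableEq S]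

/-- The number of positions carrying the label `a`. -/
def cnt (x : P → S) (a : S) : ℕ := (univ.filter (fun i => x i = a)).card

/-- All label sequences with the same label counts as `s`. -/
def typeClass (s : P → S) : Finset (P → S) := univ.filter (fun x => ∀ a, cnt x a = cnt s a)

lemma cnt_eq_card (x : P → S) (a : S) : cnt x a = Fintype.card {i // x i = a} := by
  rw [cnt, Fintype.card_subtype]

lemma sum_cnt (x : P → S) : ∑ a, cnt x a = Fintype.card P := by
  classical
  unfold cnt
  rw [← Finset.card_eq_sum_card_fiberwise (f := x) (t := univ) (by intro i _; simp only [coe_univ, Set.mem_univ])]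
  simp only [card_univ]

lemma prod_comp_eq {M : Type*} [CommMonoid M] (x : P → S) (q : S → M) :
    ∏ i, q (x i) = ∏ a, q a ^ cnt x a := by
  rw [← Finset.prod_fiberwise (s := univ) (g := x) (f := fun i => q (x i))]
  refine Finset.prod_congr rfl (fun a _ => ?_)
  rw [cnt, ← Finset.prod_const]
  refine Finset.prod_congr rfl (fun i hi => ?_)
  simp only [mem_filter] at hi
  rw [hi.2]

lemma cnt_comp_perm (x : P → S) (τ : Equiv.Perm P) (a : S) : cnt (x ∘ τ) a = cnt x a := by
  rw [cnt_eq_card, cnt_eq_card]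
  refine Fintype.card_congr ?_
  exact (τ.subtypeEquiv (fun i => by simp))

lemma exists_perm_of_cnt {x s : P → S} (h : ∀ a, cnt x a = cnt s a) :
    ∃ τ : Equiv.Perm P, s ∘ τ = x := by
  have e : ∀ a, {i // x i = a} ≃ {i // s i = a} := fun a =>
    Fintype.equivOfCardEq (by rw [← cnt_eq_card, ← cnt_eq_card, h])
  refine ⟨Equiv.ofFiberEquiv e, ?_⟩
  funext i
  exact Equiv.ofFiberEquiv_map e i

lemma card_fiber (s x : P → S) (h : ∀ a, cnt x a = cnt s a) :
    (univ.filter (fun τ : Equiv.Perm P => s ∘ τ = x)).card = ∏ a, (cnt s a).factorial := by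
  obtain ⟨τ0, h0⟩ := exists_perm_of_cnt h
  have h1 : Fintype.card {g : Equiv.Perm P // x ∘ g = x} = ∏ a, (cnt s a).factorial := by
    rw [DomMulAct.stabilizer_card]
    refine Finset.prod_congr rfl (fun a _ => ?_)
    rw [← cnt_eq_card, h]
  rw [← h1, ← Fintype.card_subtype]
  symm
  refine Fintype.card_congr ?_
  refine (Equiv.mulLeft τ0).subtypeEquiv (fun g => ?_)
  simp only [Equiv.coe_mulLeft, Equiv.Perm.coe_mul]
  rw [← Function.comp_assoc, h0]

lemma sum_perm_comp {M : Type*} [AddCommMonoid M] (s : P → S) (F : (P → S) → M) :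
    ∑ τ : Equiv.Perm P, F (s ∘ τ) = (∏ a, (cnt s a).factorial) • ∑ x ∈ typeClass s, F x := by
  rw [← Finset.sum_fiberwise_of_maps_to (s := univ) (t := typeClass s)
    (g := fun τ : Equiv.Perm P => s ∘ τ)]
  · rw [Finset.smul_sum]
    refine Finset.sum_congr rfl (fun x hx => ?_)
    simp only [typeClass, mem_filter, mem_univ, true_and] at hx
    rw [← card_fiber s x hx, ← Finset.sum_const]
    refine Finset.sum_congr rfl (fun τ hτ => ?_)
    simp only [mem_filter, mem_univ, true_and] at hτ
    rw [hτ]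
  · intro τ _
    simp only [typeClass, mem_filter, mem_univ, true_and]
    intro a
    exact cnt_comp_perm s τ a

lemma card_typeClass (s : P → S) :
    (Fintype.card P).factorial = (∏ a, (cnt s a).factorial) * (typeClass s).card := by
  have := sum_perm_comp (M := ℕ) s (fun _ => 1)
  simpa only [sum_const, card_univ, Fintype.card_perm, smul_eq_mul, mul_one] using this

lemma mem_typeClass_self (s : P → S) : s ∈ typeClass s := by simp only [typeClass, mem_filter, mem_univ, implies_true, and_self]

lemma fact_ineq (c j : ℕ) : c.factorial * c ^ j ≤ j.factorial * c ^ c := by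
  rcases le_total c j with h | h
  · calc c.factorial * c ^ j = c.factorial * c ^ (j - c) * c ^ c := by
          rw [mul_assoc, ← pow_add, Nat.sub_add_cancel h]
      _ ≤ j.factorial * c ^ c := Nat.mul_le_mul_right _ (Nat.factorial_mul_pow_sub_le_factorial h)
  · have h2 : c.factorial ≤ j.factorial * c ^ (c - j) := by
      obtain ⟨k, rfl⟩ := Nat.exists_eq_add_of_le h
      rw [Nat.add_sub_cancel_left]
      have key : ∀ k, ∀ C, j + k ≤ C → (j + k).factorial ≤ j.factorial * C ^ k := by
        intro k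
        induction k with
        | zero => intro C _; simp
        | succ k ih =>
          intro C hC
          rw [← add_assoc, Nat.factorial_succ, pow_succ]
          calc (j + k + 1) * (j + k).factorial ≤ C * (j.factorial * C ^ k) :=
                Nat.mul_le_mul (by omega) (ih C (by omega))
            _ = j.factorial * (C ^ k * C) := by ring
      exact key k (j + k) le_rfl
    calc c.factorial * c ^ j ≤ j.factorial * c ^ (c - j) * c ^ j := Nat.mul_le_mul_right _ h2
      _ = j.factorial * c ^ c := by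
          rw [mul_assoc, ← pow_add, Nat.sub_add_cancel h]

/-- The empirical distribution. -/
noncomputable def emp (s : P → S) (a : S) : ℝ := (cnt s a : ℝ) / (Fintype.card P : ℝ)

lemma emp_nonneg (s : P → S) (a : S) : 0 ≤ emp s a := by unfold emp; positivity

lemma sum_emp [Nonempty P] (s : P → S) : ∑ a, emp s a = 1 := by
  unfold emp
  rw [← Finset.sum_div, ← Nat.cast_sum, sum_cnt, div_self]
  exact_mod_cast (Fintype.card_pos).ne'

/-- Weight of a label sequence under i.i.d. labels with law `emp s`. -/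
noncomputable def wt (s : P → S) : ℝ := ∏ i, emp s (s i)

lemma wt_eq (s : P → S) : wt s = ∏ a, emp s a ^ cnt s a := prod_comp_eq s _

lemma emp_pos (s : P → S) (i : P) : 0 < emp s (s i) := by
  unfold emp
  have h1 : 0 < cnt s (s i) := by
    unfold cnt
    exact Finset.card_pos.mpr ⟨i, by simp only [mem_filter, mem_univ, and_self]⟩
  have h2 : 0 < Fintype.card P := Fintype.card_pos_iff.mpr ⟨i⟩
  positivity

lemma wt_pos (s : P → S) : 0 < wt s := Finset.prod_pos (fun i _ => emp_pos s i)

lemma prod_emp_of_mem {s x : P → S} (hx : x ∈ typeClass s) : ∏ i, emp s (x i) = wt s := by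
  rw [wt_eq, prod_comp_eq]
  refine Finset.prod_congr rfl (fun a _ => ?_)
  simp only [typeClass, mem_filter, mem_univ, true_and] at hx
  rw [hx]

lemma class_weight_le (s x : P → S) :
    ((typeClass x).card : ℝ) * ∏ i, emp s (x i) ≤ ((typeClass s).card : ℝ) * wt s := by
  classical
  have hx := card_typeClass x
  have hs := card_typeClass s
  set m := Fintype.card P with hm
  rw [wt_eq, prod_comp_eq]
  have hA : (0 : ℝ) < ∏ a, ((cnt x a).factorial : ℝ) :=
    Finset.prod_pos (fun a _ => by exact_mod_cast Nat.factorial_pos _)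
  have hB : (0 : ℝ) < ∏ a, ((cnt s a).factorial : ℝ) :=
    Finset.prod_pos (fun a _ => by exact_mod_cast Nat.factorial_pos _)
  have hx' : ((typeClass x).card : ℝ) = (m.factorial : ℝ) / ∏ a, ((cnt x a).factorial : ℝ) := by
    rw [eq_div_iff hA.ne', hx]; push_cast; ring
  have hs' : ((typeClass s).card : ℝ) = (m.factorial : ℝ) / ∏ a, ((cnt s a).factorial : ℝ) := by
    rw [eq_div_iff hB.ne', hs]; push_cast; ring
  rw [hx', hs', div_mul_eq_mul_div, div_mul_eq_mul_div, div_le_div_iff₀ hA hB]
  have e1 : ∀ y : P → S, ∏ a, emp s a ^ cnt y a = (∏ a, (cnt s a : ℝ) ^ cnt y a) / (m : ℝ) ^ m := by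
    intro y
    unfold emp
    simp_rw [div_pow]
    rw [Finset.prod_div_distrib, Finset.prod_pow_eq_pow_sum, sum_cnt]
  rw [e1, e1]
  have h3 : (∏ a, (cnt s a : ℝ) ^ cnt x a) * ∏ a, ((cnt s a).factorial : ℝ)
      ≤ (∏ a, (cnt s a : ℝ) ^ cnt s a) * ∏ a, ((cnt x a).factorial : ℝ) := by
    rw [← Finset.prod_mul_distrib, ← Finset.prod_mul_distrib]
    refine Finset.prod_le_prod (fun a _ => by (clear * -; positivity)) (fun a _ => ?_)
    have := fact_ineq (cnt s a) (cnt x a)
    have h' : (((cnt s a).factorial * (cnt s a) ^ (cnt x a) : ℕ) : ℝ)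
        ≤ (((cnt x a).factorial * (cnt s a) ^ (cnt s a) : ℕ) : ℝ) := by exact_mod_cast this
    push_cast at h'
    linarith only [h']
  have hm0 : (0 : ℝ) ≤ (m.factorial : ℝ) / (m : ℝ) ^ m := by (clear * -; positivity)
  calc (m.factorial : ℝ) * ((∏ a, (cnt s a : ℝ) ^ cnt x a) / (m : ℝ) ^ m)
        * ∏ a, ((cnt s a).factorial : ℝ)
      = (m.factorial : ℝ) / (m : ℝ) ^ m * ((∏ a, (cnt s a : ℝ) ^ cnt x a)
        * ∏ a, ((cnt s a).factorial : ℝ)) := by ring
    _ ≤ (m.factorial : ℝ) / (m : ℝ) ^ m * ((∏ a, (cnt s a : ℝ) ^ cnt s a)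
        * ∏ a, ((cnt x a).factorial : ℝ)) := mul_le_mul_of_nonneg_left h3 hm0
    _ = _ := by ring

/-- The type of a label sequence, as an element of a finite set. -/
def typ (x : P → S) : S → Fin (Fintype.card P + 1) := fun a =>
  ⟨cnt x a, Nat.lt_succ_of_le (by
    unfold cnt; exact (Finset.card_filter_le _ _).trans (by simp [Finset.card_univ]))⟩

lemma typ_eq_iff (x y : P → S) : typ x = typ y ↔ ∀ a, cnt x a = cnt y a := by
  constructor
  · intro h a
    have := congrFun h a
    simpa [typ] using this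
  · intro h
    funext a
    simp [typ, h]

/-- The key lower bound on the size of a type class. -/
lemma one_le_card_mul_wt [Nonempty P] (s : P → S) :
    (1 : ℝ) ≤ ((Fintype.card P : ℝ) + 1) ^ Fintype.card S * (((typeClass s).card : ℝ) * wt s) := by
  classical
  have h1 : (1 : ℝ) = ∑ x : P → S, ∏ i, emp s (x i) := by
    rw [← Fintype.prod_sum (fun (_ : P) (a : S) => emp s a)]
    simp only [sum_emp, prod_const_one]
  refine h1.le.trans ?_
  rw [← Finset.sum_fiberwise (s := univ) (g := typ)]
  have h2 : ∀ j : S → Fin (Fintype.card P + 1),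
      ∑ x ∈ univ.filter (fun x : P → S => typ x = j), ∏ i, emp s (x i)
        ≤ ((typeClass s).card : ℝ) * wt s := by
    intro j
    by_cases hj : ∃ x : P → S, typ x = j
    · obtain ⟨x, rfl⟩ := hj
      have : ∑ y ∈ univ.filter (fun y : P → S => typ y = typ x), ∏ i, emp s (y i)
          = ((typeClass x).card : ℝ) * ∏ i, emp s (x i) := by
        rw [← nsmul_eq_mul, ← Finset.sum_const]
        refine Finset.sum_congr ?_ ?_
        · ext y
          simp only [mem_filter, mem_univ, true_and, typeClass, typ_eq_iff]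
        · intro y hy
          simp only [mem_filter, mem_univ, true_and, typeClass] at hy
          rw [prod_comp_eq, prod_comp_eq]
          exact Finset.prod_congr rfl (fun a _ => by rw [hy])
      rw [this]
      exact class_weight_le s x
    · push Not at hj
      have : univ.filter (fun x : P → S => typ x = j) = ∅ := by
        ext x; simp only [mem_filter, mem_univ, hj x, and_false, notMem_empty]
      rw [this, Finset.sum_empty]
      have := wt_pos s
      (clear * - this; positivity)
  calc ∑ j : S → Fin (Fintype.card P + 1),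
        ∑ x ∈ univ.filter (fun x : P → S => typ x = j), ∏ i, emp s (x i)
      ≤ ∑ _j : S → Fin (Fintype.card P + 1), ((typeClass s).card : ℝ) * wt s :=
        Finset.sum_le_sum (fun j _ => h2 j)
    _ = _ := by
        rw [Finset.sum_const, Finset.card_univ, nsmul_eq_mul]
        simp only [Fintype.card_pi, Fintype.card_fin, prod_const, card_univ, Nat.cast_pow, Nat.cast_add, Nat.cast_one]

/-- Domination of the permuted law by the i.i.d. law. -/
lemma perm_avg_le [Nonempty P] (s : P → S) (F : (P → S) → ℝ) (hF : ∀ x, 0 ≤ F x) :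
    (∑ τ : Equiv.Perm P, F (s ∘ τ)) / ((Fintype.card P).factorial : ℝ)
      ≤ ((Fintype.card P : ℝ) + 1) ^ Fintype.card S * ∑ x : P → S, (∏ i, emp s (x i)) * F x := by
  classical
  rw [sum_perm_comp, card_typeClass s, nsmul_eq_mul]
  have hB : (0 : ℝ) < ∏ a, ((cnt s a).factorial : ℝ) :=
    Finset.prod_pos (fun a _ => by exact_mod_cast Nat.factorial_pos _)
  have hT : (0 : ℝ) < ((typeClass s).card : ℝ) := by
    exact_mod_cast Finset.card_pos.mpr ⟨s, mem_typeClass_self s⟩
  push_cast
  rw [mul_div_mul_left _ _ hB.ne', div_le_iff₀ hT]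
  have h1 : ∑ x ∈ typeClass s, F x * wt s ≤ ∑ x : P → S, (∏ i, emp s (x i)) * F x := by
    calc ∑ x ∈ typeClass s, F x * wt s = ∑ x ∈ typeClass s, (∏ i, emp s (x i)) * F x := by
          refine Finset.sum_congr rfl (fun x hx => ?_)
          rw [prod_emp_of_mem hx, mul_comm]
      _ ≤ _ := by
          refine Finset.sum_le_sum_of_subset_of_nonneg (Finset.subset_univ _) (fun x _ _ => ?_)
          exact mul_nonneg (Finset.prod_nonneg (fun i _ => emp_nonneg s _)) (hF x)
  rw [← Finset.sum_mul] at h1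
  have h2 := one_le_card_mul_wt s
  have hsum : 0 ≤ ∑ x ∈ typeClass s, F x := Finset.sum_nonneg (fun x _ => hF x)
  set R : ℝ := ((Fintype.card P : ℝ) + 1) ^ Fintype.card S with hR
  have hR0 : 0 ≤ R := by positivity
  calc ∑ x ∈ typeClass s, F x ≤ (∑ x ∈ typeClass s, F x) * (R * (((typeClass s).card : ℝ) * wt s)) :=
        le_mul_of_one_le_right hsum h2
    _ = R * ((∑ x ∈ typeClass s, F x) * wt s) * ((typeClass s).card : ℝ) := by ring
    _ ≤ R * (∑ x : P → S, (∏ i, emp s (x i)) * F x) * ((typeClass s).card : ℝ) := by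
        refine mul_le_mul_of_nonneg_right (mul_le_mul_of_nonneg_left h1 hR0) hT.le

/-- Sum over all label sequences of their self-weights. -/
lemma sum_wt_le [Nonempty P] :
    ∑ s : P → S, wt s ≤ ((Fintype.card P : ℝ) + 1) ^ Fintype.card S := by
  classical
  rw [← Finset.sum_fiberwise (s := univ) (g := typ)]
  have h2 : ∀ j : S → Fin (Fintype.card P + 1),
      ∑ x ∈ univ.filter (fun x : P → S => typ x = j), wt x ≤ 1 := by
    intro j
    by_cases hj : ∃ x : P → S, typ x = j
    · obtain ⟨x, rfl⟩ := hj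
      calc ∑ y ∈ univ.filter (fun y : P → S => typ y = typ x), wt y
          = ∑ y ∈ univ.filter (fun y : P → S => typ y = typ x), ∏ i, emp x (y i) := by
            refine Finset.sum_congr rfl (fun y hy => ?_)
            simp only [mem_filter, mem_univ, true_and, typ_eq_iff] at hy
            unfold wt emp
            refine Finset.prod_congr rfl (fun i _ => ?_)
            rw [hy]
        _ ≤ ∑ y : P → S, ∏ i, emp x (y i) := by
            refine Finset.sum_le_sum_of_subset_of_nonneg (Finset.subset_univ _) (fun y _ _ => ?_)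
            exact Finset.prod_nonneg (fun i _ => emp_nonneg x _)
        _ = 1 := by
            rw [← Fintype.prod_sum (fun (_ : P) (a : S) => emp x a)]
            simp only [sum_emp, prod_const_one]
    · push Not at hj
      have : univ.filter (fun x : P → S => typ x = j) = ∅ := by
        ext x; simp only [mem_filter, mem_univ, hj x, and_false, notMem_empty]
      rw [this, Finset.sum_empty]
      norm_num
  calc ∑ j : S → Fin (Fintype.card P + 1),
        ∑ x ∈ univ.filter (fun x : P → S => typ x = j), wt x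
      ≤ ∑ _j : S → Fin (Fintype.card P + 1), (1 : ℝ) :=
        Finset.sum_le_sum (fun j _ => h2 j)
    _ = _ := by simp only [sum_const, card_univ, Fintype.card_pi, Fintype.card_fin, prod_const, nsmul_eq_mul, Nat.cast_pow, Nat.cast_add, Nat.cast_one, mul_one]

end Types

end Vale.Agent.P156
end
end

section

section

open Finset

set_option linter.unusedSectionVars false

namespace Vale.Agent.P156

section Spectral

variable {p : ℕ} [Fact p.Prime]

lemma addChar_sum {A ι : Type*} [AddCommGroup A] (ψ : AddChar A ℂ) (t : Finset ι) (f : ι → A) :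
    ψ (∑ i ∈ t, f i) = ∏ i ∈ t, ψ (f i) := by
  classical
  induction t using Finset.induction_on with
  | empty => simp
  | insert a t ha ih => rw [Finset.sum_insert ha, Finset.prod_insert ha, AddChar.map_add_eq_mul, ih]

/-- The bilinear form on `F × F`. -/
def om {p : ℕ} (a b : ZMod p × ZMod p) : ZMod p := a.1 * b.2 + a.2 * b.1

/-- The Fourier kernel on `F × F`. -/
noncomputable def Ker (a b : ZMod p × ZMod p) : ℂ := ZMod.stdAddChar (om a b)

/-- The product of the kernel over all pairs of positions. -/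
noncomputable def GG {I : Type*} [Fintype I] (x : I × Bool → ZMod p × ZMod p) : ℂ :=
  ∏ i, Ker (x (i, false)) (x (i, true))

lemma norm_Ker (a b : ZMod p × ZMod p) : ‖Ker a b‖ = 1 := by
  unfold Ker
  exact AddChar.norm_apply _ _

lemma norm_GG {I : Type*} [Fintype I] (x : I × Bool → ZMod p × ZMod p) : ‖GG x‖ = 1 := by
  unfold GG
  rw [norm_prod]
  exact Finset.prod_eq_one (fun i _ => norm_Ker _ _)

lemma sum_char_eq (c : ZMod p × ZMod p) :
    ∑ a : ZMod p × ZMod p, (ZMod.stdAddChar (a.1 * c.2 + a.2 * c.1) : ℂ)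
      = if c = 0 then (p : ℂ) ^ 2 else 0 := by
  rw [Fintype.sum_prod_type]
  have h1 : ∀ u : ZMod p, ∑ w : ZMod p, (ZMod.stdAddChar (u * c.2 + w * c.1) : ℂ)
      = ZMod.stdAddChar (u * c.2) * ∑ w : ZMod p, (ZMod.stdAddChar (w * c.1) : ℂ) := by
    intro u
    rw [Finset.mul_sum]
    exact Finset.sum_congr rfl (fun w _ => AddChar.map_add_eq_mul _ _ _)
  simp only [h1]
  rw [← Finset.sum_mul, AddChar.sum_mulShift _ (ZMod.isPrimitive_stdAddChar p),
    AddChar.sum_mulShift _ (ZMod.isPrimitive_stdAddChar p), ZMod.card]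
  rcases c with ⟨c1, c2⟩
  by_cases h1 : c1 = 0 <;> by_cases h2 : c2 = 0 <;> simp [h1, h2, sq]

lemma sum_normSq_Ker (y : ZMod p × ZMod p → ℂ) :
    ∑ a, ‖∑ b, Ker a b * y b‖ ^ 2 = (p : ℝ) ^ 2 * ∑ b, ‖y b‖ ^ 2 := by
  have key : (∑ a, (∑ b, Ker a b * y b) * (starRingEnd ℂ) (∑ b, Ker a b * y b))
      = (p : ℂ) ^ 2 * ∑ b, y b * (starRingEnd ℂ) (y b) := by
    have h1 : ∀ a : ZMod p × ZMod p,
        (∑ b, Ker a b * y b) * (starRingEnd ℂ) (∑ b, Ker a b * y b)
        = ∑ b, ∑ b', y b * (starRingEnd ℂ) (y b') *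
          (ZMod.stdAddChar (a.1 * (b - b').2 + a.2 * (b - b').1) : ℂ) := by
      intro a
      rw [map_sum, Finset.sum_mul_sum]
      refine Finset.sum_congr rfl (fun b _ => Finset.sum_congr rfl (fun b' _ => ?_))
      rw [map_mul]
      unfold Ker om
      have h2 : (starRingEnd ℂ) (ZMod.stdAddChar (a.1 * b'.2 + a.2 * b'.1) : ℂ)
          = ZMod.stdAddChar (-(a.1 * b'.2 + a.2 * b'.1)) := by
        rw [AddChar.map_neg_eq_conj]
      rw [h2]
      have h3 : a.1 * (b - b').2 + a.2 * (b - b').1
          = (a.1 * b.2 + a.2 * b.1) + (-(a.1 * b'.2 + a.2 * b'.1)) := by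
        simp only [Prod.fst_sub, Prod.snd_sub]; ring
      have h5 := AddChar.map_add_eq_mul (ZMod.stdAddChar (N := p)) (a.1 * b.2 + a.2 * b.1)
        (-(a.1 * b'.2 + a.2 * b'.1))
      rw [h3, h5]
      ring
    simp only [h1]
    rw [Finset.sum_comm]
    rw [Finset.mul_sum]
    refine Finset.sum_congr rfl (fun b _ => ?_)
    rw [Finset.sum_comm]
    simp only [← Finset.mul_sum, sum_char_eq]
    rw [Finset.sum_eq_single b]
    · simp only [sub_self, ↓reduceIte]; ring
    · intro b' _ hb'
      rw [if_neg]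
      · simp
      · intro h
        exact hb' (sub_eq_zero.mp h).symm
    · simp only [mem_univ, not_true_eq_false, sub_self, ↓reduceIte, mul_eq_zero, map_eq_zero, or_self, ne_eq, OfNat.ofNat_ne_zero, not_false_eq_true, pow_eq_zero_iff, Nat.cast_eq_zero, IsEmpty.forall_iff]
  have h4 : ∀ z : ℂ, z * (starRingEnd ℂ) z = ((‖z‖ ^ 2 : ℝ) : ℂ) := by
    intro z
    rw [Complex.mul_conj, Complex.normSq_eq_norm_sq]
  simp only [h4] at key
  have : ((∑ a, ‖∑ b, Ker a b * y b‖ ^ 2 : ℝ) : ℂ)
      = (((p : ℝ) ^ 2 * ∑ b, ‖y b‖ ^ 2 : ℝ) : ℂ) := by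
    push_cast
    push_cast at key
    exact key
  exact_mod_cast this

lemma norm_bilin_le (y : ZMod p × ZMod p → ℂ) :
    ‖∑ a, ∑ b, Ker a b * y a * y b‖ ≤ (p : ℝ) * ∑ a, ‖y a‖ ^ 2 := by
  have h1 : ∑ a, ∑ b, Ker a b * y a * y b = ∑ a, y a * ∑ b, Ker a b * y b := by
    refine Finset.sum_congr rfl (fun a _ => ?_)
    rw [Finset.mul_sum]
    exact Finset.sum_congr rfl (fun b _ => by ring)
  rw [h1]
  have h2 : ‖∑ a, y a * ∑ b, Ker a b * y b‖ ≤ ∑ a, ‖y a‖ * ‖∑ b, Ker a b * y b‖ := by
    refine (norm_sum_le _ _).trans (le_of_eq ?_)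
    exact Finset.sum_congr rfl (fun a _ => norm_mul _ _)
  refine h2.trans ?_
  have h3 := Finset.sum_mul_sq_le_sq_mul_sq univ (fun a => ‖y a‖) (fun a => ‖∑ b, Ker a b * y b‖)
  rw [sum_normSq_Ker] at h3
  have h4 : (∑ a, ‖y a‖ * ‖∑ b, Ker a b * y b‖) ^ 2 ≤ ((p : ℝ) * ∑ a, ‖y a‖ ^ 2) ^ 2 := by
    refine h3.trans (le_of_eq ?_)
    ring
  have h5 : (0 : ℝ) ≤ (p : ℝ) * ∑ a, ‖y a‖ ^ 2 := by (clear h1 h2 h3 h4; positivity)
  exact abs_le_of_sq_le_sq' h4 h5 |>.2

lemma sum_GG_mul {I : Type*} [Fintype I] [DecidableEq I] (y : ZMod p × ZMod p → ℂ) :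
    ∑ x : I × Bool → ZMod p × ZMod p, GG x * ∏ i, y (x i)
      = (∑ a, ∑ b, Ker a b * y a * y b) ^ Fintype.card I := by
  have e : (I × Bool → ZMod p × ZMod p) ≃ (I → (ZMod p × ZMod p) × (ZMod p × ZMod p)) :=
    (Equiv.curry I Bool (ZMod p × ZMod p)).trans
      (Equiv.piCongrRight (fun _ => Equiv.boolArrowEquivProd _))
  have h1 : ∑ x : I × Bool → ZMod p × ZMod p, GG x * ∏ i, y (x i)
      = ∑ z : I → (ZMod p × ZMod p) × (ZMod p × ZMod p),
        ∏ i, (Ker (z i).1 (z i).2 * y (z i).1 * y (z i).2) := by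
    refine Fintype.sum_equiv ((Equiv.curry I Bool (ZMod p × ZMod p)).trans
      (Equiv.piCongrRight (fun _ => Equiv.boolArrowEquivProd _))) _ _ (fun x => ?_)
    simp only [Equiv.trans_apply, Equiv.piCongrRight_apply, Pi.map_apply,
      Equiv.boolArrowEquivProd_apply, Equiv.curry_apply, Function.curry_apply]
    rw [Fintype.prod_prod_type]
    simp only [Fintype.prod_bool]
    unfold GG
    rw [← Finset.prod_mul_distrib]
    refine Finset.prod_congr rfl (fun i _ => ?_)
    ring
  rw [h1, ← Fintype.prod_sum (fun (_ : I) (z : (ZMod p × ZMod p) × (ZMod p × ZMod p)) =>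
    Ker z.1 z.2 * y z.1 * y z.2)]
  rw [Finset.prod_const, Finset.card_univ, Fintype.sum_prod_type]

/-- Extraction of a type class by characters. -/
lemma extraction {P S : Type*} [Fintype P] [DecidableEq P] [Fintype S] [DecidableEq S]
    (s x : P → S) :
    ∑ k : S → ZMod (Fintype.card P + 1),
      (ZMod.stdAddChar (-(∑ a, k a * (cnt s a : ZMod (Fintype.card P + 1)))) : ℂ)
        * ∏ i, (ZMod.stdAddChar (k (x i)) : ℂ)
      = if x ∈ typeClass s then ((Fintype.card P : ℂ) + 1) ^ Fintype.card S else 0 := by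
  set L := Fintype.card P + 1 with hL
  have h1 : ∀ k : S → ZMod L,
      (ZMod.stdAddChar (-(∑ a, k a * (cnt s a : ZMod L))) : ℂ)
        * ∏ i, (ZMod.stdAddChar (k (x i)) : ℂ)
      = ∏ a, (ZMod.stdAddChar (k a * ((cnt x a : ZMod L) - (cnt s a : ZMod L))) : ℂ) := by
    intro k
    rw [← Finset.sum_neg_distrib, addChar_sum]
    rw [prod_comp_eq x (fun a => (ZMod.stdAddChar (k a) : ℂ)), ← Finset.prod_mul_distrib]
    refine Finset.prod_congr rfl (fun a _ => ?_)
    rw [← AddChar.map_nsmul_eq_pow, ← AddChar.map_add_eq_mul]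
    congr 1
    rw [nsmul_eq_mul]; ring
  simp only [h1]
  rw [← Fintype.prod_sum (fun (a : S) (t : ZMod L) =>
    (ZMod.stdAddChar (t * ((cnt x a : ZMod L) - (cnt s a : ZMod L))) : ℂ))]
  simp only [AddChar.sum_mulShift _ (ZMod.isPrimitive_stdAddChar L), ZMod.card]
  by_cases hx : x ∈ typeClass s
  · rw [if_pos hx]
    simp only [typeClass, mem_filter, mem_univ, true_and] at hx
    simp only [hx, sub_self, if_true]
    rw [Finset.prod_const, Finset.card_univ, hL]
    push_cast
    ring
  · rw [if_neg hx]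
    simp only [typeClass, mem_filter, mem_univ, true_and, not_forall] at hx
    obtain ⟨a, ha⟩ := hx
    refine Finset.prod_eq_zero (mem_univ a) ?_
    rw [if_neg]
    · simp
    · intro h
      apply ha
      have h2 : (cnt x a : ZMod L) = (cnt s a : ZMod L) := sub_eq_zero.mp h
      rw [ZMod.natCast_eq_natCast_iff'] at h2
      have b1 : ∀ y : P → S, cnt y a < L := fun y => by
        rw [hL]
        exact Nat.lt_succ_of_le (by
          unfold cnt; exact (Finset.card_filter_le _ _).trans (by simp only [card_univ, Std.le_refl]))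
      rwa [Nat.mod_eq_of_lt (b1 x), Nat.mod_eq_of_lt (b1 s)] at h2

lemma norm_sum_typeClass_le {I : Type*} [Fintype I] [DecidableEq I]
    (s : I × Bool → ZMod p × ZMod p) (r : ZMod p × ZMod p → ℝ) :
    ‖∑ x ∈ typeClass s, GG x * ∏ i, (r (x i) : ℂ)‖
      ≤ ((p : ℝ) * ∑ a, r a ^ 2) ^ Fintype.card I := by
  set L := Fintype.card (I × Bool) + 1 with hL
  have hLpos : (0 : ℝ) < ((Fintype.card (I × Bool) : ℝ) + 1) ^ Fintype.card (ZMod p × ZMod p) := by
    (clear s r L hL; positivity)
  -- the averaged identity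
  have h1 : ((((Fintype.card (I × Bool) : ℝ) + 1) ^ Fintype.card (ZMod p × ZMod p) : ℝ) : ℂ)
        * ∑ x ∈ typeClass s, GG x * ∏ i, (r (x i) : ℂ)
      = ∑ k : ZMod p × ZMod p → ZMod L,
        (ZMod.stdAddChar (-(∑ a, k a * (cnt s a : ZMod L))) : ℂ) *
          (∑ a, ∑ b, Ker a b * ((r a : ℂ) * (ZMod.stdAddChar (k a) : ℂ))
            * ((r b : ℂ) * (ZMod.stdAddChar (k b) : ℂ))) ^ Fintype.card I := by
    have h2 : ∀ k : ZMod p × ZMod p → ZMod L,
        (∑ a, ∑ b, Ker a b * ((r a : ℂ) * (ZMod.stdAddChar (k a) : ℂ))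
            * ((r b : ℂ) * (ZMod.stdAddChar (k b) : ℂ))) ^ Fintype.card I
        = ∑ x : I × Bool → ZMod p × ZMod p, GG x * ∏ i, ((r (x i) : ℂ) *
          (ZMod.stdAddChar (k (x i)) : ℂ)) := by
      intro k
      rw [sum_GG_mul (fun a => (r a : ℂ) * (ZMod.stdAddChar (k a) : ℂ))]
    simp only [h2, Finset.mul_sum]
    rw [Finset.sum_comm]
    have h3 : ∀ x : I × Bool → ZMod p × ZMod p,
        ∑ k : ZMod p × ZMod p → ZMod L,
          (ZMod.stdAddChar (-(∑ a, k a * (cnt s a : ZMod L))) : ℂ) *
          (GG x * ∏ i, ((r (x i) : ℂ) * (ZMod.stdAddChar (k (x i)) : ℂ)))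
        = if x ∈ typeClass s then
          ((((Fintype.card (I × Bool) : ℝ) + 1) ^ Fintype.card (ZMod p × ZMod p) : ℝ) : ℂ)
            * (GG x * ∏ i, (r (x i) : ℂ)) else 0 := by
      intro x
      have h4 := extraction s x
      calc ∑ k : ZMod p × ZMod p → ZMod L,
          (ZMod.stdAddChar (-(∑ a, k a * (cnt s a : ZMod L))) : ℂ) *
          (GG x * ∏ i, ((r (x i) : ℂ) * (ZMod.stdAddChar (k (x i)) : ℂ)))
          = (GG x * ∏ i, (r (x i) : ℂ)) * ∑ k : ZMod p × ZMod p → ZMod L,
          (ZMod.stdAddChar (-(∑ a, k a * (cnt s a : ZMod L))) : ℂ) *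
            ∏ i, (ZMod.stdAddChar (k (x i)) : ℂ) := by
            rw [Finset.mul_sum]
            refine Finset.sum_congr rfl (fun k _ => ?_)
            rw [Finset.prod_mul_distrib]; ring
        _ = _ := by
            rw [h4]
            split_ifs
            · push_cast; ring
            · simp only [mul_zero]
    simp only [h3]
    rw [← Finset.sum_filter]
    congr 1
    ext x; simp only [subset_univ, filter_mem_eq_of_subset]
  have h5 : ‖((((Fintype.card (I × Bool) : ℝ) + 1) ^ Fintype.card (ZMod p × ZMod p) : ℝ) : ℂ)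
        * ∑ x ∈ typeClass s, GG x * ∏ i, (r (x i) : ℂ)‖
      ≤ ((Fintype.card (I × Bool) : ℝ) + 1) ^ Fintype.card (ZMod p × ZMod p) *
        ((p : ℝ) * ∑ a, r a ^ 2) ^ Fintype.card I := by
    rw [h1]
    refine (norm_sum_le _ _).trans ?_
    have h6 : ∀ k : ZMod p × ZMod p → ZMod L,
        ‖(ZMod.stdAddChar (-(∑ a, k a * (cnt s a : ZMod L))) : ℂ) *
          (∑ a, ∑ b, Ker a b * ((r a : ℂ) * (ZMod.stdAddChar (k a) : ℂ))
            * ((r b : ℂ) * (ZMod.stdAddChar (k b) : ℂ))) ^ Fintype.card I‖
        ≤ ((p : ℝ) * ∑ a, r a ^ 2) ^ Fintype.card I := by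
      intro k
      rw [norm_mul, AddChar.norm_apply, one_mul, norm_pow]
      refine pow_le_pow_left₀ (norm_nonneg _) ?_ _
      refine (norm_bilin_le (fun a => (r a : ℂ) * (ZMod.stdAddChar (k a) : ℂ))).trans
        (le_of_eq ?_)
      congr 1
      refine Finset.sum_congr rfl (fun a _ => ?_)
      rw [norm_mul, AddChar.norm_apply, mul_one]
      simp
    refine (Finset.sum_le_sum (fun k _ => h6 k)).trans (le_of_eq ?_)
    rw [Finset.sum_const, Finset.card_univ, nsmul_eq_mul]
    simp only [hL, Fintype.card_prod, Fintype.card_bool, Fintype.card_pi, ZMod.card, prod_const, card_univ, Nat.cast_pow, Nat.cast_add, Nat.cast_mul, Nat.cast_ofNat, Nat.cast_one]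
  rw [norm_mul] at h5
  have h7 : ‖((((Fintype.card (I × Bool) : ℝ) + 1) ^ Fintype.card (ZMod p × ZMod p) : ℝ) : ℂ)‖
      = ((Fintype.card (I × Bool) : ℝ) + 1) ^ Fintype.card (ZMod p × ZMod p) := by
    rw [Complex.norm_real, Real.norm_of_nonneg hLpos.le]
  rw [h7] at h5
  exact le_of_mul_le_mul_left h5 hLpos

/-- The averaged kernel. -/
noncomputable def ZZ {I : Type*} [Fintype I] [DecidableEq I]
    (s : I × Bool → ZMod p × ZMod p) : ℂ :=
  (∑ τ : Equiv.Perm (I × Bool), GG (s ∘ τ)) / ((Fintype.card (I × Bool)).factorial : ℂ)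

/-- Spectral bound. -/
lemma norm_ZZ_le {I : Type*} [Fintype I] [DecidableEq I] [Nonempty I]
    (s : I × Bool → ZMod p × ZMod p) :
    ‖ZZ s‖ ≤ ((Fintype.card (I × Bool) : ℝ) + 1) ^ Fintype.card (ZMod p × ZMod p)
      * ((p : ℝ) ^ Fintype.card I * Real.sqrt (wt s)) := by
  have hw := wt_pos s
  have hB : (0 : ℝ) < ∏ a, ((cnt s a).factorial : ℝ) :=
    Finset.prod_pos (fun a _ => by exact_mod_cast Nat.factorial_pos _)
  have hT : (0 : ℝ) < ((typeClass s).card : ℝ) := by
    exact_mod_cast Finset.card_pos.mpr ⟨s, mem_typeClass_self s⟩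
  have h1 : ‖ZZ s‖ = ‖∑ x ∈ typeClass s, GG x‖ / ((typeClass s).card : ℝ) := by
    unfold ZZ
    rw [sum_perm_comp, card_typeClass s, nsmul_eq_mul]
    push_cast
    rw [norm_div, norm_mul, norm_mul]
    have h2 : ‖(∏ a, ((cnt s a).factorial : ℂ))‖ = ∏ a, ((cnt s a).factorial : ℝ) := by
      rw [norm_prod]
      exact Finset.prod_congr rfl (fun a _ => by simp)
    rw [h2, mul_div_mul_left _ _ hB.ne']
    simp only [RCLike.norm_natCast]
  have h3 := norm_sum_typeClass_le s (fun a => Real.sqrt (emp s a))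
  have h4 : ∑ x ∈ typeClass s, GG x * ∏ i, (((Real.sqrt (emp s (x i)) : ℝ)) : ℂ)
      = (∑ x ∈ typeClass s, GG x) * ((Real.sqrt (wt s) : ℝ) : ℂ) := by
    rw [Finset.sum_mul]
    refine Finset.sum_congr rfl (fun x hx => ?_)
    congr 1
    rw [← Complex.ofReal_prod]
    congr 1
    rw [← prod_emp_of_mem hx, Real.sqrt_prod]
    exact fun i _ => emp_nonneg _ _
  rw [h4, norm_mul, Complex.norm_real, Real.norm_of_nonneg (Real.sqrt_nonneg _)] at h3
  have h5 : ∑ a, Real.sqrt (emp s a) ^ 2 = 1 := by
    rw [← sum_emp s]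
    exact Finset.sum_congr rfl (fun a _ => Real.sq_sqrt (emp_nonneg s a))
  rw [h5, mul_one] at h3
  rw [h1, div_le_iff₀ hT]
  have h6 := one_le_card_mul_wt s
  set R : ℝ := ((Fintype.card (I × Bool) : ℝ) + 1) ^ Fintype.card (ZMod p × ZMod p) with hR
  set Y : ℝ := ‖∑ x ∈ typeClass s, GG x‖ with hY
  have hY0 : 0 ≤ Y := norm_nonneg _
  have hR0 : 0 ≤ R := by positivity
  have hsq : Real.sqrt (wt s) * Real.sqrt (wt s) = wt s := Real.mul_self_sqrt hw.le
  calc Y ≤ Y * (R * (((typeClass s).card : ℝ) * wt s)) := le_mul_of_one_le_right hY0 h6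
    _ = Y * R * ((typeClass s).card : ℝ) * (Real.sqrt (wt s) * Real.sqrt (wt s)) := by
        rw [hsq]; ring
    _ = (Y * Real.sqrt (wt s)) * (R * Real.sqrt (wt s) * ((typeClass s).card : ℝ)) := by
        ring
    _ ≤ (p : ℝ) ^ Fintype.card I * (R * Real.sqrt (wt s) * ((typeClass s).card : ℝ)) := by
        refine mul_le_mul_of_nonneg_right h3 ?_
        have := Real.sqrt_nonneg (wt s)
        (clear hB h4 h5 h6 hR Y h1 h3 hY hY0 hR0 hsq this; positivity)
    _ = _ := by ring

end Spectral

end Vale.Agent.P156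
end
end

section

section

open Finset

set_option linter.unusedSectionVars false

namespace Vale.Agent.P156

section Link

variable {H I : Type*} [Fintype H] [DecidableEq H] [Fintype I] [DecidableEq I]

/-- The reference matching of `I × Bool`. -/
def flipP (I : Type*) : Equiv.Perm (I × Bool) where
  toFun := fun x => (x.1, !x.2)
  invFun := fun x => (x.1, !x.2)
  left_inv := by rintro ⟨i, b⟩; simp
  right_inv := by rintro ⟨i, b⟩; simp

lemma flipP_apply (x : I × Bool) : flipP I x = (x.1, !x.2) := rfl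

/-- Every matching is conjugate to the reference matching. -/
lemma exists_equiv_of_matching {f : Equiv.Perm H} (hf : IsMatching f)
    (hc : Fintype.card H = 2 * Fintype.card I) :
    ∃ e : I × Bool ≃ H, ∀ x, f (e x) = e (flipP I x) := by
  classical
  let : LinearOrder H := LinearOrder.lift' (Fintype.equivFin H) (Equiv.injective _)
  let e0 : {h : H // h < f h} × Bool ≃ H :=
    { toFun := fun x => if x.2 then f x.1.1 else x.1.1
      invFun := fun h => if hh : h < f h then (⟨h, hh⟩, false) else
        (⟨f h, by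
          rw [hf.1]
          exact lt_of_le_of_ne (not_lt.mp hh) (hf.2 h)⟩, true)
      left_inv := by
        rintro ⟨⟨h, hh⟩, b⟩
        cases b
        · simp [hh]
        · have : ¬ (f h < h) := not_lt.mpr hh.le
          simp [this, hf.1]
      right_inv := by
        intro h
        by_cases hh : h < f h
        · simp [hh]
        · simp [hh, hf.1] }
  have hcard : Fintype.card {h : H // h < f h} = Fintype.card I := by
    have := Fintype.card_congr e0
    rw [Fintype.card_prod, Fintype.card_bool, hc] at this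
    omega
  let g : I ≃ {h : H // h < f h} := Fintype.equivOfCardEq hcard.symm
  refine ⟨(Equiv.prodCongr g (Equiv.refl Bool)).trans e0, ?_⟩
  rintro ⟨i, b⟩
  cases b
  · simp [flipP, e0]
  · simp only [Equiv.trans_apply, Equiv.prodCongr_apply, Equiv.coe_refl, Prod.map_apply, id_eq, Equiv.coe_fn_mk, ↓reduceIte, hf.1, flipP, Bool.not_true, Bool.false_eq_true, e0]

/-- The matching of `H` obtained from a permutation of the positions. -/
def mOf (e0 : I × Bool ≃ H) (τ : Equiv.Perm (I × Bool)) : Equiv.Perm H :=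
  (e0.symm.trans (τ.symm.trans ((flipP I).trans (τ.trans e0))))

lemma mOf_apply (e0 : I × Bool ≃ H) (τ : Equiv.Perm (I × Bool)) (x : I × Bool) :
    mOf e0 τ (e0 (τ x)) = e0 (τ (flipP I x)) := by
  simp [mOf]

lemma mOf_matching (e0 : I × Bool ≃ H) (τ : Equiv.Perm (I × Bool)) : IsMatching (mOf e0 τ) := by
  constructor
  · intro h
    obtain ⟨x, rfl⟩ := (τ.trans e0).surjective h
    simp only [Equiv.trans_apply]
    rw [mOf_apply, mOf_apply]
    simp [flipP]
  · intro h
    obtain ⟨x, rfl⟩ := (τ.trans e0).surjective h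
    simp only [Equiv.trans_apply]
    rw [mOf_apply]
    intro hc
    have := τ.injective (e0.injective hc)
    rw [flipP_apply] at this
    have h2 := congrArg Prod.snd this
    simp at h2

lemma exists_tau {f : Equiv.Perm H} (hf : IsMatching f) (e0 : I × Bool ≃ H) :
    ∃ τ : Equiv.Perm (I × Bool), mOf e0 τ = f := by
  have hc : Fintype.card H = 2 * Fintype.card I := by
    have := Fintype.card_congr e0
    rw [Fintype.card_prod, Fintype.card_bool] at this
    omega
  obtain ⟨e, he⟩ := exists_equiv_of_matching (I := I) hf hc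
  refine ⟨e.trans e0.symm, ?_⟩
  ext h
  obtain ⟨x, rfl⟩ := e.surjective h
  have h1 := mOf_apply e0 (e.trans e0.symm) x
  simp only [Equiv.trans_apply, Equiv.apply_symm_apply] at h1
  rw [h1, he]

lemma mOf_eq_iff (e0 : I × Bool ≃ H) (τ τ' : Equiv.Perm (I × Bool)) :
    mOf e0 τ = mOf e0 τ' ↔ τ * flipP I * τ⁻¹ = τ' * flipP I * τ'⁻¹ := by
  constructor
  · intro h
    ext1 x
    have h1 := congrArg (fun f : Equiv.Perm H => e0.symm (f (e0 x))) h
    simpa only [Equiv.Perm.mul_apply, Equiv.Perm.coe_inv, mOf, Equiv.trans_apply, Equiv.symm_apply_apply] using h1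
  · intro h
    ext1 y
    have h1 := congrArg (fun f : Equiv.Perm (I × Bool) => e0 (f (e0.symm y))) h
    simpa only [mOf, Equiv.trans_apply, EmbeddingLike.apply_eq_iff_eq, Equiv.Perm.mul_apply,     Equiv.Perm.coe_inv] using h1

lemma fiber_const (e0 : I × Bool ≃ H) {f f' : Equiv.Perm H} (hf : IsMatching f)
    (hf' : IsMatching f') :
    (univ.filter (fun τ : Equiv.Perm (I × Bool) => mOf e0 τ = f)).card
      ≤ (univ.filter (fun τ : Equiv.Perm (I × Bool) => mOf e0 τ = f')).card := by
  obtain ⟨τ0, h0⟩ := exists_tau hf e0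
  obtain ⟨τ1, h1⟩ := exists_tau hf' e0
  refine Finset.card_le_card_of_injOn (fun τ => τ1 * τ0⁻¹ * τ) ?_ ?_
  · intro τ hτ
    simp only [Finset.coe_filter, mem_univ, true_and, Set.mem_ofPred_eq] at hτ ⊢
    rw [← h0, mOf_eq_iff] at hτ
    rw [← h1, mOf_eq_iff]
    calc τ1 * τ0⁻¹ * τ * flipP I * (τ1 * τ0⁻¹ * τ)⁻¹
        = τ1 * τ0⁻¹ * (τ * flipP I * τ⁻¹) * (τ0 * τ1⁻¹) := by group
      _ = τ1 * flipP I * τ1⁻¹ := by rw [hτ]; group
  · intro τ _ τ' _ h
    exact mul_left_cancel h

/-- Averages over matchings are averages over permutations of the positions. -/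
lemma avg_eq (e0 : I × Bool ≃ H) (g : Equiv.Perm H → ℂ) :
    (∑ f ∈ matchings H, g f) / ((matchings H).card : ℂ)
      = (∑ τ : Equiv.Perm (I × Bool), g (mOf e0 τ))
        / ((Fintype.card (I × Bool)).factorial : ℂ) := by
  classical
  obtain ⟨c, hc⟩ : ∃ c : ℕ, ∀ f ∈ matchings H,
      (univ.filter (fun τ : Equiv.Perm (I × Bool) => mOf e0 τ = f)).card = c := by
    refine ⟨(univ.filter (fun τ : Equiv.Perm (I × Bool) => mOf e0 τ = mOf e0 1)).card,
      fun f hf => ?_⟩
    rw [mem_matchings] at hf
    exact le_antisymm (fiber_const e0 hf (mOf_matching e0 1))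
      (fiber_const e0 (mOf_matching e0 1) hf)
  have h1 : ∀ G : Equiv.Perm H → ℂ, ∑ τ : Equiv.Perm (I × Bool), G (mOf e0 τ)
      = (c : ℂ) * ∑ f ∈ matchings H, G f := by
    intro G
    rw [← Finset.sum_fiberwise_of_maps_to (s := univ) (t := matchings H)
      (g := fun τ : Equiv.Perm (I × Bool) => mOf e0 τ)
      (fun τ _ => mem_matchings.mpr (mOf_matching e0 τ)), Finset.mul_sum]
    refine Finset.sum_congr rfl (fun f hf => ?_)
    rw [← hc f hf, ← nsmul_eq_mul, ← Finset.sum_const]
    refine Finset.sum_congr rfl (fun τ hτ => ?_)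
    rw [(Finset.mem_filter.mp hτ).2]
  have h2 : ((Fintype.card (I × Bool)).factorial : ℂ) = (c : ℂ) * ((matchings H).card : ℂ) := by
    have := h1 (fun _ => 1)
    simpa only [Fintype.card_prod, Fintype.card_bool, sum_const, card_univ, Fintype.card_perm, nsmul_eq_mul,     mul_one] using this
  have hM : (matchings H).card ≠ 0 := by
    rw [Finset.card_ne_zero]
    exact ⟨mOf e0 1, mem_matchings.mpr (mOf_matching e0 1)⟩
  have hcne : c ≠ 0 := by
    intro h
    rw [h] at h2
    simp only [Fintype.card_prod, Fintype.card_bool, CharP.cast_eq_zero, zero_mul, Nat.cast_eq_zero] at h2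
    exact absurd h2 (Nat.factorial_ne_zero _)
  have hMc : ((matchings H).card : ℂ) ≠ 0 := by exact_mod_cast hM
  have hcc : (c : ℂ) ≠ 0 := by exact_mod_cast hcne
  rw [h1, h2, mul_div_mul_left _ _ hcc]

lemma matchings_nonempty (e0 : I × Bool ≃ H) : (matchings H).Nonempty :=
  ⟨mOf e0 1, mem_matchings.mpr (mOf_matching e0 1)⟩

end Link

section Char

variable {n d p : ℕ} [Fact p.Prime]

/-- The character sum attached to a pair of vertex labelings. -/
noncomputable def Zf (d : ℕ) (v t : Fin n → ZMod p) : ℂ :=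
  (∑ f ∈ matchings (HE n d), (ZMod.stdAddChar (∑ h : HE n d, t h.1 * v (f h).1) : ℂ))
    / ((matchings (HE n d)).card : ℂ)

lemma Zf_eq_ZZ {I : Type*} [Fintype I] [DecidableEq I] (e0 : I × Bool ≃ HE n d)
    (v t : Fin n → ZMod p) :
    Zf d v t = ZZ (fun y => (v (e0 y).1, t (e0 y).1)) := by
  unfold Zf ZZ
  rw [avg_eq e0]
  congr 1
  refine Finset.sum_congr rfl (fun τ _ => ?_)
  unfold GG Ker
  rw [← addChar_sum]
  congr 1
  rw [← Equiv.sum_comp (τ.trans e0) (fun h : HE n d => t h.1 * v (mOf e0 τ h).1)]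
  rw [Fintype.sum_prod_type]
  refine Finset.sum_congr rfl (fun i _ => ?_)
  rw [Fintype.sum_bool]
  simp only [Equiv.trans_apply, mOf_apply, flipP_apply, Function.comp_apply, om, Bool.not_true,
    Bool.not_false]
  ring

end Char

end Vale.Agent.P156
end
end

section

section

open Finset

set_option linter.unusedSectionVars false

namespace Vale.Agent.P156

section Fourier

variable {n d p : ℕ} [Fact p.Prime]

/-- The adjacency operator of the multigraph of `f`. -/
def mulM {R : Type*} [AddCommMonoid R] (f : Equiv.Perm (HE n d)) (v : Fin n → R) (u : Fin n) : R :=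
  ∑ k : Fin d, v (f (u, k)).1

lemma sum_HE_mul (f : Equiv.Perm (HE n d)) (v t : Fin n → ZMod p) :
    ∑ h : HE n d, t h.1 * v (f h).1 = ∑ u, t u * mulM f v u := by
  rw [Fintype.sum_prod_type]
  refine Finset.sum_congr rfl (fun u _ => ?_)
  rw [mulM, Finset.mul_sum]

lemma sum_HE_symm {f : Equiv.Perm (HE n d)} (hf : IsMatching f) (v t : Fin n → ZMod p) :
    ∑ h : HE n d, t h.1 * v (f h).1 = ∑ u, v u * mulM f t u := by
  rw [← sum_HE_mul, ← Equiv.sum_comp f]
  refine Finset.sum_congr rfl (fun h _ => ?_)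
  rw [hf.1, mul_comm]

lemma sum_char_vec (w : Fin n → ZMod p) :
    ∑ t : Fin n → ZMod p, (ZMod.stdAddChar (∑ u, t u * w u) : ℂ)
      = if w = 0 then (p : ℂ) ^ n else 0 := by
  have h1 : ∀ t : Fin n → ZMod p, (ZMod.stdAddChar (∑ u, t u * w u) : ℂ)
      = ∏ u, (ZMod.stdAddChar (t u * w u) : ℂ) := fun t => addChar_sum _ _ _
  simp only [h1]
  rw [← Fintype.prod_sum (fun (u : Fin n) (x : ZMod p) => (ZMod.stdAddChar (x * w u) : ℂ))]
  simp only [AddChar.sum_mulShift _ (ZMod.isPrimitive_stdAddChar p), ZMod.card]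
  by_cases hw : w = 0
  · simp only [hw, Pi.zero_apply, ↓reduceIte, prod_const, card_univ, Fintype.card_fin]
  · rw [if_neg hw]
    obtain ⟨u, hu⟩ := Function.ne_iff.mp hw
    refine Finset.prod_eq_zero (mem_univ u) ?_
    have : w u ≠ 0 := hu
    simp [this]

/-- Number of matchings for which `v` is an `α`-eigenvector. -/
def Nv (d : ℕ) (α : ZMod p) (v : Fin n → ZMod p) : ℕ :=
  ((matchings (HE n d)).filter (fun f => ∀ u, mulM f v u = α * v u)).card

lemma Nv_le (α : ZMod p) (v : Fin n → ZMod p) :
    (Nv d α v : ℝ) * (p : ℝ) ^ n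
      ≤ ((matchings (HE n d)).card : ℝ) * ∑ t : Fin n → ZMod p, ‖Zf d v t‖ := by
  classical
  have h1 : ((Nv d α v : ℝ) * (p : ℝ) ^ n : ℂ)
      = ∑ t : Fin n → ZMod p, (ZMod.stdAddChar (-(∑ u, t u * (α * v u))) : ℂ) *
        ∑ f ∈ matchings (HE n d), (ZMod.stdAddChar (∑ h : HE n d, t h.1 * v (f h).1) : ℂ) := by
    simp only [Finset.mul_sum]
    rw [Finset.sum_comm]
    have h2 : ∀ f ∈ matchings (HE n d), ∑ t : Fin n → ZMod p,
        (ZMod.stdAddChar (-(∑ u, t u * (α * v u))) : ℂ) *
          (ZMod.stdAddChar (∑ h : HE n d, t h.1 * v (f h).1) : ℂ)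
        = if (∀ u, mulM f v u = α * v u) then (p : ℂ) ^ n else 0 := by
      intro f _
      have h3 := sum_char_vec (n := n) (fun u => mulM f v u - α * v u)
      have h4 : ((fun u => mulM f v u - α * v u) = 0) ↔ ∀ u, mulM f v u = α * v u := by
        constructor
        · intro h u; exact sub_eq_zero.mp (congrFun h u)
        · intro h; funext u; exact sub_eq_zero.mpr (h u)
      simp only [h4] at h3
      rw [← h3]
      refine Finset.sum_congr rfl (fun t _ => ?_)
      rw [← AddChar.map_add_eq_mul, sum_HE_mul]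
      congr 1
      rw [← Finset.sum_neg_distrib, ← Finset.sum_add_distrib]
      refine Finset.sum_congr rfl (fun u _ => ?_)
      ring
    rw [Finset.sum_congr rfl h2, ← Finset.sum_filter, Finset.sum_const, nsmul_eq_mul]
    simp only [Nv, Complex.ofReal_natCast]
  have h5 : (Nv d α v : ℝ) * (p : ℝ) ^ n
      = ‖∑ t : Fin n → ZMod p, (ZMod.stdAddChar (-(∑ u, t u * (α * v u))) : ℂ) *
        ∑ f ∈ matchings (HE n d), (ZMod.stdAddChar (∑ h : HE n d, t h.1 * v (f h).1) : ℂ)‖ := by
    rw [← h1]
    rw [norm_mul, norm_pow]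
    simp only [Complex.ofReal_natCast, RCLike.norm_natCast]
  rw [h5]
  refine (norm_sum_le _ _).trans ?_
  rw [Finset.mul_sum]
  refine Finset.sum_le_sum (fun t _ => ?_)
  rw [norm_mul, AddChar.norm_apply, one_mul]
  unfold Zf
  rw [norm_div]
  by_cases hM : ((matchings (HE n d)).card : ℝ) = 0
  · have hM' : (matchings (HE n d)).card = 0 := by exact_mod_cast hM
    rw [Finset.card_eq_zero.mp hM']
    simp only [sum_empty, norm_zero, card_empty, CharP.cast_eq_zero, div_zero, mul_zero, Std.le_refl]
  · have : ‖((matchings (HE n d)).card : ℂ)‖ = ((matchings (HE n d)).card : ℝ) := by simp only [RCLike.norm_natCast]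
    rw [this, mul_div_cancel₀ _ hM]

/-- Number of pairs of matchings whose adjacency operators agree on `t`. -/
def coll (d : ℕ) (t : Fin n → ZMod p) : ℕ :=
  (((matchings (HE n d)) ×ˢ (matchings (HE n d))).filter
    (fun q => mulM q.1 t = mulM q.2 t)).card

lemma sum_normSq_Zf (t : Fin n → ZMod p) :
    (∑ v : Fin n → ZMod p, ‖Zf d v t‖ ^ 2) * ((matchings (HE n d)).card : ℝ) ^ 2
      = (p : ℝ) ^ n * (coll d t : ℝ) := by
  classical
  set M := matchings (HE n d) with hM
  by_cases hM0 : (M.card : ℝ) = 0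
  · have hM' : M.card = 0 := by exact_mod_cast hM0
    have hE := Finset.card_eq_zero.mp hM'
    have : coll d t = 0 := by
      unfold coll
      rw [← hM, hE]; simp
    rw [this, hM0]; simp only [ne_eq, OfNat.ofNat_ne_zero, not_false_eq_true, zero_pow, mul_zero, CharP.cast_eq_zero]
  have key : (∑ v : Fin n → ZMod p,
      (∑ f ∈ M, (ZMod.stdAddChar (∑ h : HE n d, t h.1 * v (f h).1) : ℂ)) *
        (starRingEnd ℂ) (∑ f ∈ M, (ZMod.stdAddChar (∑ h : HE n d, t h.1 * v (f h).1) : ℂ)))
      = (p : ℂ) ^ n * (coll d t : ℂ) := by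
    have h1 : ∀ v : Fin n → ZMod p,
        (∑ f ∈ M, (ZMod.stdAddChar (∑ h : HE n d, t h.1 * v (f h).1) : ℂ)) *
        (starRingEnd ℂ) (∑ f ∈ M, (ZMod.stdAddChar (∑ h : HE n d, t h.1 * v (f h).1) : ℂ))
        = ∑ q ∈ M ×ˢ M, (ZMod.stdAddChar (∑ u, v u * (mulM q.1 t u - mulM q.2 t u)) : ℂ) := by
      intro v
      rw [map_sum, Finset.sum_mul_sum, ← Finset.sum_product']
      refine Finset.sum_congr rfl (fun q hq => ?_)
      rw [mem_product] at hq
      rw [← AddChar.map_neg_eq_conj, ← AddChar.map_add_eq_mul,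
        sum_HE_symm (mem_matchings.mp hq.1), sum_HE_symm (mem_matchings.mp hq.2)]
      congr 1
      rw [← Finset.sum_neg_distrib, ← Finset.sum_add_distrib]
      refine Finset.sum_congr rfl (fun u _ => ?_)
      ring
    simp only [h1]
    rw [Finset.sum_comm]
    have h2 : ∀ q ∈ M ×ˢ M, ∑ v : Fin n → ZMod p,
        (ZMod.stdAddChar (∑ u, v u * (mulM q.1 t u - mulM q.2 t u)) : ℂ)
        = if mulM q.1 t = mulM q.2 t then (p : ℂ) ^ n else 0 := by
      intro q _
      have h3 := sum_char_vec (n := n) (fun u => mulM q.1 t u - mulM q.2 t u)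
      have h4 : ((fun u => mulM q.1 t u - mulM q.2 t u) = 0) ↔ mulM q.1 t = mulM q.2 t := by
        constructor
        · intro h; funext u; exact sub_eq_zero.mp (congrFun h u)
        · intro h; funext u; exact sub_eq_zero.mpr (congrFun h u)
      simp only [h4] at h3
      exact h3
    rw [Finset.sum_congr rfl h2, ← Finset.sum_filter, Finset.sum_const, nsmul_eq_mul]
    unfold coll
    rw [mul_comm]
  have h4 : ∀ z : ℂ, z * (starRingEnd ℂ) z = ((‖z‖ ^ 2 : ℝ) : ℂ) := by
    intro z
    rw [Complex.mul_conj, Complex.normSq_eq_norm_sq]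
  simp only [h4] at key
  have key2 : ∑ v : Fin n → ZMod p,
      ‖∑ f ∈ M, (ZMod.stdAddChar (∑ h : HE n d, t h.1 * v (f h).1) : ℂ)‖ ^ 2
      = (p : ℝ) ^ n * (coll d t : ℝ) := by
    have : ((∑ v : Fin n → ZMod p,
      ‖∑ f ∈ M, (ZMod.stdAddChar (∑ h : HE n d, t h.1 * v (f h).1) : ℂ)‖ ^ 2 : ℝ) : ℂ)
      = (((p : ℝ) ^ n * (coll d t : ℝ) : ℝ) : ℂ) := by
      push_cast
      push_cast at key
      exact key
    exact_mod_cast this
  rw [← key2, Finset.sum_mul]
  refine Finset.sum_congr rfl (fun v _ => ?_)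
  unfold Zf
  rw [← hM, norm_div, div_pow]
  have : ‖(M.card : ℂ)‖ = (M.card : ℝ) := by simp only [RCLike.norm_natCast]
  rw [this, div_mul_cancel₀]
  exact pow_ne_zero _ hM0

lemma Nv_sq_le (α : ZMod p) (v : Fin n → ZMod p) : (Nv d α v) ^ 2 ≤ coll d v := by
  unfold Nv coll
  rw [sq, ← Finset.card_product]
  refine Finset.card_le_card ?_
  intro q hq
  simp only [mem_product, mem_filter] at hq ⊢
  refine ⟨⟨hq.1.1, hq.2.1⟩, ?_⟩
  funext u
  rw [hq.1.2 u, hq.2.2 u]

/-- Support of a labeling. -/
def supp (t : Fin n → ZMod p) : Finset (Fin n) := univ.filter (fun u => t u ≠ 0)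

lemma hits_eq {f : Equiv.Perm (HE n d)} (hf : IsMatching f) (T : Finset (Fin n)) (u : Fin n) :
    hitsR Prod.fst (TH n d T) f u = (univ.filter (fun k : Fin d => (f (u, k)).1 ∈ T)).card := by
  unfold hitsR
  refine Finset.card_bij' (fun h _ => (f h).2) (fun k _ => f (u, k)) ?_ ?_ ?_ ?_
  · intro h hh
    simp only [TH, mem_filter, mem_univ, true_and] at hh ⊢
    have : (u, (f h).2) = f h := by rw [← hh.2]
    rw [this, hf.1]
    exact hh.1
  · intro k hk
    simp only [TH, mem_filter, mem_univ, true_and] at hk ⊢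
    exact ⟨hk, by rw [hf.1]⟩
  · intro h hh
    simp only [TH, mem_filter, mem_univ, true_and] at hh
    have : (u, (f h).2) = f h := by rw [← hh.2]
    rw [this, hf.1]
  · intro k _
    rw [hf.1]

lemma mulM_of_hits_zero {f : Equiv.Perm (HE n d)} (hf : IsMatching f) (t : Fin n → ZMod p)
    {u : Fin n} (h : hitsR Prod.fst (TH n d (supp t)) f u = 0) : mulM f t u = 0 := by
  rw [hits_eq hf, Finset.card_eq_zero] at h
  unfold mulM
  refine Finset.sum_eq_zero (fun k _ => ?_)
  have : k ∉ univ.filter (fun k : Fin d => (f (u, k)).1 ∈ supp t) := by rw [h]; simp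
  simpa only [supp, ne_eq, mem_filter, mem_univ, true_and, Decidable.not_not] using this

lemma mulM_of_hits_one {f : Equiv.Perm (HE n d)} (hf : IsMatching f) (t : Fin n → ZMod p)
    {u : Fin n} (h : hitsR Prod.fst (TH n d (supp t)) f u = 1) : mulM f t u ≠ 0 := by
  rw [hits_eq hf, Finset.card_eq_one] at h
  obtain ⟨k0, hk0⟩ := h
  unfold mulM
  have hmem : ∀ k : Fin d, (f (u, k)).1 ∈ supp t ↔ k = k0 := by
    intro k
    have : k ∈ univ.filter (fun k : Fin d => (f (u, k)).1 ∈ supp t) ↔ k ∈ ({k0} : Finset _) := by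
      rw [hk0]
    simpa only [mem_filter, mem_univ, true_and, mem_singleton] using this
  rw [Finset.sum_eq_single k0]
  · have := (hmem k0).mpr rfl
    simpa only [ne_eq, supp, mem_filter, mem_univ, true_and] using this
  · intro k _ hk
    have : ¬ ((f (u, k)).1 ∈ supp t) := fun h => hk ((hmem k).mp h)
    simpa only [supp, ne_eq, mem_filter, mem_univ, true_and, Decidable.not_not] using this
  · simp only [mem_univ, not_true_eq_false, IsEmpty.forall_iff]

lemma coll_le (hd : 1 ≤ d) (t : Fin n → ZMod p) (ht : 1 ≤ (supp t).card)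
    (htn : 6 * d * (supp t).card ≤ n) :
    (coll d t : ℝ) ≤ (24 * d * (supp t).card / n) ^ (d * (supp t).card)
      * ((matchings (HE n d)).card : ℝ) ^ 2 := by
  refine le_trans ?_ (collision_bound hd (supp t) ht htn)
  have : coll d t ≤ (((matchings (HE n d)) ×ˢ (matchings (HE n d))).filter (fun q => ∀ u,
      u ∉ supp t → hitsR Prod.fst (TH n d (supp t)) q.1 u
        + hitsR Prod.fst (TH n d (supp t)) q.2 u ≠ 1)).card := by
    unfold coll
    refine Finset.card_le_card ?_
    intro q hq
    simp only [mem_filter, mem_product] at hq ⊢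
    refine ⟨hq.1, fun u _ hsum => ?_⟩
    have m1 := mem_matchings.mp hq.1.1
    have m2 := mem_matchings.mp hq.1.2
    have he := congrFun hq.2 u
    rcases Nat.add_eq_one_iff.mp hsum with ⟨h1, h2⟩ | ⟨h1, h2⟩
    · rw [mulM_of_hits_zero m1 t h1] at he
      exact mulM_of_hits_one m2 t h2 he.symm
    · rw [mulM_of_hits_zero m2 t h2] at he
      exact mulM_of_hits_one m1 t h1 he
  exact_mod_cast this

lemma norm_Zf_add_const (v t : Fin n → ZMod p) (c : ZMod p) :
    ‖Zf d v (fun u => t u + c)‖ = ‖Zf d v t‖ := by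
  have h1 : Zf d v (fun u => t u + c)
      = (ZMod.stdAddChar (c * ∑ h : HE n d, v h.1) : ℂ) * Zf d v t := by
    unfold Zf
    rw [← mul_div_assoc, Finset.mul_sum]
    congr 1
    refine Finset.sum_congr rfl (fun f _ => ?_)
    rw [← AddChar.map_add_eq_mul]
    congr 1
    have : ∑ h : HE n d, v h.1 = ∑ h : HE n d, v (f h).1 :=
      (Equiv.sum_comp f (fun h : HE n d => v h.1)).symm
    rw [this, Finset.mul_sum, ← Finset.sum_add_distrib]
    refine Finset.sum_congr rfl (fun h _ => ?_)
    ring
  rw [h1, norm_mul, AddChar.norm_apply, one_mul]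

lemma norm_Zf_le_one (v t : Fin n → ZMod p) : ‖Zf d v t‖ ≤ 1 := by
  unfold Zf
  rw [norm_div]
  have h0 : ‖((matchings (HE n d)).card : ℂ)‖ = ((matchings (HE n d)).card : ℝ) := by simp only [RCLike.norm_natCast]
  rw [h0]
  refine div_le_one_of_le₀ ?_ (by positivity)
  refine (norm_sum_le _ _).trans (le_of_eq ?_)
  simp only [AddChar.norm_apply, sum_const, nsmul_eq_mul, mul_one]

/-- Necessary condition: the coordinates sum to zero. -/
lemma sum_zero_of_eigen {f : Equiv.Perm (HE n d)} {α : ZMod p} (hα : α ≠ (d : ZMod p))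
    {v : Fin n → ZMod p} (h : ∀ u, mulM f v u = α * v u) : ∑ u, v u = 0 := by
  have h1 : ∑ u, mulM f v u = (d : ZMod p) * ∑ u, v u := by
    unfold mulM
    have : ∑ u, ∑ k : Fin d, v (f (u, k)).1 = ∑ h : HE n d, v (f h).1 := by
      rw [Fintype.sum_prod_type]
    rw [this, Equiv.sum_comp f (fun h : HE n d => v h.1), Fintype.sum_prod_type]
    simp only [sum_const, card_univ, Fintype.card_fin, nsmul_eq_mul, mul_sum]
  have h2 : ∑ u, mulM f v u = α * ∑ u, v u := by
    rw [Finset.mul_sum]; exact Finset.sum_congr rfl (fun u _ => h u)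
  have h3 : (α - (d : ZMod p)) * ∑ u, v u = 0 := by
    rw [sub_mul, ← h1, ← h2, sub_self]
  exact (mul_eq_zero.mp h3).resolve_left (sub_ne_zero.mpr hα)

/-- Near-constant nonzero labelings are never eigenvectors. -/
lemma near_const_not_eigen {f : Equiv.Perm (HE n d)} {α : ZMod p} (hα : α ≠ (d : ZMod p))
    {v : Fin n → ZMod p} {c : ZMod p} (hc : c ≠ 0)
    (hv : (univ.filter (fun u => v u ≠ c)).card * (d + 1) < n) :
    ¬ ∀ u, mulM f v u = α * v u := by
  intro h
  -- bad half-edges
  have h1 : ((univ.filter (fun u => v u ≠ c)) ∪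
      (univ.filter (fun h : HE n d => v (f h).1 ≠ c)).image Prod.fst).card < n := by
    refine (Finset.card_union_le _ _).trans_lt ?_
    have h2 : (univ.filter (fun h : HE n d => v (f h).1 ≠ c)).card
        = d * (univ.filter (fun u => v u ≠ c)).card := by
      have e1 : (univ.filter (fun h : HE n d => v (f h).1 ≠ c)).card
          = (univ.filter (fun h : HE n d => v h.1 ≠ c)).card := by
        refine Finset.card_bij' (fun h _ => f h) (fun h _ => f.symm h) ?_ ?_ ?_ ?_
        · intro h hh; simpa only [ne_eq, mem_filter, mem_univ, true_and] using hh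
        · intro h hh; simpa only [ne_eq, mem_filter, mem_univ, Equiv.apply_symm_apply, true_and] using hh
        · intro h _; simp
        · intro h _; simp
      have e2 : (univ.filter (fun h : HE n d => v h.1 ≠ c))
          = TH n d (univ.filter (fun u => v u ≠ c)) := by
        ext h; simp only [ne_eq, mem_filter, mem_univ, true_and, TH]
      rw [e1, e2, card_TH]
    have h3 : ((univ.filter (fun h : HE n d => v (f h).1 ≠ c)).image Prod.fst).card
        ≤ d * (univ.filter (fun u => v u ≠ c)).card := Finset.card_image_le.trans (le_of_eq h2)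
    calc (univ.filter (fun u => v u ≠ c)).card
        + ((univ.filter (fun h : HE n d => v (f h).1 ≠ c)).image Prod.fst).card
        ≤ (univ.filter (fun u => v u ≠ c)).card + d * (univ.filter (fun u => v u ≠ c)).card :=
          Nat.add_le_add_left h3 _
      _ = (univ.filter (fun u => v u ≠ c)).card * (d + 1) := by ring
      _ < n := hv
  obtain ⟨u, hu⟩ : ∃ u : Fin n, u ∉ (univ.filter (fun u => v u ≠ c)) ∪
      (univ.filter (fun h : HE n d => v (f h).1 ≠ c)).image Prod.fst := by
    by_contra hcon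
    push Not at hcon
    have : (univ : Finset (Fin n)).card ≤ ((univ.filter (fun u => v u ≠ c)) ∪
      (univ.filter (fun h : HE n d => v (f h).1 ≠ c)).image Prod.fst).card :=
      Finset.card_le_card (fun u _ => hcon u)
    rw [Finset.card_univ, Fintype.card_fin] at this
    omega
  simp only [mem_union, mem_filter, mem_univ, true_and, mem_image, not_or, not_not,
    not_exists, not_and] at hu
  obtain ⟨hu1, hu2⟩ := hu
  have h4 := h u
  unfold mulM at h4
  have h5 : ∀ k : Fin d, v (f (u, k)).1 = c := by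
    intro k
    by_contra hne
    exact hu2 (u, k) hne rfl
  rw [Finset.sum_congr rfl (fun k _ => h5 k), hu1] at h4
  simp only [Finset.sum_const, Finset.card_univ, Fintype.card_fin, nsmul_eq_mul] at h4
  exact hα (mul_right_cancel₀ hc h4).symm

end Fourier

end Vale.Agent.P156
end
end

section

section

open Finset

set_option linter.unusedSectionVars false

namespace Vale.Agent.P156

section Block

variable {p : ℕ} [Fact p.Prime]

/-- Swap second end points inside blocks. -/
def blockPerm {J R : Type*} (ε : J → Bool) : Equiv.Perm (((J × Bool) ⊕ R) × Bool) where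
  toFun := fun x => match x with
    | (Sum.inl (j, b), true) => (Sum.inl (j, xor b (ε j)), true)
    | (Sum.inl (j, b), false) => (Sum.inl (j, b), false)
    | (Sum.inr r, b) => (Sum.inr r, b)
  invFun := fun x => match x with
    | (Sum.inl (j, b), true) => (Sum.inl (j, xor b (ε j)), true)
    | (Sum.inl (j, b), false) => (Sum.inl (j, b), false)
    | (Sum.inr r, b) => (Sum.inr r, b)
  left_inv := by
    rintro ⟨(⟨j, b⟩ | r), (_ | _)⟩ <;> simp
  right_inv := by
    rintro ⟨(⟨j, b⟩ | r), (_ | _)⟩ <;> simp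

/-- The two phases of a block. -/
noncomputable def phase (z : Bool → Bool → ZMod p × ZMod p) (e : Bool) : ℂ :=
  Ker (z false false) (z e true) * Ker (z true false) (z (!e) true)

/-- The modulus of the average phase in a block. -/
noncomputable def blk (z : Bool → Bool → ZMod p × ZMod p) : ℝ :=
  ‖(phase z false + phase z true) / 2‖

lemma GG_blockPerm {J R : Type*} [Fintype J] [Fintype R] (ε : J → Bool)
    (x : ((J × Bool) ⊕ R) × Bool → ZMod p × ZMod p) :
    GG (x ∘ blockPerm ε) = (∏ j, phase (fun b' b => x (Sum.inl (j, b'), b)) (ε j))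
      * ∏ r : R, Ker (x (Sum.inr r, false)) (x (Sum.inr r, true)) := by
  unfold GG
  rw [Fintype.prod_sum_type, Fintype.prod_prod_type]
  congr 1
  refine Finset.prod_congr rfl (fun j _ => ?_)
  rw [Fintype.prod_bool]
  unfold phase
  simp only [Function.comp_apply, blockPerm, Equiv.coe_fn_mk]
  cases ε j <;> simp [mul_comm]

lemma norm_avg_eps {J R : Type*} [Fintype J] [DecidableEq J] [Fintype R]
    (x : ((J × Bool) ⊕ R) × Bool → ZMod p × ZMod p) :
    ‖(∑ ε : J → Bool, GG (x ∘ blockPerm ε)) / (2 : ℂ) ^ Fintype.card J‖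
      = ∏ j, blk (fun b' b => x (Sum.inl (j, b'), b)) := by
  have h1 : (∑ ε : J → Bool, GG (x ∘ blockPerm ε))
      = (∏ j, (phase (fun b' b => x (Sum.inl (j, b'), b)) false
          + phase (fun b' b => x (Sum.inl (j, b'), b)) true))
      * ∏ r : R, Ker (x (Sum.inr r, false)) (x (Sum.inr r, true)) := by
    simp only [GG_blockPerm]
    rw [← Finset.sum_mul]
    congr 1
    rw [← Fintype.prod_sum (fun (j : J) (e : Bool) =>
      phase (fun b' b => x (Sum.inl (j, b'), b)) e)]
    refine Finset.prod_congr rfl (fun j _ => ?_)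
    rw [Fintype.sum_bool, add_comm]
  rw [h1, norm_div, norm_mul]
  have h2 : ‖∏ r : R, Ker (x (Sum.inr r, false)) (x (Sum.inr r, true))‖ = 1 := by
    rw [norm_prod]
    exact Finset.prod_eq_one (fun i _ => norm_Ker _ _)
  rw [h2, mul_one, norm_prod, norm_pow]
  unfold blk
  have h3 : ∀ j : J, ‖(phase (fun b' b => x (Sum.inl (j, b'), b)) false
          + phase (fun b' b => x (Sum.inl (j, b'), b)) true) / 2‖
      = ‖phase (fun b' b => x (Sum.inl (j, b'), b)) false
          + phase (fun b' b => x (Sum.inl (j, b'), b)) true‖ / ‖(2 : ℂ)‖ := fun j => norm_div _ _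
  simp only [h3]
  rw [Finset.prod_div_distrib, Finset.prod_const, Finset.card_univ]

lemma norm_ZZ_le_avg {J R : Type*} [Fintype J] [DecidableEq J] [Fintype R] [DecidableEq R]
    (s : ((J × Bool) ⊕ R) × Bool → ZMod p × ZMod p) :
    ‖ZZ s‖ ≤ (∑ τ : Equiv.Perm (((J × Bool) ⊕ R) × Bool),
      ∏ j, blk (fun b' b => (s ∘ τ) (Sum.inl (j, b'), b)))
        / ((Fintype.card (((J × Bool) ⊕ R) × Bool)).factorial : ℝ) := by
  have h1 : ∀ ε : J → Bool, ∑ τ : Equiv.Perm (((J × Bool) ⊕ R) × Bool), GG (s ∘ τ)
      = ∑ τ : Equiv.Perm (((J × Bool) ⊕ R) × Bool), GG ((s ∘ τ) ∘ blockPerm ε) := by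
    intro ε
    symm
    refine Fintype.sum_equiv (Equiv.mulRight (blockPerm ε)) _ _ (fun τ => ?_)
    rfl
  have h2 : ∑ τ : Equiv.Perm (((J × Bool) ⊕ R) × Bool), GG (s ∘ τ)
      = ∑ τ : Equiv.Perm (((J × Bool) ⊕ R) × Bool),
        (∑ ε : J → Bool, GG ((s ∘ τ) ∘ blockPerm ε)) / (2 : ℂ) ^ Fintype.card J := by
    rw [← Finset.sum_div, Finset.sum_comm]
    simp only [← h1]
    rw [Finset.sum_const, Finset.card_univ, nsmul_eq_mul]
    have : ((Fintype.card (J → Bool) : ℕ) : ℂ) = (2 : ℂ) ^ Fintype.card J := by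
      simp only [Fintype.card_pi, Fintype.card_bool, prod_const, card_univ, Nat.cast_pow, Nat.cast_ofNat]
    rw [this, mul_div_cancel_left₀]
    exact pow_ne_zero _ two_ne_zero
  unfold ZZ
  rw [h2, norm_div]
  have h3 : ‖(((Fintype.card (((J × Bool) ⊕ R) × Bool)).factorial : ℕ) : ℂ)‖
      = ((Fintype.card (((J × Bool) ⊕ R) × Bool)).factorial : ℝ) := by simp only [Fintype.card_prod, Fintype.card_sum, Fintype.card_bool, RCLike.norm_natCast]
  rw [h3]
  refine div_le_div_of_nonneg_right ?_ (by positivity)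
  refine (norm_sum_le _ _).trans (le_of_eq ?_)
  exact Finset.sum_congr rfl (fun τ _ => norm_avg_eps _)

lemma blk_nonneg (z : Bool → Bool → ZMod p × ZMod p) : 0 ≤ blk z := norm_nonneg _

/-- i.i.d. expectation of a product of block functions. -/
lemma iid_blocks {J R S : Type*} [Fintype J] [DecidableEq J] [Fintype R] [DecidableEq R]
    [Fintype S] [DecidableEq S] (q : S → ℝ) (hq : ∑ a, q a = 1) (f : (Bool → Bool → S) → ℝ) :
    ∑ x : ((J × Bool) ⊕ R) × Bool → S, (∏ i, q (x i)) *
      ∏ j, f (fun b' b => x (Sum.inl (j, b'), b))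
      = (∑ z : Bool → Bool → S, (∏ b', ∏ b, q (z b' b)) * f z) ^ Fintype.card J := by
  classical
  let e : (((J × Bool) ⊕ R) × Bool → S) ≃ (J → Bool → Bool → S) × (R → Bool → S) :=
    (Equiv.curry ((J × Bool) ⊕ R) Bool S).trans
      ((Equiv.sumArrowEquivProdArrow (J × Bool) R (Bool → S)).trans
        (Equiv.prodCongr (Equiv.curry J Bool (Bool → S)) (Equiv.refl _)))
  have h1 : ∑ x : ((J × Bool) ⊕ R) × Bool → S, (∏ i, q (x i)) *
      ∏ j, f (fun b' b => x (Sum.inl (j, b'), b))
      = ∑ y : (J → Bool → Bool → S) × (R → Bool → S),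
        (∏ j, ((∏ b', ∏ b, q (y.1 j b' b)) * f (y.1 j))) * ∏ r, ∏ b, q (y.2 r b) := by
    refine Fintype.sum_equiv e _ _ (fun x => ?_)
    rw [Fintype.prod_prod_type, Fintype.prod_sum_type, Fintype.prod_prod_type,
      Finset.prod_mul_distrib]
    simp only [e, Equiv.trans_apply, Equiv.prodCongr_apply, Prod.map_fst, Prod.map_snd,
      Equiv.refl_apply, Equiv.curry_apply, Equiv.sumArrowEquivProdArrow]
    simp only [Equiv.coe_fn_mk, Function.curry, Function.comp]
    have hf : ∀ j : J, f (fun b' b => x (Sum.inl (j, b'), b))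
      = f (Function.curry (Function.curry x ∘ Sum.inl) j) := fun j => rfl
    simp only [hf]
    ring
  rw [h1, Fintype.sum_prod_type]
  simp only
  rw [← Finset.sum_mul_sum]
  have h2 : ∑ y : R → Bool → S, ∏ r, ∏ b, q (y r b) = 1 := by
    rw [← Fintype.prod_sum (fun (_ : R) (w : Bool → S) => ∏ b, q (w b))]
    rw [← Fintype.prod_sum (fun (_ : Bool) (a : S) => q a)]
    simp only [Fintype.univ_bool, hq, prod_const_one]
  rw [h2, mul_one]
  rw [← Fintype.prod_sum (fun (_ : J) (z : Bool → Bool → S) =>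
    (∏ b', ∏ b, q (z b' b)) * f z)]
  simp only [Fintype.univ_bool, mem_singleton, Bool.true_eq_false, not_false_eq_true, prod_insert, prod_singleton, prod_const, card_univ]

lemma om_identity (z : Bool → Bool → ZMod p × ZMod p) :
    (om (z false false) (z false true) + om (z true false) (z true true))
      - (om (z false false) (z true true) + om (z true false) (z false true))
      = om (z false false - z true false) (z false true - z true true) := by
  unfold om
  simp only [Prod.fst_sub, Prod.snd_sub]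
  ring

lemma blk_eq (z : Bool → Bool → ZMod p × ZMod p) :
    blk z = ‖(1 + (ZMod.stdAddChar (om (z false false - z true false)
      (z false true - z true true)) : ℂ)) / 2‖ := by
  unfold blk phase Ker
  simp only [Bool.not_false, Bool.not_true]
  rw [← AddChar.map_add_eq_mul, ← AddChar.map_add_eq_mul]
  have h1 : om (z false false) (z false true) + om (z true false) (z true true)
      = om (z false false - z true false) (z false true - z true true)
        + (om (z false false) (z true true) + om (z true false) (z false true)) := by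
    rw [← om_identity]; ring
  rw [h1, AddChar.map_add_eq_mul]
  have h2 : ∀ a b : ℂ, (a * b + b) / 2 = ((1 + a) / 2) * b := by intro a b; ring
  rw [h2, norm_mul, AddChar.norm_apply, mul_one]

lemma exists_kappa (p : ℕ) [Fact p.Prime] : ∃ κ : ℝ, 0 < κ ∧ κ ≤ 1 ∧ ∀ z : ZMod p, z ≠ 0 →
    ‖(1 + (ZMod.stdAddChar z : ℂ)) / 2‖ ≤ 1 - κ := by
  have h1 : ∀ z : ZMod p, z ≠ 0 → ‖(1 + (ZMod.stdAddChar z : ℂ)) / 2‖ < 1 := by
    intro z hz
    have hne : (ZMod.stdAddChar z : ℂ) ≠ 1 := by
      intro h
      apply hz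
      apply ZMod.injective_stdAddChar
      rw [h, AddChar.map_zero_eq_one]
    have hn : ‖(ZMod.stdAddChar z : ℂ)‖ = 1 := AddChar.norm_apply _ _
    have hle : ‖(1 : ℂ) + (ZMod.stdAddChar z : ℂ)‖ < 2 := by
      have h2 := norm_add_lt_of_not_sameRay (x := (1 : ℂ)) (y := (ZMod.stdAddChar z : ℂ)) (by
        intro hs
        rw [sameRay_iff_norm_smul_eq] at hs
        apply hne
        exact Eq.symm (by simpa only [hn, one_smul, norm_one] using hs.symm))
      rw [hn] at h2
      norm_num at h2
      exact h2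
    rw [norm_div]
    have : ‖(2 : ℂ)‖ = 2 := by simp
    rw [this]
    linarith
  by_cases hS : (univ.filter (fun z : ZMod p => z ≠ 0)).Nonempty
  · obtain ⟨z0, hz0, hmax⟩ := Finset.exists_max_image (univ.filter (fun z : ZMod p => z ≠ 0))
      (fun z => ‖(1 + (ZMod.stdAddChar z : ℂ)) / 2‖) hS
    simp only [mem_filter, mem_univ, true_and] at hz0 hmax
    refine ⟨1 - ‖(1 + (ZMod.stdAddChar z0 : ℂ)) / 2‖, ?_, ?_, ?_⟩
    · have := h1 z0 hz0; (clear hS hmax; linarith)
    · have := norm_nonneg ((1 + (ZMod.stdAddChar z0 : ℂ)) / 2); linarith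
    · intro z hz
      have := hmax z hz
      linarith
  · refine ⟨1, one_pos, le_rfl, fun z hz => ?_⟩
    exfalso
    exact hS ⟨z, by simp [hz]⟩

lemma sum_four {S : Type*} [Fintype S] (g : S → S → S → S → ℝ) :
    ∑ z : Bool → Bool → S, g (z false false) (z false true) (z true false) (z true true)
      = ∑ a, ∑ b, ∑ c, ∑ d, g a b c d := by
  let e : (Bool → Bool → S) ≃ (S × S) × (S × S) :=
    (Equiv.boolArrowEquivProd _).trans
      (Equiv.prodCongr (Equiv.boolArrowEquivProd _) (Equiv.boolArrowEquivProd _))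
  have : ∑ z : Bool → Bool → S, g (z false false) (z false true) (z true false) (z true true)
      = ∑ y : (S × S) × (S × S), g y.1.1 y.1.2 y.2.1 y.2.2 := by
    refine Fintype.sum_equiv e _ _ (fun z => ?_)
    simp only [e, Equiv.trans_apply, Equiv.prodCongr_apply, Prod.map_fst,
        Prod.map_snd, Equiv.boolArrowEquivProd_apply]
  rw [this, Fintype.sum_prod_type, Fintype.sum_prod_type]
  refine Finset.sum_congr rfl (fun a _ => Finset.sum_congr rfl (fun b _ => ?_))
  rw [Fintype.sum_prod_type]

/-- Lower bound for the probability of a bad block. -/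
lemma bad_prob (hp : p ≠ 2) (q : ZMod p × ZMod p → ℝ) (hq0 : ∀ a, 0 ≤ q a) (hq : ∑ a, q a = 1)
    (δ : ℝ) (hδ : 0 ≤ δ)
    (h1 : ∀ c : ZMod p, ∑ a ∈ univ.filter (fun a : ZMod p × ZMod p => a.1 = c), q a ≤ 1 - δ)
    (h2 : ∀ c : ZMod p, ∑ a ∈ univ.filter (fun a : ZMod p × ZMod p => a.2 = c), q a ≤ 1 - δ) :
    δ ^ 2 / (4 * (p : ℝ) ^ 2) ≤ ∑ z : Bool → Bool → ZMod p × ZMod p,
      (∏ b', ∏ b, q (z b' b)) *
      (if om (z false false - z true false) (z false true - z true true) ≠ 0 then 1 else 0) := by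
  classical
  have hp0 : (0 : ℝ) < p := by exact_mod_cast (Fact.out : p.Prime).pos
  have hp1 : (1 : ℝ) ≤ p := by exact_mod_cast (Fact.out : p.Prime).one_lt.le
  -- distribution of differences
  let D : ZMod p × ZMod p → ℝ := fun u => ∑ c, q (c + u) * q c
  have hD0 : ∀ u, 0 ≤ D u := fun u => Finset.sum_nonneg (fun c _ => mul_nonneg (hq0 _) (hq0 _))
  have hDsum : ∀ f : ZMod p × ZMod p → ℝ,
      ∑ a, ∑ c, q a * q c * f (a - c) = ∑ u, D u * f u := by
    intro f
    rw [Finset.sum_comm]
    have : ∀ c : ZMod p × ZMod p, ∑ a, q a * q c * f (a - c) = ∑ u, q (c + u) * q c * f u := by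
      intro c
      rw [← Equiv.sum_comp (Equiv.addLeft c) (fun a => q a * q c * f (a - c))]
      refine Finset.sum_congr rfl (fun u _ => ?_)
      simp
    simp only [this]
    rw [Finset.sum_comm]
    refine Finset.sum_congr rfl (fun u _ => ?_)
    simp only [D]
    rw [Finset.sum_mul]
  -- rewrite the sum
  have hsum : ∑ z : Bool → Bool → ZMod p × ZMod p,
      (∏ b', ∏ b, q (z b' b)) *
      (if om (z false false - z true false) (z false true - z true true) ≠ 0 then (1:ℝ) else 0)
      = ∑ u, ∑ w, D u * D w * (if om u w ≠ 0 then (1 : ℝ) else 0) := by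
    have h3 : ∑ u : ZMod p × ZMod p, ∑ w : ZMod p × ZMod p,
        D u * D w * (if om u w ≠ 0 then (1 : ℝ) else 0)
        = ∑ a : ZMod p × ZMod p, ∑ c : ZMod p × ZMod p,
          q a * q c * ∑ b : ZMod p × ZMod p, ∑ d : ZMod p × ZMod p,
            q b * q d * (if om (a - c) (b - d) ≠ 0 then (1 : ℝ) else 0) := by
      rw [hDsum (fun u => ∑ b : ZMod p × ZMod p, ∑ d : ZMod p × ZMod p,
            q b * q d * (if om u (b - d) ≠ 0 then (1 : ℝ) else 0))]
      refine Finset.sum_congr rfl (fun u _ => ?_)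
      rw [hDsum (fun w => (if om u w ≠ 0 then (1 : ℝ) else 0)), Finset.mul_sum]
      exact Finset.sum_congr rfl (fun w _ => by ring)
    rw [h3]
    have h4 := sum_four (fun a b c d : ZMod p × ZMod p => q a * q b * q c * q d *
      (if om (a - c) (b - d) ≠ 0 then (1 : ℝ) else 0))
    have h5 : ∑ z : Bool → Bool → ZMod p × ZMod p,
      (∏ b', ∏ b, q (z b' b)) *
      (if om (z false false - z true false) (z false true - z true true) ≠ 0 then (1:ℝ) else 0)
      = ∑ z : Bool → Bool → ZMod p × ZMod p, q (z false false) * q (z false true) *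
        q (z true false) * q (z true true) *
      (if om (z false false - z true false) (z false true - z true true) ≠ 0
        then (1:ℝ) else 0) := by
      refine Finset.sum_congr rfl (fun z _ => ?_)
      simp only [Fintype.prod_bool]
      ring
    rw [h5, h4]
    refine Finset.sum_congr rfl (fun a _ => ?_)
    rw [Finset.sum_comm]
    refine Finset.sum_congr rfl (fun c _ => ?_)
    rw [Finset.mul_sum]
    refine Finset.sum_congr rfl (fun b _ => ?_)
    rw [Finset.mul_sum]
    refine Finset.sum_congr rfl (fun d _ => ?_)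
    ring
  rw [hsum]
  -- masses
  let W : ℝ := ∑ u ∈ univ.filter (fun u : ZMod p × ZMod p => u.1 ≠ 0 ∧ u.2 ≠ 0), D u
  let X : ℝ := ∑ u ∈ univ.filter (fun u : ZMod p × ZMod p => u.1 ≠ 0 ∧ u.2 = 0), D u
  let Y : ℝ := ∑ u ∈ univ.filter (fun u : ZMod p × ZMod p => u.1 = 0 ∧ u.2 ≠ 0), D u
  have hW0 : 0 ≤ W := Finset.sum_nonneg (fun u _ => hD0 u)
  have hX0 : 0 ≤ X := Finset.sum_nonneg (fun u _ => hD0 u)
  have hY0 : 0 ≤ Y := Finset.sum_nonneg (fun u _ => hD0 u)
  have hXW : δ ≤ X + W := by
    have e1 : X + W = ∑ u, D u * (if u.1 ≠ 0 then (1 : ℝ) else 0) := by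
      simp only [X, W]
      rw [Finset.sum_filter, Finset.sum_filter, ← Finset.sum_add_distrib]
      refine Finset.sum_congr rfl (fun u _ => ?_)
      by_cases a1 : u.1 = 0 <;> by_cases a2 : u.2 = 0 <;> simp [a1, a2]
    rw [e1, ← hDsum]
    have e2 : ∑ a, ∑ c, q a * q c * (if (a - c).1 ≠ 0 then (1 : ℝ) else 0)
        = ∑ a, q a * (1 - ∑ c ∈ univ.filter (fun c : ZMod p × ZMod p => c.1 = a.1), q c) := by
      refine Finset.sum_congr rfl (fun a _ => ?_)
      have e3 : (1 : ℝ) - ∑ c ∈ univ.filter (fun c : ZMod p × ZMod p => c.1 = a.1), q c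
          = ∑ c, (q c - if c.1 = a.1 then q c else 0) := by
        rw [Finset.sum_sub_distrib, hq, Finset.sum_filter]
      rw [e3, Finset.mul_sum]
      refine Finset.sum_congr rfl (fun c _ => ?_)
      by_cases a1 : c.1 = a.1
      · simp [a1, Prod.fst_sub]
      · have : a.1 - c.1 ≠ 0 := fun h => a1 (sub_eq_zero.mp h).symm
        simp [a1, Prod.fst_sub, this]
    rw [e2]
    calc δ = ∑ a, q a * δ := by rw [← Finset.sum_mul, hq, one_mul]
      _ ≤ _ := Finset.sum_le_sum (fun a _ => mul_le_mul_of_nonneg_left (by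
        have := h1 a.1; (clear hp hq0 hq hδ h2 hp0 hp1 D hD0 hDsum hsum W X Y hW0 hX0 hY0 e1 e2; linarith)) (hq0 a))
  have hYW : δ ≤ Y + W := by
    have e1 : Y + W = ∑ u, D u * (if u.2 ≠ 0 then (1 : ℝ) else 0) := by
      simp only [Y, W]
      rw [Finset.sum_filter, Finset.sum_filter, ← Finset.sum_add_distrib]
      refine Finset.sum_congr rfl (fun u _ => ?_)
      by_cases a1 : u.1 = 0 <;> by_cases a2 : u.2 = 0 <;> simp [a1, a2]
    rw [e1, ← hDsum]
    have e2 : ∑ a, ∑ c, q a * q c * (if (a - c).2 ≠ 0 then (1 : ℝ) else 0)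
        = ∑ a, q a * (1 - ∑ c ∈ univ.filter (fun c : ZMod p × ZMod p => c.2 = a.2), q c) := by
      refine Finset.sum_congr rfl (fun a _ => ?_)
      have e3 : (1 : ℝ) - ∑ c ∈ univ.filter (fun c : ZMod p × ZMod p => c.2 = a.2), q c
          = ∑ c, (q c - if c.2 = a.2 then q c else 0) := by
        rw [Finset.sum_sub_distrib, hq, Finset.sum_filter]
      rw [e3, Finset.mul_sum]
      refine Finset.sum_congr rfl (fun c _ => ?_)
      by_cases a1 : c.2 = a.2
      · simp [a1, Prod.snd_sub]
      · have : a.2 - c.2 ≠ 0 := fun h => a1 (sub_eq_zero.mp h).symm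
        simp [a1, Prod.snd_sub, this]
    rw [e2]
    calc δ = ∑ a, q a * δ := by rw [← Finset.sum_mul, hq, one_mul]
      _ ≤ _ := Finset.sum_le_sum (fun a _ => mul_le_mul_of_nonneg_left (by
        have := h2 a.2; (clear hp hq0 hq hδ h1 hp0 hp1 D hD0 hDsum hsum W X Y hW0 hX0 hY0 hXW e1 e2; linarith)) (hq0 a))
  have hnn : ∀ u w : ZMod p × ZMod p, 0 ≤ D u * D w * (if om u w ≠ 0 then (1 : ℝ) else 0) := by
    intro u w
    have := hD0 u
    have := hD0 w
    split_ifs <;> (clear hp hq δ hδ h1 h2 hp0 hp1 hDsum hsum W X Y hW0 hX0 hY0 hXW hYW; positivity)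
  have hXY : X * Y ≤ ∑ u, ∑ w, D u * D w * (if om u w ≠ 0 then (1 : ℝ) else 0) := by
    simp only [X, Y]
    rw [Finset.sum_mul_sum]
    calc ∑ u ∈ univ.filter (fun u : ZMod p × ZMod p => u.1 ≠ 0 ∧ u.2 = 0),
          ∑ w ∈ univ.filter (fun u : ZMod p × ZMod p => u.1 = 0 ∧ u.2 ≠ 0), D u * D w
        = ∑ u ∈ univ.filter (fun u : ZMod p × ZMod p => u.1 ≠ 0 ∧ u.2 = 0),
          ∑ w ∈ univ.filter (fun u : ZMod p × ZMod p => u.1 = 0 ∧ u.2 ≠ 0),
            D u * D w * (if om u w ≠ 0 then (1 : ℝ) else 0) := by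
          refine Finset.sum_congr rfl (fun u hu => Finset.sum_congr rfl (fun w hw => ?_))
          simp only [mem_filter, mem_univ, true_and] at hu hw
          have : om u w ≠ 0 := by
            unfold om
            rw [hu.2, hw.1, mul_zero, add_zero]
            exact mul_ne_zero hu.1 hw.2
          rw [if_pos this, mul_one]
      _ ≤ ∑ u, ∑ w ∈ univ.filter (fun u : ZMod p × ZMod p => u.1 = 0 ∧ u.2 ≠ 0),
            D u * D w * (if om u w ≠ 0 then (1 : ℝ) else 0) :=
          Finset.sum_le_sum_of_subset_of_nonneg (Finset.subset_univ _)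
            (fun u _ _ => Finset.sum_nonneg (fun w _ => hnn u w))
      _ ≤ _ := Finset.sum_le_sum (fun u _ => Finset.sum_le_sum_of_subset_of_nonneg
            (Finset.subset_univ _) (fun w _ _ => hnn u w))
  have hWW : W ^ 2 / (p : ℝ) ^ 2 ≤ ∑ u, ∑ w, D u * D w * (if om u w ≠ 0 then (1 : ℝ) else 0) := by
    have hcs : W ^ 2 ≤ (p : ℝ) ^ 2 *
        ∑ u ∈ univ.filter (fun u : ZMod p × ZMod p => u.1 ≠ 0 ∧ u.2 ≠ 0), D u ^ 2 := by
      have := sq_sum_le_card_mul_sum_sq
        (s := univ.filter (fun u : ZMod p × ZMod p => u.1 ≠ 0 ∧ u.2 ≠ 0)) (f := D)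
      refine this.trans (mul_le_mul_of_nonneg_right ?_ (Finset.sum_nonneg (fun u _ => sq_nonneg _)))
      have hc : (univ.filter (fun u : ZMod p × ZMod p => u.1 ≠ 0 ∧ u.2 ≠ 0)).card ≤ p ^ 2 := by
        refine (Finset.card_filter_le _ _).trans (le_of_eq ?_)
        rw [Finset.card_univ, Fintype.card_prod, ZMod.card, sq]
      exact_mod_cast hc
    rw [div_le_iff₀ (by (clear * - hp0; positivity))]
    refine hcs.trans ?_
    rw [mul_comm]
    refine mul_le_mul_of_nonneg_right ?_ (by positivity)
    calc ∑ u ∈ univ.filter (fun u : ZMod p × ZMod p => u.1 ≠ 0 ∧ u.2 ≠ 0), D u ^ 2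
        = ∑ u ∈ univ.filter (fun u : ZMod p × ZMod p => u.1 ≠ 0 ∧ u.2 ≠ 0),
            D u * D u * (if om u u ≠ 0 then (1 : ℝ) else 0) := by
          refine Finset.sum_congr rfl (fun u hu => ?_)
          simp only [mem_filter, mem_univ, true_and] at hu
          have h2' : (2 : ZMod p) ≠ 0 := by
            intro h
            have h' : ((2 : ℕ) : ZMod p) = 0 := by exact_mod_cast h
            rw [ZMod.natCast_eq_zero_iff] at h'
            have hple := Nat.le_of_dvd (by norm_num) h'
            have := (Fact.out : p.Prime).two_le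
            omega
          have : om u u ≠ 0 := by
            unfold om
            have : u.1 * u.2 + u.2 * u.1 = 2 * (u.1 * u.2) := by ring
            rw [this]
            exact mul_ne_zero h2' (mul_ne_zero hu.1 hu.2)
          rw [if_pos this]; ring
      _ ≤ ∑ u, D u * D u * (if om u u ≠ 0 then (1 : ℝ) else 0) :=
          Finset.sum_le_sum_of_subset_of_nonneg (Finset.subset_univ _) (fun u _ _ => hnn u u)
      _ ≤ _ := Finset.sum_le_sum (fun u _ =>
          Finset.single_le_sum (f := fun w => D u * D w * (if om u w ≠ 0 then (1 : ℝ) else 0))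
            (fun w _ => hnn u w) (mem_univ u))
  by_cases hcase : δ / 2 ≤ W
  · refine le_trans ?_ hWW
    rw [div_le_div_iff₀ (by (clear * - hp0; positivity)) (by positivity)]
    have : (δ / 2) ^ 2 ≤ W ^ 2 := pow_le_pow_left₀ (by (clear * - hδ; positivity)) hcase 2
    nlinarith only [this]
  · push Not at hcase
    have hX : δ / 2 ≤ X := by linarith only [hXW, hcase]
    have hY : δ / 2 ≤ Y := by linarith only [hYW, hcase]
    refine le_trans ?_ hXY
    have h6 : (δ / 2) * (δ / 2) ≤ X * Y := mul_le_mul hX hY (by (clear * - hδ; positivity)) hX0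
    refine le_trans ?_ h6
    rw [div_le_iff₀ (by (clear * - hp0; positivity))]
    have hp2 : (1 : ℝ) ≤ (p : ℝ) ^ 2 := one_le_pow₀ hp1
    nlinarith only [hp2]

/-- Block bound. -/
lemma exists_block_bound (p : ℕ) [Fact p.Prime] (hp : p ≠ 2) : ∃ κ : ℝ, 0 < κ ∧ κ ≤ 1 ∧
    ∀ (J R : Type) [Fintype J] [DecidableEq J] [Fintype R] [DecidableEq R]
      [Nonempty (((J × Bool) ⊕ R) × Bool)]
      (s : ((J × Bool) ⊕ R) × Bool → ZMod p × ZMod p) (δ : ℝ), 0 ≤ δ → δ ≤ 1 →
      (∀ c : ZMod p, ∑ a ∈ univ.filter (fun a : ZMod p × ZMod p => a.1 = c), emp s a ≤ 1 - δ) →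
      (∀ c : ZMod p, ∑ a ∈ univ.filter (fun a : ZMod p × ZMod p => a.2 = c), emp s a ≤ 1 - δ) →
      ‖ZZ s‖ ≤ ((Fintype.card (((J × Bool) ⊕ R) × Bool) : ℝ) + 1) ^ Fintype.card (ZMod p × ZMod p)
        * (1 - κ * δ ^ 2) ^ Fintype.card J := by
  obtain ⟨κ, hκ0, hκ1, hκ⟩ := exists_kappa p
  have hp1 : (1 : ℝ) ≤ p := by exact_mod_cast (Fact.out : p.Prime).one_lt.le
  refine ⟨κ / (4 * (p : ℝ) ^ 2), by positivity, ?_, ?_⟩
  · rw [div_le_one (by positivity)]
    have : (1 : ℝ) ≤ (p : ℝ) ^ 2 := one_le_pow₀ hp1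
    linarith only [hκ1, this]
  intro J R _ _ _ _ _ s δ hδ0 hδ1 h1 h2
  refine (norm_ZZ_le_avg s).trans ?_
  have h3 := perm_avg_le s (fun x => ∏ j, blk (fun b' b => x (Sum.inl (j, b'), b)))
    (fun x => Finset.prod_nonneg (fun j _ => blk_nonneg _))
  refine h3.trans ?_
  refine mul_le_mul_of_nonneg_left ?_ (by positivity)
  rw [iid_blocks (emp s) (sum_emp s) blk]
  refine pow_le_pow_left₀ ?_ ?_ _
  · refine Finset.sum_nonneg (fun z _ => mul_nonneg (Finset.prod_nonneg (fun _ _ =>
      Finset.prod_nonneg (fun _ _ => emp_nonneg s _))) (blk_nonneg z))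
  have h4 := bad_prob hp (emp s) (emp_nonneg s) (sum_emp s) δ hδ0 h1 h2
  have hone : ∑ z : Bool → Bool → ZMod p × ZMod p, (∏ b', ∏ b, emp s (z b' b)) = 1 := by
    rw [← Fintype.prod_sum (fun (_ : Bool) (w : Bool → ZMod p × ZMod p) => ∏ b, emp s (w b))]
    rw [← Fintype.prod_sum (fun (_ : Bool) (a : ZMod p × ZMod p) => emp s a)]
    simp [sum_emp s]
  have h5 : ∀ z : Bool → Bool → ZMod p × ZMod p, blk z ≤ 1 - κ *
      (if om (z false false - z true false) (z false true - z true true) ≠ 0
        then (1:ℝ) else 0) := by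
    intro z
    rw [blk_eq]
    split_ifs with h
    · have := hκ _ h
      (clear hp hκ0 hκ1 hp1 s δ hδ0 hδ1 h1 h2 h3 h4 hone; linarith)
    · rw [norm_div]
      have h6 : ‖(2 : ℂ)‖ = 2 := by simp
      have h7 : ‖(1 : ℂ) + (ZMod.stdAddChar (om (z false false - z true false)
          (z false true - z true true)) : ℂ)‖ ≤ 2 := by
        refine (norm_add_le _ _).trans ?_
        rw [AddChar.norm_apply]; norm_num
      rw [h6, mul_zero, sub_zero, div_le_one (by norm_num)]
      exact h7
  calc ∑ z : Bool → Bool → ZMod p × ZMod p, (∏ b', ∏ b, emp s (z b' b)) * blk z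
      ≤ ∑ z : Bool → Bool → ZMod p × ZMod p, (∏ b', ∏ b, emp s (z b' b)) * (1 - κ *
      (if om (z false false - z true false) (z false true - z true true) ≠ 0
        then (1:ℝ) else 0)) := Finset.sum_le_sum (fun z _ => mul_le_mul_of_nonneg_left (h5 z)
          (Finset.prod_nonneg (fun _ _ => Finset.prod_nonneg (fun _ _ => emp_nonneg s _))))
    _ = 1 - κ * ∑ z : Bool → Bool → ZMod p × ZMod p, (∏ b', ∏ b, emp s (z b' b)) *
      (if om (z false false - z true false) (z false true - z true true) ≠ 0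
        then (1:ℝ) else 0) := by
        rw [← hone, Finset.mul_sum, ← Finset.sum_sub_distrib]
        refine Finset.sum_congr rfl (fun z _ => ?_)
        rw [hone]; ring
    _ ≤ 1 - κ / (4 * (p : ℝ) ^ 2) * δ ^ 2 := by
        have := mul_le_mul_of_nonneg_left h4 hκ0.le
        have e : κ * (δ ^ 2 / (4 * (p : ℝ) ^ 2)) = κ / (4 * (p : ℝ) ^ 2) * δ ^ 2 := by ring
        linarith

end Block

end Vale.Agent.P156
end
end

section

section

open Finset

set_option linter.unusedSectionVars false

namespace Vale.Agent.P156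

section Spread

variable {n d p : ℕ} [Fact p.Prime]

/-- `v` is at distance more than `δ n` from every constant. -/
def Spread (δ : ℝ) (v : Fin n → ZMod p) : Prop :=
  ∀ c : ZMod p, δ * n < ((univ.filter (fun u => v u ≠ c)).card : ℝ)

lemma cnt_half (s : Fin n → ZMod p × ZMod p) {P : Type*} [Fintype P] [DecidableEq P]
    (e0 : P ≃ HE n d) (a : ZMod p × ZMod p) :
    cnt (fun y => s (e0 y).1) a = d * cnt s a := by
  unfold cnt
  have h1 : (univ.filter (fun y : P => s (e0 y).1 = a)).card
      = (univ.filter (fun h : HE n d => s h.1 = a)).card := by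
    refine Finset.card_bij' (fun y _ => e0 y) (fun h _ => e0.symm h) ?_ ?_ ?_ ?_
    · intro y hy; simpa only [mem_filter, mem_univ, true_and] using hy
    · intro h hh; simpa only [mem_filter, mem_univ, Equiv.apply_symm_apply, true_and] using hh
    · intro y _; simp
    · intro h _; simp
  have h2 : (univ.filter (fun h : HE n d => s h.1 = a))
      = TH n d (univ.filter (fun u => s u = a)) := by
    ext h; simp only [mem_filter, mem_univ, true_and, TH]
  rw [h1, h2, card_TH]

lemma emp_half (hd : 1 ≤ d) (s : Fin n → ZMod p × ZMod p) {P : Type*} [Fintype P] [DecidableEq P]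
    (e0 : P ≃ HE n d) (a : ZMod p × ZMod p) :
    emp (fun y => s (e0 y).1) a = emp s a := by
  unfold emp
  rw [cnt_half, Fintype.card_congr e0]
  have : (Fintype.card (HE n d) : ℝ) = n * d := by simp only [HE, Fintype.card_prod, Fintype.card_fin, Nat.cast_mul]
  rw [this, Fintype.card_fin]
  have hd' : (d : ℝ) ≠ 0 := by exact_mod_cast (by omega : d ≠ 0)
  push_cast
  rw [mul_comm (n : ℝ) d, mul_div_mul_left _ _ hd']

lemma wt_half (hd : 1 ≤ d) (s : Fin n → ZMod p × ZMod p) {P : Type*} [Fintype P] [DecidableEq P]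
    (e0 : P ≃ HE n d) :
    wt (fun y => s (e0 y).1) = (wt s) ^ d := by
  unfold wt
  simp only [emp_half hd s e0]
  rw [Equiv.prod_comp e0 (fun h : HE n d => emp s (s h.1)), Fintype.prod_prod_type]
  simp only [prod_const, card_univ, Fintype.card_fin, prod_pow]

lemma sum_emp_fst_le {δ : ℝ} [NeZero n] {v t : Fin n → ZMod p} (hv : Spread δ v) (c : ZMod p) :
    ∑ a ∈ univ.filter (fun a : ZMod p × ZMod p => a.1 = c), emp (fun u => (v u, t u)) a
      ≤ 1 - δ := by
  have hn : (0 : ℝ) < n := by exact_mod_cast Nat.pos_of_ne_zero (NeZero.ne n)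
  unfold emp
  rw [← Finset.sum_div, Fintype.card_fin, div_le_iff₀ hn, ← Nat.cast_sum]
  have h1 : ∑ a ∈ univ.filter (fun a : ZMod p × ZMod p => a.1 = c), cnt (fun u => (v u, t u)) a
      = (univ.filter (fun u => v u = c)).card := by
    rw [Finset.card_eq_sum_card_fiberwise (f := fun u => (v u, t u))
      (t := univ.filter (fun a : ZMod p × ZMod p => a.1 = c))]
    · refine Finset.sum_congr rfl (fun a ha => ?_)
      simp only [mem_filter, mem_univ, true_and] at ha
      unfold cnt
      congr 1
      ext u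
      simp only [mem_filter, mem_univ, true_and]
      constructor
      · intro h; exact ⟨by rw [← ha, ← h], h⟩
      · intro h; exact h.2
    · intro u hu
      simpa using hu
  rw [h1]
  have h2 := hv c
  have h3 : (univ.filter (fun u => v u = c)).card + (univ.filter (fun u => v u ≠ c)).card = n := by
    have := Finset.card_filter_add_card_filter_not (s := (univ : Finset (Fin n)))
      (fun u => v u = c)
    simpa only [ne_eq, card_univ, Fintype.card_fin] using this
  have h4 : ((univ.filter (fun u => v u = c)).card : ℝ)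
      + ((univ.filter (fun u => v u ≠ c)).card : ℝ) = n := by exact_mod_cast h3
  linarith only [h2, h4]

lemma sum_emp_snd_le {δ : ℝ} [NeZero n] {v t : Fin n → ZMod p} (ht : Spread δ t) (c : ZMod p) :
    ∑ a ∈ univ.filter (fun a : ZMod p × ZMod p => a.2 = c), emp (fun u => (v u, t u)) a
      ≤ 1 - δ := by
  have hn : (0 : ℝ) < n := by exact_mod_cast Nat.pos_of_ne_zero (NeZero.ne n)
  unfold emp
  rw [← Finset.sum_div, Fintype.card_fin, div_le_iff₀ hn, ← Nat.cast_sum]
  have h1 : ∑ a ∈ univ.filter (fun a : ZMod p × ZMod p => a.2 = c), cnt (fun u => (v u, t u)) a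
      = (univ.filter (fun u => t u = c)).card := by
    rw [Finset.card_eq_sum_card_fiberwise (f := fun u => (v u, t u))
      (t := univ.filter (fun a : ZMod p × ZMod p => a.2 = c))]
    · refine Finset.sum_congr rfl (fun a ha => ?_)
      simp only [mem_filter, mem_univ, true_and] at ha
      unfold cnt
      congr 1
      ext u
      simp only [mem_filter, mem_univ, true_and]
      constructor
      · intro h; exact ⟨by rw [← ha, ← h], h⟩
      · intro h; exact h.2
    · intro u hu
      simpa only [coe_filter, mem_univ, true_and, Set.mem_ofPred_eq] using hu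
  rw [h1]
  have h2 := ht c
  have h3 : (univ.filter (fun u => t u = c)).card + (univ.filter (fun u => t u ≠ c)).card = n := by
    have := Finset.card_filter_add_card_filter_not (s := (univ : Finset (Fin n)))
      (fun u => t u = c)
    simpa only [ne_eq, card_univ, Fintype.card_fin] using this
  have h4 : ((univ.filter (fun u => t u = c)).card : ℝ)
      + ((univ.filter (fun u => t u ≠ c)).card : ℝ) = n := by exact_mod_cast h3
  linarith only [h2, h4]

/-- The main bound for pairs of spread labelings. -/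
lemma spread_bound (p : ℕ) [Fact p.Prime] (hp : p ≠ 2) (d : ℕ) (hd : 3 ≤ d) (δ : ℝ)
    (hδ0 : 0 < δ) (hδ1 : δ < 1) :
    ∃ ρ : ℝ, 0 ≤ ρ ∧ ρ < 1 ∧ ∀ n : ℕ, 2 ≤ n → Even (n * d) → ∀ v t : Fin n → ZMod p,
      Spread δ v → Spread δ t →
      ‖Zf d v t‖ ≤ ((n * d : ℝ) + 1) ^ (p ^ 2) * ((p : ℝ) ^ n * wt (fun u => (v u, t u)))
        * ρ ^ n := by
  obtain ⟨κ, hκ0, hκ1, hκ⟩ := exists_block_bound p hp
  set θ : ℝ := 1 - κ * δ ^ 2 with hθ
  have hδ2 : δ ^ 2 < 1 := by nlinarith only [hδ1, hδ0]
  have hθ0 : 0 ≤ θ := by nlinarith only [hδ2, hκ1]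
  have hθ1 : θ < 1 := by
    have : 0 < κ * δ ^ 2 := by positivity
    linarith only [this]
  refine ⟨θ ^ ((1 : ℝ) / 8), Real.rpow_nonneg hθ0 _, Real.rpow_lt_one hθ0 hθ1 (by norm_num), ?_⟩
  intro n hn heven v t hv ht
  set ρ : ℝ := θ ^ ((1 : ℝ) / 8) with hρ
  have hρ0 : 0 ≤ ρ := Real.rpow_nonneg hθ0 _
  have hρ1 : ρ ≤ 1 := Real.rpow_le_one hθ0 hθ1.le (by norm_num)
  have hρ8 : ρ ^ 8 = θ := by
    rw [hρ, ← Real.rpow_natCast, ← Real.rpow_mul hθ0]
    norm_num
  have : NeZero n := ⟨by omega⟩
  obtain ⟨N, hN⟩ := heven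
  -- positions
  let J := Fin (N / 2)
  let R' := Fin (N % 2)
  have hcardI : Fintype.card ((J × Bool) ⊕ R') = N := by
    simp only [Fintype.card_sum, Fintype.card_prod, Fintype.card_bool, Fintype.card_fin, J, R']
    omega
  have hcardP : Fintype.card (((J × Bool) ⊕ R') × Bool) = n * d := by
    rw [Fintype.card_prod, hcardI, Fintype.card_bool, hN]; ring
  have e0 : ((J × Bool) ⊕ R') × Bool ≃ HE n d := Fintype.equivOfCardEq (by
    rw [hcardP]; simp only [HE, Fintype.card_prod, Fintype.card_fin])
  have hnd : 0 < n * d := by positivity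
  have hne : Nonempty (((J × Bool) ⊕ R') × Bool) :=
    Fintype.card_pos_iff.mp (by rw [hcardP]; exact hnd)
  have hneI : Nonempty ((J × Bool) ⊕ R') := ⟨hne.some.1⟩
  set s : Fin n → ZMod p × ZMod p := fun u => (v u, t u) with hs
  set s' : ((J × Bool) ⊕ R') × Bool → ZMod p × ZMod p := fun y => s (e0 y).1 with hs'
  have hZ : Zf d v t = ZZ s' := Zf_eq_ZZ e0 v t
  set R : ℝ := ((n * d : ℝ) + 1) ^ (p ^ 2) with hR
  have hR1 : 1 ≤ R := one_le_pow₀ (by
    have : (0 : ℝ) ≤ (n : ℝ) * d := by (clear * - hn hd; positivity)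
    linarith only [this])
  have hcardS : Fintype.card (ZMod p × ZMod p) = p ^ 2 := by
    rw [Fintype.card_prod, ZMod.card, sq]
  have hPcast : ((Fintype.card (((J × Bool) ⊕ R') × Bool) : ℕ) : ℝ) = n * d := by
    rw [hcardP]; push_cast; ring
  -- spectral bound
  have hsp := norm_ZZ_le s'
  rw [hPcast, hcardS, hcardI, ← hR, wt_half (by omega) s e0] at hsp
  -- block bound
  have hbl := hκ J R' s' δ hδ0.le hδ1.le
    (fun c => by simp only [hs', emp_half (by omega : 1 ≤ d) s e0]; exact sum_emp_fst_le hv c)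
    (fun c => by simp only [hs', emp_half (by omega : 1 ≤ d) s e0]; exact sum_emp_snd_le ht c)
  rw [hPcast, hcardS, ← hR, ← hθ] at hbl
  have hJ : Fintype.card J = N / 2 := Fintype.card_fin _
  rw [hJ] at hbl
  rw [hZ]
  set z : ℝ := ‖ZZ s'‖ with hz
  have hz0 : 0 ≤ z := norm_nonneg _
  have hw := wt_pos s
  set w : ℝ := wt s with hwdef
  -- combine
  have hz2 : z ^ 2 ≤ R ^ 2 * ((p : ℝ) ^ n * w) ^ d := by
    have h1 : z ^ 2 ≤ (R * ((p : ℝ) ^ N * Real.sqrt (w ^ d))) ^ 2 := pow_le_pow_left₀ hz0 hsp 2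
    refine h1.trans (le_of_eq ?_)
    have h2 : ((p : ℝ) ^ N) ^ 2 = ((p : ℝ) ^ n) ^ d := by
      rw [← pow_mul, ← pow_mul, hN]; ring_nf
    rw [mul_pow, mul_pow, Real.sq_sqrt (by (clear * - hw; positivity)), h2, mul_pow]
  have hzd : z ^ (d - 2) ≤ R ^ (d - 2) * θ ^ (N / 2) := by
    have h1 : z ^ (d - 2) ≤ (R * θ ^ (N / 2)) ^ (d - 2) := pow_le_pow_left₀ hz0 hbl _
    refine h1.trans ?_
    rw [mul_pow]
    refine mul_le_mul_of_nonneg_left ?_ (by positivity)
    have h3 : (θ ^ (N / 2)) ^ (d - 2) ≤ (θ ^ (N / 2)) ^ 1 :=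
      pow_le_pow_of_le_one (by (clear * - hθ0; positivity)) (pow_le_one₀ hθ0 hθ1.le) (by omega)
    simpa only [ge_iff_le, pow_one] using h3
  have hθN : θ ^ (N / 2) ≤ (ρ ^ n) ^ d := by
    rw [← hρ8, ← pow_mul, ← pow_mul]
    refine pow_le_pow_of_le_one hρ0 hρ1 ?_
    have : 2 * 3 ≤ n * d := Nat.mul_le_mul hn hd
    omega
  have hzall : z ^ d ≤ (R * ((p : ℝ) ^ n * w) * ρ ^ n) ^ d := by
    have e1 : z ^ d = z ^ 2 * z ^ (d - 2) := by
      rw [← pow_add]; congr 1; omega
    rw [e1]
    calc z ^ 2 * z ^ (d - 2) ≤ (R ^ 2 * ((p : ℝ) ^ n * w) ^ d) * (R ^ (d - 2) * θ ^ (N / 2)) :=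
          mul_le_mul hz2 hzd (by (clear hp δ hδ0 hδ1 κ hκ0 hκ1 hκ θ hθ hδ2 hθ0 hθ1 hv ht ρ hρ hρ0 hρ1 hρ8 hs hs' hZ R hR hR1 hcardS hPcast hJ hbl hz hz0 w hsp hw hwdef hz2 hzd hθN e1; positivity)) (by (clear * - hn hd hw; positivity))
      _ = (R ^ 2 * R ^ (d - 2)) * ((p : ℝ) ^ n * w) ^ d * θ ^ (N / 2) := by ring
      _ ≤ (R ^ 2 * R ^ (d - 2)) * ((p : ℝ) ^ n * w) ^ d * (ρ ^ n) ^ d :=
          mul_le_mul_of_nonneg_left hθN (by (clear * - hn hd hw; positivity))
      _ = (R * ((p : ℝ) ^ n * w) * ρ ^ n) ^ d := by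
          rw [← pow_add, show 2 + (d - 2) = d by omega, ← mul_pow, ← mul_pow]
  exact le_of_pow_le_pow_left₀ (by omega) (by (clear * - hn hd hw hθ0; positivity)) hzall

/-- Sum over pairs of spread labelings. -/
lemma sum_spread_le {R ρ : ℝ} (hR : 0 ≤ R) (hρ : 0 ≤ ρ) {n d : ℕ} [NeZero n]
    (Pv : (Fin n → ZMod p) → Prop) [DecidablePred Pv] (Pt : (Fin n → ZMod p) → Prop)
    [DecidablePred Pt]
    (h : ∀ v t : Fin n → ZMod p, Pv v → Pt t →
      ‖Zf d v t‖ ≤ R * ((p : ℝ) ^ n * wt (fun u => (v u, t u))) * ρ ^ n) :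
    ∑ v ∈ univ.filter Pv, ∑ t ∈ univ.filter Pt, ‖Zf d v t‖
      ≤ R * (p : ℝ) ^ n * ρ ^ n * ((n : ℝ) + 1) ^ (p ^ 2) := by
  classical
  have h1 : ∑ v ∈ univ.filter Pv, ∑ t ∈ univ.filter Pt, ‖Zf d v t‖
      ≤ ∑ v ∈ univ.filter Pv, ∑ t ∈ univ.filter Pt,
        R * ((p : ℝ) ^ n * wt (fun u => (v u, t u))) * ρ ^ n := by
    refine Finset.sum_le_sum (fun v hv => Finset.sum_le_sum (fun t ht => ?_))
    exact h v t (Finset.mem_filter.mp hv).2 (Finset.mem_filter.mp ht).2
  refine h1.trans ?_
  have hnn : ∀ v t : Fin n → ZMod p, 0 ≤ R * ((p : ℝ) ^ n * wt (fun u => (v u, t u))) * ρ ^ n := by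
    intro v t
    have := wt_pos (fun u => (v u, t u))
    (clear * - hR this hρ; positivity)
  have h2 : ∑ v ∈ univ.filter Pv, ∑ t ∈ univ.filter Pt,
        R * ((p : ℝ) ^ n * wt (fun u => (v u, t u))) * ρ ^ n
      ≤ ∑ v : Fin n → ZMod p, ∑ t : Fin n → ZMod p,
        R * ((p : ℝ) ^ n * wt (fun u => (v u, t u))) * ρ ^ n := by
    refine (Finset.sum_le_sum_of_subset_of_nonneg (Finset.subset_univ _)
      (fun v _ _ => Finset.sum_nonneg (fun t _ => hnn v t))).trans ?_
    exact Finset.sum_le_sum (fun v _ => Finset.sum_le_sum_of_subset_of_nonneg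
      (Finset.subset_univ _) (fun t _ _ => hnn v t))
  refine h2.trans ?_
  have h3 : ∑ v : Fin n → ZMod p, ∑ t : Fin n → ZMod p,
        R * ((p : ℝ) ^ n * wt (fun u => (v u, t u))) * ρ ^ n
      = R * (p : ℝ) ^ n * ρ ^ n * ∑ s : Fin n → ZMod p × ZMod p, wt s := by
    rw [← Fintype.sum_prod_type' (fun v t : Fin n → ZMod p =>
      R * ((p : ℝ) ^ n * wt (fun u => (v u, t u))) * ρ ^ n), Finset.mul_sum]
    refine Fintype.sum_equiv (Equiv.arrowProdEquivProdArrow _ _ _).symm _ _ (fun q => ?_)
    have : (Equiv.arrowProdEquivProdArrow (Fin n) (fun _ => ZMod p) (fun _ => ZMod p)).symm q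
      = fun u => (q.1 u, q.2 u) := rfl
    rw [this]
    ring
  rw [h3]
  refine mul_le_mul_of_nonneg_left ?_ (by (clear * - hR hρ; positivity))
  have h4 := sum_wt_le (P := Fin n) (S := ZMod p × ZMod p)
  rw [Fintype.card_fin, Fintype.card_prod, ZMod.card, ← sq] at h4
  exact h4

end Spread

end Vale.Agent.P156
end
end

section

section

open Finset

set_option linter.unusedSectionVars false

namespace Vale.Agent.P156

section Expect

variable {n d p : ℕ} [Fact p.Prime]

/-- Sparse nonzero labelings. -/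
noncomputable def Sparse (n p : ℕ) [Fact p.Prime] (δ : ℝ) : Finset (Fin n → ZMod p) := by
  classical
  exact univ.filter (fun t => t ≠ 0 ∧ ((supp t).card : ℝ) ≤ δ * n)

lemma mem_Sparse {δ : ℝ} {t : Fin n → ZMod p} :
    t ∈ Sparse n p δ ↔ t ≠ 0 ∧ ((supp t).card : ℝ) ≤ δ * n := by
  classical
  simp only [Sparse, ne_eq, mem_filter, mem_univ, true_and]

/-- The sparse collision sum. -/
noncomputable def SS (n d p : ℕ) [Fact p.Prime] (δ : ℝ) : ℝ :=
  ∑ t ∈ Sparse n p δ, Real.sqrt (coll d t)

lemma card_sum_zero [NeZero n] :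
    ((univ.filter (fun v : Fin n → ZMod p => ∑ u, v u = 0)).card : ℝ) * p = (p : ℝ) ^ n := by
  classical
  -- all fibres of the sum have the same cardinality
  have h1 : ∀ c : ZMod p, (univ.filter (fun v : Fin n → ZMod p => ∑ u, v u = c)).card
      = (univ.filter (fun v : Fin n → ZMod p => ∑ u, v u = 0)).card := by
    intro c
    have u0 : Fin n := ⟨0, Nat.pos_of_ne_zero (NeZero.ne n)⟩
    refine Finset.card_bij' (fun v _ => v - Pi.single u0 c) (fun v _ => v + Pi.single u0 c)
      ?_ ?_ ?_ ?_
    · intro v hv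
      simp only [mem_filter, mem_univ, true_and] at hv ⊢
      simp only [Pi.sub_apply, Finset.sum_sub_distrib, hv]
      rw [Finset.sum_pi_single']
      simp
    · intro v hv
      simp only [mem_filter, mem_univ, true_and] at hv ⊢
      simp only [Pi.add_apply, Finset.sum_add_distrib, hv]
      rw [Finset.sum_pi_single']
      simp
    · intro v _; simp
    · intro v _; simp
  have h2 : Fintype.card (Fin n → ZMod p)
      = ∑ c : ZMod p, (univ.filter (fun v : Fin n → ZMod p => ∑ u, v u = c)).card := by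
    rw [← Finset.card_univ]
    exact Finset.card_eq_sum_card_fiberwise (fun v _ => mem_univ _)
  rw [Finset.sum_congr rfl (fun c _ => h1 c), Finset.sum_const, Finset.card_univ, ZMod.card,
    smul_eq_mul] at h2
  have h3 : Fintype.card (Fin n → ZMod p) = p ^ n := by
    simp only [Fintype.card_pi, ZMod.card, prod_const, card_univ, Fintype.card_fin]
  rw [h3] at h2
  have : ((p ^ n : ℕ) : ℝ)
      = ((p * (univ.filter (fun v : Fin n → ZMod p => ∑ u, v u = 0)).card : ℕ) : ℝ) := by
    exact_mod_cast h2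
  push_cast at this
  rw [this]; ring

lemma sum_norm_Zf_le (hM : (matchings (HE n d)).card ≠ 0) (t : Fin n → ZMod p) :
    ∑ v : Fin n → ZMod p, ‖Zf d v t‖
      ≤ (p : ℝ) ^ n * (Real.sqrt (coll d t) / ((matchings (HE n d)).card : ℝ)) := by
  have hMr : (0 : ℝ) < ((matchings (HE n d)).card : ℝ) := by
    exact_mod_cast Nat.pos_of_ne_zero hM
  have h1 := sum_normSq_Zf (d := d) t
  have h2 := sq_sum_le_card_mul_sum_sq (s := (univ : Finset (Fin n → ZMod p)))
    (f := fun v => ‖Zf d v t‖)
  have h3 : ((univ : Finset (Fin n → ZMod p)).card : ℝ) = (p : ℝ) ^ n := by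
    simp only [card_univ, Fintype.card_pi, ZMod.card, prod_const, Fintype.card_fin, Nat.cast_pow]
  rw [h3] at h2
  have h4 : ∑ v : Fin n → ZMod p, ‖Zf d v t‖ ^ 2
      = (p : ℝ) ^ n * ((coll d t : ℝ) / ((matchings (HE n d)).card : ℝ) ^ 2) := by
    rw [← mul_div_assoc, eq_div_iff (by (clear * - hM; positivity))]
    exact h1
  rw [h4] at h2
  refine abs_le_of_sq_le_sq' ?_ (by (clear hMr h1 h2 h3 h4; positivity)) |>.2
  refine h2.trans (le_of_eq ?_)
  rw [mul_pow, div_pow, Real.sq_sqrt (by (clear hM hMr h1 h2 h3 h4; positivity))]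
  ring

lemma Nv_le_sqrt (α : ZMod p) (v : Fin n → ZMod p) :
    (Nv d α v : ℝ) ≤ Real.sqrt (coll d v) := by
  refine Real.le_sqrt_of_sq_le ?_
  exact_mod_cast Nv_sq_le α v

lemma total_bound [NeZero n] (hM : (matchings (HE n d)).card ≠ 0) {α : ZMod p}
    (hα : α ≠ (d : ZMod p)) {δ : ℝ} (hδ : δ * (d + 1) < 1) {B : ℝ}
    (hB : ∀ (Pv Pt : (Fin n → ZMod p) → Prop) [DecidablePred Pv] [DecidablePred Pt],
      (∀ v, Pv v → Spread δ v) → (∀ t, Pt t → Spread δ t) →
      ∑ v ∈ univ.filter Pv, ∑ t ∈ univ.filter Pt, ‖Zf d v t‖ ≤ (p : ℝ) ^ n * B) :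
    ∑ v ∈ univ.filter (fun v : Fin n → ZMod p => v ≠ 0), (Nv d α v : ℝ)
      ≤ ((matchings (HE n d)).card : ℝ) * (1 + B) + (p + 1) * SS n d p δ := by
  classical
  set M : ℝ := ((matchings (HE n d)).card : ℝ) with hMdef
  have hMpos : 0 < M := by rw [hMdef]; exact_mod_cast Nat.pos_of_ne_zero hM
  have hn : (0 : ℝ) < n := by exact_mod_cast Nat.pos_of_ne_zero (NeZero.ne n)
  have hp0 : (0 : ℝ) < p := by exact_mod_cast (Fact.out : p.Prime).pos
  set A3 : Finset (Fin n → ZMod p) := univ.filter (fun v => Spread δ v ∧ ∑ u, v u = 0) with hA3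
  -- step 1
  have step1 : ∑ v ∈ univ.filter (fun v : Fin n → ZMod p => v ≠ 0), (Nv d α v : ℝ)
      ≤ ∑ v ∈ Sparse n p δ, (Nv d α v : ℝ) + ∑ v ∈ A3, (Nv d α v : ℝ) := by
    rw [← Finset.sum_filter_add_sum_filter_not (univ.filter (fun v : Fin n → ZMod p => v ≠ 0))
      (fun v => v ∈ Sparse n p δ)]
    refine add_le_add ?_ ?_
    · refine Finset.sum_le_sum_of_subset_of_nonneg ?_ (fun _ _ _ => by (clear hM hα hδ B hB M hMdef hMpos hn hp0 A3 hA3; positivity))
      intro v hv
      exact (Finset.mem_filter.mp hv).2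
    · have hzero : ∀ v ∈ (univ.filter (fun v : Fin n → ZMod p => v ≠ 0)).filter
          (fun v => v ∉ Sparse n p δ), v ∉ A3 → (Nv d α v : ℝ) = 0 := by
        intro v hv hvA
        simp only [mem_filter, mem_univ, true_and, mem_Sparse, not_and, not_le] at hv
        have hsupp := hv.2 hv.1
        have hN : Nv d α v = 0 := by
          unfold Nv
          rw [Finset.card_eq_zero, Finset.filter_eq_empty_iff]
          intro f _ hf
          apply hvA
          rw [hA3, mem_filter]
          refine ⟨mem_univ _, ?_, sum_zero_of_eigen hα hf⟩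
          intro c
          by_contra hcon
          push Not at hcon
          by_cases hc : c = 0
          · subst hc
            have : (univ.filter (fun u => v u ≠ 0)) = supp v := rfl
            rw [this] at hcon
            (clear hM α hα hδ B hB M hMdef hMpos hn hp0 A3 hA3 hvA hf this; linarith)
          · refine near_const_not_eigen (f := f) hα hc ?_ hf
            have h1 : ((univ.filter (fun u => v u ≠ c)).card : ℝ) * ((d : ℝ) + 1) < n := by
              calc ((univ.filter (fun u => v u ≠ c)).card : ℝ) * ((d : ℝ) + 1)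
                  ≤ δ * n * ((d : ℝ) + 1) := mul_le_mul_of_nonneg_right hcon (by (clear * -; positivity))
                _ = (δ * (d + 1)) * n := by ring
                _ < 1 * n := mul_lt_mul_of_pos_right hδ hn
                _ = n := one_mul _
            have h2 : (((univ.filter (fun u => v u ≠ c)).card * (d + 1) : ℕ) : ℝ) < (n : ℝ) := by
              push_cast; exact h1
            exact_mod_cast h2
        rw [hN]; simp
      calc ∑ v ∈ (univ.filter (fun v : Fin n → ZMod p => v ≠ 0)).filter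
            (fun v => v ∉ Sparse n p δ), (Nv d α v : ℝ)
          = ∑ v ∈ ((univ.filter (fun v : Fin n → ZMod p => v ≠ 0)).filter
            (fun v => v ∉ Sparse n p δ)).filter (fun v => v ∈ A3), (Nv d α v : ℝ) := by
            rw [Finset.sum_filter (fun v => v ∈ A3)]
            refine Finset.sum_congr rfl (fun v hv => ?_)
            by_cases hvA : v ∈ A3
            · simp [hvA]
            · rw [if_neg hvA]; exact hzero v hv hvA
        _ ≤ ∑ v ∈ A3, (Nv d α v : ℝ) := by
            refine Finset.sum_le_sum_of_subset_of_nonneg ?_ (fun _ _ _ => by (clear hM hα hδ B hB M hMdef hMpos hn hp0 hA3 hzero; positivity))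
            intro v hv
            exact (Finset.mem_filter.mp hv).2
  have step2 : ∑ v ∈ Sparse n p δ, (Nv d α v : ℝ) ≤ SS n d p δ :=
    Finset.sum_le_sum (fun v _ => Nv_le_sqrt α v)
  -- step 3: the spread part
  have step3 : (∑ v ∈ A3, (Nv d α v : ℝ)) * (p : ℝ) ^ n
      ≤ M * ∑ v ∈ A3, ∑ t : Fin n → ZMod p, ‖Zf d v t‖ := by
    rw [Finset.sum_mul, Finset.mul_sum]
    exact Finset.sum_le_sum (fun v _ => Nv_le α v)
  have step4 : ∀ v : Fin n → ZMod p, ∑ t : Fin n → ZMod p, ‖Zf d v t‖
      ≤ ∑ t ∈ univ.filter (fun t : Fin n → ZMod p => Spread δ t), ‖Zf d v t‖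
        + p * (1 + ∑ t ∈ Sparse n p δ, ‖Zf d v t‖) := by
    intro v
    rw [← Finset.sum_filter_add_sum_filter_not univ (fun t : Fin n → ZMod p => Spread δ t)]
    refine add_le_add le_rfl ?_
    have h1 : ∑ t ∈ univ.filter (fun t : Fin n → ZMod p => ¬ Spread δ t), ‖Zf d v t‖
        ≤ ∑ c : ZMod p, ∑ t ∈ univ.filter (fun t : Fin n → ZMod p =>
          ((univ.filter (fun u => t u ≠ c)).card : ℝ) ≤ δ * n), ‖Zf d v t‖ := by
      have e1 : ∀ c : ZMod p, ∑ t ∈ univ.filter (fun t : Fin n → ZMod p =>
          ((univ.filter (fun u => t u ≠ c)).card : ℝ) ≤ δ * n), ‖Zf d v t‖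
          = ∑ t : Fin n → ZMod p, (if ((univ.filter (fun u => t u ≠ c)).card : ℝ) ≤ δ * n
            then ‖Zf d v t‖ else 0) := fun c => Finset.sum_filter _ _
      simp only [e1]
      rw [Finset.sum_comm, Finset.sum_filter]
      refine Finset.sum_le_sum (fun t _ => ?_)
      split_ifs with ht
      · exact Finset.sum_nonneg (fun c _ => by split_ifs <;> simp)
      · simp only [Spread, not_forall, not_lt] at ht
        obtain ⟨c, hc⟩ := ht
        have := Finset.single_le_sum (f := fun c : ZMod p =>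
          (if ((univ.filter (fun u => t u ≠ c)).card : ℝ) ≤ δ * n then ‖Zf d v t‖ else 0))
          (fun c _ => by split_ifs <;> simp) (mem_univ c)
        simp only [if_pos hc] at this
        exact this
    refine h1.trans ?_
    have h2 : ∀ c : ZMod p, ∑ t ∈ univ.filter (fun t : Fin n → ZMod p =>
          ((univ.filter (fun u => t u ≠ c)).card : ℝ) ≤ δ * n), ‖Zf d v t‖
        = ∑ t ∈ univ.filter (fun t : Fin n → ZMod p =>
          ((supp t).card : ℝ) ≤ δ * n), ‖Zf d v t‖ := by
      intro c
      symm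
      refine Finset.sum_bij' (fun t _ => fun u => t u + c) (fun t _ => fun u => t u - c)
        ?_ ?_ ?_ ?_ ?_
      · intro t ht
        simp only [mem_filter, mem_univ, true_and, supp] at ht ⊢
        simpa only [ne_eq, add_eq_right, mem_filter, mem_univ, true_and] using ht
      · intro t ht
        simp only [mem_filter, mem_univ, true_and, supp] at ht ⊢
        simpa only [ne_eq, mem_filter, mem_univ, sub_ne_zero, true_and] using ht
      · intro t _; funext u; simp
      · intro t _; funext u; simp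
      · intro t _; exact (norm_Zf_add_const v t c).symm
    simp only [h2]
    rw [Finset.sum_const, Finset.card_univ, ZMod.card, nsmul_eq_mul]
    refine mul_le_mul_of_nonneg_left ?_ hp0.le
    have h3 : univ.filter (fun t : Fin n → ZMod p => ((supp t).card : ℝ) ≤ δ * n)
        ⊆ insert 0 (Sparse n p δ) := by
      intro t ht
      rw [mem_insert, mem_Sparse]
      by_cases h0 : t = 0
      · exact Or.inl h0
      · exact Or.inr ⟨h0, (Finset.mem_filter.mp ht).2⟩
    refine (Finset.sum_le_sum_of_subset_of_nonneg h3 (fun _ _ _ => norm_nonneg _)).trans ?_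
    rw [Finset.sum_insert (by simp only [mem_Sparse, ne_eq, not_true_eq_false, false_and, not_false_eq_true])]
    exact add_le_add (norm_Zf_le_one _ _) le_rfl
  have step5 : ∑ v ∈ A3, ∑ t : Fin n → ZMod p, ‖Zf d v t‖
      ≤ (p : ℝ) ^ n * B + (p : ℝ) ^ n + (p : ℝ) * ((p : ℝ) ^ n * (SS n d p δ / M)) := by
    have h1 : ∑ v ∈ A3, ∑ t : Fin n → ZMod p, ‖Zf d v t‖
        ≤ ∑ v ∈ A3, (∑ t ∈ univ.filter (fun t : Fin n → ZMod p => Spread δ t), ‖Zf d v t‖
        + p * (1 + ∑ t ∈ Sparse n p δ, ‖Zf d v t‖)) := Finset.sum_le_sum (fun v _ => step4 v)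
    refine h1.trans ?_
    rw [Finset.sum_add_distrib, ← Finset.mul_sum, Finset.sum_add_distrib]
    have h2 : ∑ v ∈ A3, ∑ t ∈ univ.filter (fun t : Fin n → ZMod p => Spread δ t), ‖Zf d v t‖
        ≤ (p : ℝ) ^ n * B := by
      have := hB (fun v => Spread δ v ∧ ∑ u, v u = 0) (fun t => Spread δ t)
        (fun v hv => hv.1) (fun t ht => ht)
      exact this
    have h3 : (p : ℝ) * ∑ v ∈ A3, (1 : ℝ) ≤ (p : ℝ) ^ n := by
      rw [Finset.sum_const, nsmul_eq_mul, mul_one, mul_comm]
      rw [← card_sum_zero (n := n) (p := p)]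
      refine mul_le_mul_of_nonneg_right ?_ hp0.le
      have : A3 ⊆ univ.filter (fun v : Fin n → ZMod p => ∑ u, v u = 0) := by
        intro v hv
        rw [mem_filter] at hv ⊢
        exact ⟨hv.1, hv.2.2⟩
      exact_mod_cast Finset.card_le_card this
    have h4 : ∑ v ∈ A3, ∑ t ∈ Sparse n p δ, ‖Zf d v t‖ ≤ (p : ℝ) ^ n * (SS n d p δ / M) := by
      rw [Finset.sum_comm]
      unfold SS
      rw [Finset.sum_div, Finset.mul_sum]
      refine Finset.sum_le_sum (fun t _ => ?_)
      refine le_trans ?_ (sum_norm_Zf_le hM t)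
      exact Finset.sum_le_sum_of_subset_of_nonneg (Finset.subset_univ _)
        (fun _ _ _ => norm_nonneg _)
    rw [mul_add]
    have h5 := mul_le_mul_of_nonneg_left h4 hp0.le
    (clear α hα hδ hMdef hMpos hn hA3 step1 step2 step3 step4 h1; linarith)
  have hpn : (0 : ℝ) < (p : ℝ) ^ n := by (clear * - hp0; positivity)
  have step6 : ∑ v ∈ A3, (Nv d α v : ℝ) ≤ M * (1 + B) + p * SS n d p δ := by
    have h1 : (∑ v ∈ A3, (Nv d α v : ℝ)) * (p : ℝ) ^ n
        ≤ (M * (1 + B) + p * SS n d p δ) * (p : ℝ) ^ n := by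
      refine step3.trans ((mul_le_mul_of_nonneg_left step5 hMpos.le).trans (le_of_eq ?_))
      field_simp
      ring
    exact le_of_mul_le_mul_right h1 hpn
  calc ∑ v ∈ univ.filter (fun v : Fin n → ZMod p => v ≠ 0), (Nv d α v : ℝ)
      ≤ ∑ v ∈ Sparse n p δ, (Nv d α v : ℝ) + ∑ v ∈ A3, (Nv d α v : ℝ) := step1
    _ ≤ SS n d p δ + (M * (1 + B) + p * SS n d p δ) := add_le_add step2 step6
    _ = M * (1 + B) + (p + 1) * SS n d p δ := by ring

end Expect

end Vale.Agent.P156
end
end

section

section

open Finset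

set_option linter.unusedSectionVars false

namespace Vale.Agent.P156

section SparseSum

variable {n d p : ℕ} [Fact p.Prime]

lemma card_supp_eq_le (j : ℕ) :
    (univ.filter (fun t : Fin n → ZMod p => (supp t).card = j)).card ≤ n.choose j * p ^ j := by
  classical
  have h1 : univ.filter (fun t : Fin n → ZMod p => (supp t).card = j)
      ⊆ (powersetCard j (univ : Finset (Fin n))).biUnion
        (fun T => univ.filter (fun t : Fin n → ZMod p => supp t = T)) := by
    intro t ht
    simp only [mem_filter, mem_univ, true_and] at ht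
    simp only [mem_biUnion, mem_powersetCard, mem_filter, mem_univ, true_and]
    exact ⟨supp t, ⟨Finset.subset_univ _, ht⟩, rfl⟩
  refine (Finset.card_le_card h1).trans ?_
  have h2 : ∀ T ∈ powersetCard j (univ : Finset (Fin n)),
      (univ.filter (fun t : Fin n → ZMod p => supp t = T)).card ≤ p ^ j := by
    intro T hT
    rw [mem_powersetCard] at hT
    have h3 : (univ.filter (fun t : Fin n → ZMod p => supp t = T)).card
        ≤ Fintype.card (T → ZMod p) := by
      rw [← Finset.card_univ]
      refine Finset.card_le_card_of_injOn (fun t u => t u.1) (fun _ _ => Finset.mem_coe.mpr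
        (mem_univ _)) ?_
      intro t ht t' ht' h
      simp only [Finset.coe_filter, mem_univ, true_and, Set.mem_ofPred_eq] at ht ht'
      funext u
      by_cases hu : u ∈ T
      · exact congrFun h ⟨u, hu⟩
      · have e1 : t u = 0 := by
          by_contra hne
          apply hu
          rw [← ht]; simp only [supp, ne_eq, mem_filter, mem_univ, hne, not_false_eq_true, and_self]
        have e2 : t' u = 0 := by
          by_contra hne
          apply hu
          rw [← ht']; simp only [supp, ne_eq, mem_filter, mem_univ, hne, not_false_eq_true, and_self]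
        rw [e1, e2]
    refine h3.trans (le_of_eq ?_)
    rw [Fintype.card_fun, ZMod.card, Fintype.card_coe, hT.2]
  refine (Finset.card_biUnion_le_card_mul _ _ _ h2).trans (le_of_eq ?_)
  rw [Finset.card_powersetCard, Finset.card_univ, Fintype.card_fin]

lemma sum_half_le (m : ℕ) : ∑ j ∈ range m, (j : ℝ) * (1 / 2) ^ j ≤ 2 := by
  have key : ∀ m : ℕ, ∑ j ∈ range m, (j : ℝ) * (1 / 2) ^ j = 2 - ((m : ℝ) + 1) * 2 * (1 / 2) ^ m := by
    intro m
    induction m with
    | zero => simp only [range_zero, one_div, inv_pow, sum_empty, CharP.cast_eq_zero, zero_add, one_mul, pow_zero, mul_one, sub_self]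
    | succ m ih =>
      rw [Finset.sum_range_succ, ih, pow_succ]
      push_cast
      ring
  rw [key]
  have : 0 ≤ ((m : ℝ) + 1) * 2 * (1 / 2) ^ m := by positivity
  linarith only [this]

lemma SS_le (hd : 3 ≤ d) (hn : 1 ≤ n) {δ : ℝ} (_hδ0 : 0 ≤ δ) (hδ1 : 24 * d * δ ≤ 1)
    (hδ2 : (72 * d * p : ℝ) * Real.sqrt (24 * d * δ) ≤ 1 / 2) :
    SS n d p δ ≤ ((matchings (HE n d)).card : ℝ) *
      (4 * (72 * d * p) * Real.sqrt (24 * d / n)) := by
  classical
  set M : ℝ := ((matchings (HE n d)).card : ℝ) with hM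
  have hM0 : 0 ≤ M := by (clear * -; positivity)
  have hnR : (0 : ℝ) < n := by exact_mod_cast hn
  have hp1 : (1 : ℝ) ≤ p := by exact_mod_cast (Fact.out : p.Prime).one_lt.le
  have hdR : (3 : ℝ) ≤ d := by exact_mod_cast hd
  set C : ℝ := 72 * d * p with hC
  have hC0 : 0 < C := by (clear * - hd hp1; positivity)
  let y : ℕ → ℝ := fun j => Real.sqrt (24 * d * j / n)
  have hy0 : ∀ j, 0 ≤ y j := fun j => Real.sqrt_nonneg _
  have hy2 : ∀ j : ℕ, y j ^ 2 = 24 * d * j / n := fun j => Real.sq_sqrt (by (clear * - hd hn; positivity))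
  -- bound of the square root of coll
  have h1 : ∀ t ∈ Sparse n p δ, Real.sqrt (coll d t) ≤ M * y (supp t).card ^ (d * (supp t).card) := by
    intro t ht
    rw [mem_Sparse] at ht
    obtain ⟨ht0, hts⟩ := ht
    set j := (supp t).card with hj
    have hj1 : 1 ≤ j := by
      rw [hj, Nat.one_le_iff_ne_zero, Finset.card_ne_zero]
      obtain ⟨u, hu⟩ := Function.ne_iff.mp ht0
      exact ⟨u, by simpa only [supp, ne_eq, mem_filter, mem_univ, true_and, Pi.zero_apply] using hu⟩
    have h6 : 6 * d * j ≤ n := by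
      have : (6 : ℝ) * d * j ≤ n := by
        have h7 : (24 : ℝ) * d * j ≤ 24 * d * (δ * n) := mul_le_mul_of_nonneg_left hts (by positivity)
        have h8 : 24 * d * (δ * n) ≤ 1 * (n : ℝ) := by
          have := mul_le_mul_of_nonneg_right hδ1 hnR.le
          linarith only [this]
        have h9 : (0 : ℝ) ≤ (d : ℝ) * j := by (clear * - hd hj1; positivity)
        nlinarith only [h7, h8]
      exact_mod_cast this
    have hc := coll_le (by omega : 1 ≤ d) t hj1 h6
    rw [← hj, ← hM, ← hy2 j] at hc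
    have h10 : Real.sqrt (coll d t) ≤ Real.sqrt ((y j ^ 2) ^ (d * j) * M ^ 2) :=
      Real.sqrt_le_sqrt hc
    refine h10.trans (le_of_eq ?_)
    rw [← pow_mul, mul_comm 2, pow_mul, ← mul_pow, Real.sqrt_sq (by (clear * - hd hj1 hn; positivity))]
    ring
  have h2 : SS n d p δ ≤ ∑ t ∈ Sparse n p δ, M * y (supp t).card ^ (d * (supp t).card) :=
    Finset.sum_le_sum h1
  refine h2.trans ?_
  rw [← Finset.mul_sum]
  refine mul_le_mul_of_nonneg_left ?_ hM0
  -- group by support size
  rw [← Finset.sum_fiberwise_of_maps_to (s := Sparse n p δ) (t := range (n + 1))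
    (g := fun t => (supp t).card) (fun t _ => by
      rw [mem_range, Nat.lt_succ_iff]
      exact (Finset.card_le_univ _).trans (by simp only [Fintype.card_fin, Std.le_refl]))]
  have h3 : ∀ j ∈ range (n + 1), ∑ t ∈ (Sparse n p δ).filter (fun t => (supp t).card = j),
      y (supp t).card ^ (d * (supp t).card)
      ≤ (4 * C * Real.sqrt (24 * d / n)) / 2 * ((j : ℝ) * (1 / 2) ^ j) := by
    intro j _
    rcases Finset.eq_empty_or_nonempty ((Sparse n p δ).filter (fun t => (supp t).card = j))
      with hE | ⟨t0, ht0⟩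
    · rw [hE, Finset.sum_empty]; (clear * - hd hp1 hn; positivity)
    · simp only [mem_filter, mem_Sparse] at ht0
      obtain ⟨⟨ht0a, ht0b⟩, ht0c⟩ := ht0
      rw [ht0c] at ht0b
      have hj1 : 1 ≤ j := by
        rw [← ht0c, Nat.one_le_iff_ne_zero, Finset.card_ne_zero]
        obtain ⟨u, hu⟩ := Function.ne_iff.mp ht0a
        exact ⟨u, by simpa only [supp, ne_eq, mem_filter, mem_univ, true_and, Pi.zero_apply] using hu⟩
      have hjn : 24 * d * j / n ≤ 24 * d * δ := by
        rw [div_le_iff₀ hnR]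
        have := mul_le_mul_of_nonneg_left ht0b (by positivity : (0 : ℝ) ≤ 24 * d)
        linarith only [this]
      have hy1 : y j ≤ 1 := Real.sqrt_le_one.mpr (hjn.trans hδ1)
      have hCy : C * y j ≤ 1 / 2 :=
        (mul_le_mul_of_nonneg_left (Real.sqrt_le_sqrt hjn) hC0.le).trans hδ2
      have h4 : ∑ t ∈ (Sparse n p δ).filter (fun t => (supp t).card = j),
          y (supp t).card ^ (d * (supp t).card)
          ≤ ((n.choose j * p ^ j : ℕ) : ℝ) * y j ^ (d * j) := by
        have h5 : ∑ t ∈ (Sparse n p δ).filter (fun t => (supp t).card = j),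
          y (supp t).card ^ (d * (supp t).card)
          = (((Sparse n p δ).filter (fun t => (supp t).card = j)).card : ℝ) * y j ^ (d * j) := by
          rw [← nsmul_eq_mul, ← Finset.sum_const]
          refine Finset.sum_congr rfl (fun t ht => ?_)
          rw [(Finset.mem_filter.mp ht).2]
        rw [h5]
        refine mul_le_mul_of_nonneg_right ?_ (pow_nonneg (hy0 j) _)
        have h6 : ((Sparse n p δ).filter (fun t => (supp t).card = j)).card
            ≤ (univ.filter (fun t : Fin n → ZMod p => (supp t).card = j)).card := by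
          refine Finset.card_le_card ?_
          intro t ht
          rw [mem_filter] at ht ⊢
          exact ⟨mem_univ _, ht.2⟩
        exact_mod_cast h6.trans (card_supp_eq_le j)
      refine h4.trans ?_
      -- choose bound
      have hfact : (0 : ℝ) < (j.factorial : ℝ) := by exact_mod_cast Nat.factorial_pos j
      have hchoose : (n.choose j : ℝ) ≤ (n : ℝ) ^ j / (j.factorial : ℝ) :=
        Nat.choose_le_pow_div j n
      have hjj : (j : ℝ) ^ j / (j.factorial : ℝ) ≤ 3 ^ j := by
        refine (Real.pow_div_factorial_le_exp (j : ℝ) (by positivity) j).trans ?_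
        have : Real.exp (j : ℝ) = Real.exp 1 ^ j := by
          rw [← Real.exp_nat_mul, mul_one]
        rw [this]
        refine pow_le_pow_left₀ (Real.exp_pos 1).le ?_ j
        have := Real.exp_one_lt_d9
        linarith only [this]
      have hy3 : y j ^ (d * j) ≤ (24 * d * j / n) ^ j * y j ^ j := by
        rw [← hy2 j, ← mul_pow]
        have e1 : y j ^ 2 * y j = y j ^ 3 := by ring
        rw [e1, ← pow_mul]
        exact pow_le_pow_of_le_one (hy0 j) hy1 (Nat.mul_le_mul_right j hd)
      have hCy' : ((n.choose j * p ^ j : ℕ) : ℝ) * y j ^ (d * j) ≤ (C * y j) ^ j := by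
        push_cast
        calc (n.choose j : ℝ) * (p : ℝ) ^ j * y j ^ (d * j)
            ≤ ((n : ℝ) ^ j / (j.factorial : ℝ)) * (p : ℝ) ^ j *
              ((24 * d * j / n) ^ j * y j ^ j) := by
              refine mul_le_mul ?_ hy3 (pow_nonneg (hy0 j) _) (by (clear * - hn hp1; positivity))
              exact mul_le_mul_of_nonneg_right hchoose (by (clear * - hp1; positivity))
          _ = ((j : ℝ) ^ j / (j.factorial : ℝ)) * ((24 * d * p) ^ j * y j ^ j) := by
              have hne : (n : ℝ) ≠ 0 := hnR.ne'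
              rw [div_pow, mul_pow, mul_pow, mul_pow, mul_pow]
              (clear * - hn hj1 hd hp1; field_simp)
          _ ≤ 3 ^ j * ((24 * d * p) ^ j * y j ^ j) :=
              mul_le_mul_of_nonneg_right hjj (by
                have := pow_nonneg (hy0 j) j
                (clear * - hd hp1 hj1 hn; positivity))
          _ = (C * y j) ^ j := by
              rw [← mul_pow, ← mul_pow]
              congr 1
              rw [hC]
              ring
      refine hCy'.trans ?_
      have hsplit : (C * y j) ^ j = (C * y j) * (C * y j) ^ (j - 1) := by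
        rw [← pow_succ']; congr 1; omega
      have hyj : y j ≤ Real.sqrt (24 * d / n) * j := by
        have hjR : (1 : ℝ) ≤ j := by exact_mod_cast hj1
        have e1 : 24 * (d : ℝ) * j / n = (24 * d / n) * j := by ring
        have e2 : y j = Real.sqrt (24 * d / n) * Real.sqrt j := by
          show Real.sqrt (24 * d * j / n) = _
          rw [e1, Real.sqrt_mul (by positivity)]
        rw [e2]
        refine mul_le_mul_of_nonneg_left ?_ (Real.sqrt_nonneg _)
        rw [Real.sqrt_le_left (by linarith only [])]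
        nlinarith only [hjR]
      rw [hsplit]
      have hCy0 : 0 ≤ C * y j := mul_nonneg hC0.le (hy0 j)
      calc (C * y j) * (C * y j) ^ (j - 1)
          ≤ (C * (Real.sqrt (24 * d / n) * j)) * (1 / 2) ^ (j - 1) := by
            refine mul_le_mul (mul_le_mul_of_nonneg_left hyj hC0.le)
              (pow_le_pow_left₀ hCy0 hCy _) (pow_nonneg hCy0 _) (by (clear * - hd hp1 hn hj1; positivity))
        _ = (4 * C * Real.sqrt (24 * d / n)) / 2 * ((j : ℝ) * (1 / 2) ^ j) := by
            have : (1 / 2 : ℝ) ^ (j - 1) = 2 * (1 / 2) ^ j := by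
              have e3 : (1 / 2 : ℝ) ^ j = (1 / 2) ^ (j - 1) * (1 / 2) := by
                rw [← pow_succ]; congr 1; omega
              rw [e3]; ring
            rw [this]; ring
  refine (Finset.sum_le_sum h3).trans ?_
  rw [← Finset.mul_sum]
  have h4 := sum_half_le (n + 1)
  have h5 : (0 : ℝ) ≤ (4 * C * Real.sqrt (24 * d / n)) / 2 := by positivity
  calc (4 * C * Real.sqrt (24 * d / n)) / 2 * ∑ j ∈ range (n + 1), ((j : ℝ) * (1 / 2) ^ j)
      ≤ (4 * C * Real.sqrt (24 * d / n)) / 2 * 2 := mul_le_mul_of_nonneg_left h4 h5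
    _ = 4 * C * Real.sqrt (24 * d / n) := by ring

end SparseSum

end Vale.Agent.P156
end
end

section

section

open Finset

set_option linter.unusedSectionVars false

namespace Vale.Agent.P156

section KernelExpect

lemma matchings_HE_nonempty {n d : ℕ} (h : Even (n * d)) : (matchings (HE n d)).Nonempty := by
  obtain ⟨N, hN⟩ := h
  have e0 : Fin N × Bool ≃ HE n d := Fintype.equivOfCardEq (by
    simp only [Fintype.card_prod, Fintype.card_fin, Fintype.card_bool, HE]
    omega)
  exact matchings_nonempty e0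

/-- First moment bound for the number of nonzero eigenvectors over `ZMod p`. -/
theorem kernel_expect (d : ℕ) (hd : 3 ≤ d) (p : ℕ) [Fact p.Prime] (hp : p ≠ 2) (α : ZMod p)
    (hα : α ≠ (d : ZMod p)) (ε : ℝ) (hε : 0 < ε) :
    ∃ n0 : ℕ, ∀ n ≥ n0, Even (n * d) →
      ∑ v ∈ univ.filter (fun v : Fin n → ZMod p => v ≠ 0), (Nv d α v : ℝ)
        ≤ (1 + ε) * ((matchings (HE n d)).card : ℝ) := by
  classical
  have hdR : (3 : ℝ) ≤ d := by exact_mod_cast hd
  have hp1 : (1 : ℝ) ≤ p := by exact_mod_cast (Fact.out : p.Prime).one_lt.le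
  set C : ℝ := 72 * d * p with hC
  have hC0 : 0 < C := by positivity
  have hC216 : 216 ≤ C := by
    rw [hC]; nlinarith only [hdR, hp1]
  set δ : ℝ := (1 / (2 * C)) ^ 2 / (24 * d) with hδ
  have hδ0 : 0 < δ := by (clear * - hd hp1; positivity)
  have h24 : 24 * (d : ℝ) * δ = (1 / (2 * C)) ^ 2 := by
    rw [hδ]; field_simp
  have hsm : (1 / (2 * C)) ≤ 1 / 432 := by
    refine one_div_le_one_div_of_le (by norm_num) (by linarith only [hC216])
  have hsm0 : 0 < 1 / (2 * C) := by (clear * - hd hp1; positivity)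
  have h24le : 24 * (d : ℝ) * δ ≤ 1 := by
    rw [h24]
    nlinarith only [hsm, hsm0]
  have hδC : C * Real.sqrt (24 * d * δ) ≤ 1 / 2 := by
    rw [h24, Real.sqrt_sq hsm0.le]
    refine le_of_eq ?_
    field_simp
  have hδ1 : δ < 1 := by nlinarith only [hdR, h24le]
  have hδd : δ * ((d : ℝ) + 1) < 1 := by nlinarith only [hdR, h24le]
  obtain ⟨ρ, hρ0, hρ1, hρ⟩ := spread_bound p hp d hd δ hδ0 hδ1
  -- the error terms tend to zero
  have hlim1 : Filter.Tendsto (fun n : ℕ => (2 * (d : ℝ)) ^ (p ^ 2) * 2 ^ (p ^ 2) *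
      ((n : ℝ) ^ (p ^ 2 + p ^ 2) * ρ ^ n)) Filter.atTop (nhds 0) := by
    have := tendsto_pow_const_mul_const_pow_of_abs_lt_one (p ^ 2 + p ^ 2)
      (r := ρ) (by rw [abs_of_nonneg hρ0]; exact hρ1)
    simpa only [mul_zero] using this.const_mul ((2 * (d : ℝ)) ^ (p ^ 2) * 2 ^ (p ^ 2))
  have hlim2 : Filter.Tendsto (fun n : ℕ => ((p : ℝ) + 1) * (4 * C * Real.sqrt (24 * d / n)))
      Filter.atTop (nhds 0) := by
    have h1 : Filter.Tendsto (fun n : ℕ => 24 * (d : ℝ) / n) Filter.atTop (nhds 0) :=
      tendsto_const_div_atTop_nhds_zero_nat (24 * (d : ℝ))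
    have h2 := (Real.continuous_sqrt.tendsto 0).comp h1
    rw [Real.sqrt_zero] at h2
    have h3 := (h2.const_mul (4 * C)).const_mul ((p : ℝ) + 1)
    simpa only [Nat.ofNat_pos, mul_nonneg_iff_of_pos_left, Nat.cast_nonneg, Real.sqrt_div, Nat.ofNat_nonneg,     Real.sqrt_mul, Function.comp_apply, mul_zero] using h3
  have hlim := (hlim1.add hlim2).eventually (gt_mem_nhds (by simpa using hε :
    (0 : ℝ) + 0 < ε))
  obtain ⟨n0, hn0⟩ := Filter.eventually_atTop.mp hlim
  refine ⟨max n0 2, fun n hn heven => ?_⟩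
  have hn2 : 2 ≤ n := le_trans (le_max_right _ _) hn
  have hn0' := hn0 n (le_trans (le_max_left _ _) hn)
  have hNe : NeZero n := ⟨by omega⟩
  have hM : (matchings (HE n d)).card ≠ 0 :=
    Finset.card_ne_zero.mpr (matchings_HE_nonempty heven)
  set M : ℝ := ((matchings (HE n d)).card : ℝ) with hMdef
  have hM0 : 0 ≤ M := by (clear * - hM; positivity)
  set B : ℝ := ((n * d : ℝ) + 1) ^ (p ^ 2) * ρ ^ n * ((n : ℝ) + 1) ^ (p ^ 2) with hB
  have htot := total_bound (n := n) (d := d) hM hα hδd (B := B) (by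
    intro Pv Pt _ _ hPv hPt
    have := sum_spread_le (p := p) (R := ((n * d : ℝ) + 1) ^ (p ^ 2)) (ρ := ρ) (by (clear * - hn2 hd; positivity)) hρ0
      (n := n) (d := d) Pv Pt (fun v t hv ht => hρ n hn2 heven v t (hPv v hv) (hPt t ht))
    refine this.trans (le_of_eq ?_)
    rw [hB]; ring)
  rw [← hMdef] at htot
  have hSS := SS_le (n := n) (d := d) (p := p) hd (by omega) hδ0.le h24le hδC
  rw [← hMdef, ← hC] at hSS
  have hnR : (2 : ℝ) ≤ n := by exact_mod_cast hn2
  have hBle : B ≤ (2 * (d : ℝ)) ^ (p ^ 2) * 2 ^ (p ^ 2) * ((n : ℝ) ^ (p ^ 2 + p ^ 2) * ρ ^ n) := by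
    have h1 : ((n * d : ℝ) + 1) ^ (p ^ 2) ≤ (2 * (d : ℝ) * n) ^ (p ^ 2) := by
      refine pow_le_pow_left₀ (by positivity) ?_ _
      nlinarith only [hdR, hnR]
    have h2 : ((n : ℝ) + 1) ^ (p ^ 2) ≤ (2 * (n : ℝ)) ^ (p ^ 2) := by
      refine pow_le_pow_left₀ (by (clear * - hn2; positivity)) ?_ _
      linarith only [hnR]
    have h3 : 0 ≤ ρ ^ n := pow_nonneg hρ0 n
    calc B = ((n * d : ℝ) + 1) ^ (p ^ 2) * ((n : ℝ) + 1) ^ (p ^ 2) * ρ ^ n := by rw [hB]; ring
      _ ≤ (2 * (d : ℝ) * n) ^ (p ^ 2) * (2 * (n : ℝ)) ^ (p ^ 2) * ρ ^ n := by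
          refine mul_le_mul_of_nonneg_right ?_ h3
          exact mul_le_mul h1 h2 (by (clear * - hn2; positivity)) (by positivity)
      _ = _ := by
          rw [mul_pow, mul_pow 2 (n : ℝ), pow_add]; ring
  have hp0 : (0 : ℝ) ≤ (p : ℝ) + 1 := by (clear * - hp1; positivity)
  calc ∑ v ∈ univ.filter (fun v : Fin n → ZMod p => v ≠ 0), (Nv d α v : ℝ)
      ≤ M * (1 + B) + (p + 1) * SS n d p δ := htot
    _ ≤ M * (1 + B) + (p + 1) * (M * (4 * C * Real.sqrt (24 * d / n))) :=
        add_le_add le_rfl (mul_le_mul_of_nonneg_left hSS hp0)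
    _ = (1 + (B + ((p : ℝ) + 1) * (4 * C * Real.sqrt (24 * d / n)))) * M := by ring
    _ ≤ (1 + ε) * M := by
        refine mul_le_mul_of_nonneg_right ?_ hM0
        linarith only [hn0', hBle]

/-- Matchings whose adjacency operator has the eigenvalue `α` over `ZMod p`. -/
def badF {p : ℕ} (n d : ℕ) [Fact p.Prime] (α : ZMod p) : Finset (Equiv.Perm (HE n d)) :=
  (matchings (HE n d)).filter (fun f => ∃ v : Fin n → ZMod p, v ≠ 0 ∧ ∀ u, mulM f v u = α * v u)

lemma card_badF_mul_le {n d p : ℕ} [Fact p.Prime] (α : ZMod p) :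
    ((badF n d α).card : ℝ) * ((p : ℝ) - 1)
      ≤ ∑ v ∈ univ.filter (fun v : Fin n → ZMod p => v ≠ 0), (Nv d α v : ℝ) := by
  classical
  have h1 : ∑ v ∈ univ.filter (fun v : Fin n → ZMod p => v ≠ 0), (Nv d α v : ℝ)
      = ∑ f ∈ matchings (HE n d), (((univ.filter (fun v : Fin n → ZMod p =>
        v ≠ 0 ∧ ∀ u, mulM f v u = α * v u)).card : ℕ) : ℝ) := by
    have : ∑ v ∈ univ.filter (fun v : Fin n → ZMod p => v ≠ 0), Nv d α v
      = ∑ f ∈ matchings (HE n d), (univ.filter (fun v : Fin n → ZMod p =>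
        v ≠ 0 ∧ ∀ u, mulM f v u = α * v u)).card := by
      unfold Nv
      simp only [Finset.card_filter]
      rw [Finset.sum_comm]
      refine Finset.sum_congr rfl (fun f _ => ?_)
      rw [Finset.sum_filter]
      refine Finset.sum_congr rfl (fun v _ => ?_)
      by_cases hv : v = 0 <;> simp [hv]
    exact_mod_cast this
  rw [h1]
  have h2 : ∀ f ∈ badF n d α, (p : ℝ) - 1 ≤ (((univ.filter (fun v : Fin n → ZMod p =>
        v ≠ 0 ∧ ∀ u, mulM f v u = α * v u)).card : ℕ) : ℝ) := by
    intro f hf
    obtain ⟨v, hv0, hv⟩ := (Finset.mem_filter.mp hf).2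
    have h3 : (univ.filter (fun c : ZMod p => c ≠ 0)).card ≤ (univ.filter
        (fun v : Fin n → ZMod p => v ≠ 0 ∧ ∀ u, mulM f v u = α * v u)).card := by
      refine Finset.card_le_card_of_injOn (fun c => fun u => c * v u) ?_ ?_
      · intro c hc
        simp only [Finset.coe_filter, mem_univ, true_and, Set.mem_ofPred_eq] at hc ⊢
        refine ⟨?_, fun u => ?_⟩
        · obtain ⟨u, hu⟩ := Function.ne_iff.mp hv0
          intro h
          have := congrFun h u
          simp only [Pi.zero_apply, mul_eq_zero] at this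
          rcases this with h | h
          · exact hc h
          · exact hu h
        · have := hv u
          unfold mulM at this ⊢
          rw [← Finset.mul_sum, this]; ring
      · intro c _ c' _ h
        obtain ⟨u, hu⟩ := Function.ne_iff.mp hv0
        have := congrFun h u
        simp only at this
        exact mul_right_cancel₀ hu this
    have h4 : (univ.filter (fun c : ZMod p => c ≠ 0)).card = p - 1 := by
      rw [Finset.filter_ne' univ (0 : ZMod p), Finset.card_erase_of_mem (mem_univ _),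
        Finset.card_univ, ZMod.card]
    rw [h4] at h3
    have h5 : ((p - 1 : ℕ) : ℝ) = (p : ℝ) - 1 := by
      rw [Nat.cast_sub (Fact.out : p.Prime).one_lt.le]; simp
    rw [← h5]
    exact_mod_cast h3
  calc ((badF n d α).card : ℝ) * ((p : ℝ) - 1) = ∑ _f ∈ badF n d α, ((p : ℝ) - 1) := by
        rw [Finset.sum_const, nsmul_eq_mul]
    _ ≤ ∑ f ∈ badF n d α, (((univ.filter (fun v : Fin n → ZMod p =>
        v ≠ 0 ∧ ∀ u, mulM f v u = α * v u)).card : ℕ) : ℝ) := Finset.sum_le_sum h2
    _ ≤ _ := Finset.sum_le_sum_of_subset_of_nonneg (Finset.filter_subset _ _)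
        (fun _ _ _ => by (clear h1 h2; positivity))

/-- The fraction of matchings with eigenvalue `α` modulo `p` is at most about `1/(p-1)`. -/
theorem badF_le (d : ℕ) (hd : 3 ≤ d) (p : ℕ) [Fact p.Prime] (hp : p ≠ 2) (α : ZMod p)
    (hα : α ≠ (d : ZMod p)) :
    ∃ n0 : ℕ, ∀ n ≥ n0, Even (n * d) →
      ((badF n d α).card : ℝ) * ((p : ℝ) - 1) ≤ 2 * ((matchings (HE n d)).card : ℝ) := by
  obtain ⟨n0, hn0⟩ := kernel_expect d hd p hp α hα 1 one_pos
  refine ⟨n0, fun n hn he => (card_badF_mul_le α).trans ((hn0 n hn he).trans (le_of_eq ?_))⟩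
  norm_num

end KernelExpect

end Vale.Agent.P156
end
end

section

section

namespace Vale.Agent.P156.Sw

open Finset Equiv

variable {H V : Type*} [Fintype H] [DecidableEq H] [DecidableEq V]

/-- half-edges on a loop or on a multiple edge. -/
def bad (v : H → V) (f : Perm H) : Finset H :=
  univ.filter (fun h => v (f h) = v h ∨ ∃ h', h' ≠ h ∧ v h' = v h ∧ v (f h') = v (f h))

/-- the switching -/
def conj (a b : H) (f : Perm H) : Perm H := swap a b * f * swap a b

def good (v : H → V) (f : Perm H) (a b : H) : Prop :=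
  v b ≠ v a ∧ v b ≠ v (f a) ∧ v (f b) ≠ v a ∧ v (f b) ≠ v (f a) ∧ v b ≠ v (f b) ∧
  (∀ x, v x = v (f a) → v (f x) ≠ v b) ∧ (∀ x, v x = v a → v (f x) ≠ v (f b))

omit [Fintype H] in
theorem conj_conj (a b : H) (f : Perm H) : conj a b (conj a b f) = f := by
  unfold conj
  have h : (swap a b) * (swap a b) = (1 : Perm H) := swap_mul_self a b
  calc swap a b * (swap a b * f * swap a b) * swap a b
      = (swap a b * swap a b) * f * (swap a b * swap a b) := by group
    _ = f := by rw [h]; group

theorem mem_matchings {f : Perm H} : f ∈ matchings H ↔ (∀ h, f (f h) = h) ∧ ∀ h, f h ≠ h := by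
  simp only [matchings, IsMatching, ne_eq, mem_filter, mem_univ, true_and]

theorem conj_mem (a b : H) {f : Perm H} (hf : f ∈ matchings H) : conj a b f ∈ matchings H := by
  rw [mem_matchings] at hf ⊢
  obtain ⟨h1, h2⟩ := hf
  have hs : ∀ x, swap a b (swap a b x) = x := fun x => swap_apply_self a b x
  refine ⟨fun h => ?_, fun h => ?_⟩
  · simp only [conj, Perm.mul_apply, hs, h1]
  · simp only [conj, Perm.mul_apply]
    intro hh
    apply h2 (swap a b h)
    have := congrArg (swap a b) hh
    rwa [hs] at this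

omit [Fintype H] in
theorem conj_cases {f : Perm H} (h1 : ∀ h, f (f h) = h) (h2 : ∀ h, f h ≠ h) {a b : H}
    (hab : a ≠ b) (hb : b ≠ f a) (x : H) :
    (x = a ∧ conj a b f x = f b) ∨ (x = b ∧ conj a b f x = f a) ∨
    (x = f a ∧ conj a b f x = b) ∨ (x = f b ∧ conj a b f x = a) ∨
    (conj a b f x = f x ∧ x ≠ a ∧ x ≠ b ∧ x ≠ f a ∧ x ≠ f b) := by
  have e1 : ∀ y, y ≠ a → y ≠ b → swap a b y = y := fun y h h' => swap_apply_of_ne_of_ne h h'
  have e2 : swap a b a = b := swap_apply_left a b
  have e3 : swap a b b = a := swap_apply_right a b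
  simp only [conj, Perm.mul_apply]
  grind

omit [Fintype H] [DecidableEq V] in
theorem bad_conj_aux {v : H → V} {f : Perm H} (h1 : ∀ h, f (f h) = h) (h2 : ∀ h, f h ≠ h) {a b : H}
    (hg : good v f a b) (x : H)
    (hx : v (conj a b f x) = v x ∨
      ∃ h', h' ≠ x ∧ v h' = v x ∧ v (conj a b f h') = v (conj a b f x)) :
    x ≠ a ∧ (v (f x) = v x ∨ ∃ h', h' ≠ x ∧ v h' = v x ∧ v (f h') = v (f x)) := by
  obtain ⟨g1, g2, g3, g4, g5, g6, g7⟩ := hg
  have hab : a ≠ b := fun h => g1 (by rw [h])
  have hb : b ≠ f a := fun h => g2 (by rw [h])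
  have g6' : ∀ x, v x = v b → v (f x) ≠ v (f a) := by
    intro y hy hy'
    exact g6 (f y) hy' (by rw [h1, hy])
  have g7' : ∀ x, v x = v (f b) → v (f x) ≠ v a := by
    intro y hy hy'
    exact g7 (f y) hy' (by rw [h1, hy])
  rcases hx with hx | ⟨y, hyx, hvy, hfy⟩
  · rcases conj_cases h1 h2 hab hb x with h | h | h | h | h <;> grind
  · rcases conj_cases h1 h2 hab hb x with h | h | h | h | h <;>
    rcases conj_cases h1 h2 hab hb y with k | k | k | k | k <;> grind

section count
variable {v : H → V} {D : ℕ}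

theorem mem_bad {f : Perm H} {h : H} :
    h ∈ bad v f ↔ (v (f h) = v h ∨ ∃ h', h' ≠ h ∧ v h' = v h ∧ v (f h') = v (f h)) := by
  simp only [bad, ne_eq, mem_filter, mem_univ, true_and]

omit [DecidableEq H] in
theorem card_fib (hD : ∀ i, (univ.filter (fun h => v h = i)).card ≤ D) (f : Perm H) (i : V) :
    (univ.filter (fun b => v (f b) = i)).card ≤ D := by
  refine le_trans ?_ (hD i)
  refine Finset.card_le_card_of_injOn f ?_ (fun x _ y _ h => f.injective h)
  intro b hb
  simpa only [coe_filter, mem_univ, true_and, Set.mem_ofPred_eq] using hb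

theorem card_adj (hD : ∀ i, (univ.filter (fun h => v h = i)).card ≤ D) (f g : Perm H) (i : V) :
    (univ.filter (fun b => ∃ x, v x = i ∧ v (f x) = v (g b))).card ≤ D * D := by
  have hsub : (univ.filter (fun b => ∃ x, v x = i ∧ v (f x) = v (g b))) ⊆
      (univ.filter (fun h => v h = i)).biUnion
        (fun x => univ.filter (fun b => v (g b) = v (f x))) := by
    intro b hb
    simp only [mem_filter, mem_univ, true_and, mem_biUnion] at hb ⊢
    obtain ⟨x, hx, hx'⟩ := hb
    exact ⟨x, hx, hx'.symm⟩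
  refine le_trans (card_le_card hsub) ?_
  refine le_trans (card_biUnion_le_card_mul _ _ D (fun x _ => card_fib hD g _)) ?_
  exact Nat.mul_le_mul_right D (hD i)

theorem card_not_good (hD : ∀ i, (univ.filter (fun h => v h = i)).card ≤ D) {f : Perm H}
    (a : H) [DecidablePred (fun b => good v f a b)] :
    (univ.filter (fun b => ¬ good v f a b)).card ≤ 4 * D + 2 * (D * D) + (bad v f).card := by
  classical
  have hsub : (univ.filter (fun b => ¬ good v f a b)) ⊆
      ((univ.filter (fun b => v b = v a)) ∪ (univ.filter (fun b => v b = v (f a)))) ∪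
      ((univ.filter (fun b => v (f b) = v a)) ∪ (univ.filter (fun b => v (f b) = v (f a)))) ∪
      ((univ.filter (fun b => ∃ x, v x = v (f a) ∧ v (f x) = v ((1 : Perm H) b))) ∪
       (univ.filter (fun b => ∃ x, v x = v a ∧ v (f x) = v (f b)))) ∪ bad v f := by
    intro b hb
    simp only [mem_filter, mem_univ, true_and, good, not_and_or, not_forall, not_not] at hb
    simp only [mem_union, mem_filter, mem_univ, true_and, mem_bad, Perm.one_apply]
    rcases hb with h | h | h | h | h | h | h
    · tauto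
    · tauto
    · tauto
    · tauto
    · right; left; exact h.symm
    · obtain ⟨x, hx, hx'⟩ := h
      left; right; left; exact mem_filter.mpr ⟨mem_univ _, x, hx, hx'⟩
    · obtain ⟨x, hx, hx'⟩ := h
      left; right; right; exact ⟨x, hx, hx'⟩
  refine le_trans (card_le_card hsub) ?_
  have k1 := hD (v a)
  have k2 := hD (v (f a))
  have k3 := card_fib hD f (v a)
  have k4 := card_fib hD f (v (f a))
  have k5 := card_adj hD f 1 (v (f a))
  have k6 := card_adj hD f f (v a)
  have u1 := card_union_le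
      (((univ.filter (fun b => v b = v a)) ∪ (univ.filter (fun b => v b = v (f a)))) ∪
      ((univ.filter (fun b => v (f b) = v a)) ∪ (univ.filter (fun b => v (f b) = v (f a)))) ∪
      ((univ.filter (fun b => ∃ x, v x = v (f a) ∧ v (f x) = v ((1 : Perm H) b))) ∪
       (univ.filter (fun b => ∃ x, v x = v a ∧ v (f x) = v (f b))))) (bad v f)
  have u2 := card_union_le
      (((univ.filter (fun b => v b = v a)) ∪ (univ.filter (fun b => v b = v (f a)))) ∪
      ((univ.filter (fun b => v (f b) = v a)) ∪ (univ.filter (fun b => v (f b) = v (f a)))))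
      ((univ.filter (fun b => ∃ x, v x = v (f a) ∧ v (f x) = v ((1 : Perm H) b))) ∪
       (univ.filter (fun b => ∃ x, v x = v a ∧ v (f x) = v (f b))))
  have u3 := card_union_le
      ((univ.filter (fun b => v b = v a)) ∪ (univ.filter (fun b => v b = v (f a))))
      ((univ.filter (fun b => v (f b) = v a)) ∪ (univ.filter (fun b => v (f b) = v (f a))))
  have u4 := card_union_le (univ.filter (fun b => v b = v a)) (univ.filter (fun b => v b = v (f a)))
  have u5 := card_union_le (univ.filter (fun b => v (f b) = v a))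
    (univ.filter (fun b => v (f b) = v (f a)))
  have u6 := card_union_le
    (univ.filter (fun b => ∃ x, v x = v (f a) ∧ v (f x) = v ((1 : Perm H) b)))
    (univ.filter (fun b => ∃ x, v x = v a ∧ v (f x) = v (f b)))
  omega

def Rel (v : H → V) (f : Perm H) (a b : H) : Prop :=
  v (f b) = v a ∨ ∃ a', v a' = v a ∧ v (f a') = v (f b)

theorem card_Rel (hD : ∀ i, (univ.filter (fun h => v h = i)).card ≤ D) (f : Perm H)
    [DecidablePred (fun p : H × H => Rel v f p.1 p.2)] :
    (univ.filter (fun p : H × H => Rel v f p.1 p.2)).card ≤ Fintype.card H * (D + D * D) := by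
  classical
  have hsub : (univ.filter (fun p : H × H => Rel v f p.1 p.2)) ⊆
      (univ : Finset H).biUnion (fun a => (univ.filter (fun b => Rel v f a b)).image (fun b => (a, b))) := by
    intro p hp
    simp only [mem_filter, mem_univ, true_and, mem_biUnion, mem_image] at hp ⊢
    exact ⟨p.1, p.2, hp, rfl⟩
  refine le_trans (card_le_card hsub) ?_
  rw [← Finset.card_univ]
  refine card_biUnion_le_card_mul _ _ (D + D * D) (fun a _ => ?_)
  refine le_trans card_image_le ?_
  have hsub2 : (univ.filter (fun b => Rel v f a b)) ⊆ (univ.filter (fun b => v (f b) = v a)) ∪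
      (univ.filter (fun b => ∃ x, v x = v a ∧ v (f x) = v (f b))) := by
    intro b hb
    have hb' := (mem_filter.mp hb).2
    simp only [mem_filter, mem_univ, true_and, mem_union]
    exact hb'
  refine le_trans (card_le_card hsub2) (le_trans (card_union_le _ _) ?_)
  exact Nat.add_le_add (card_fib hD f _) (card_adj hD f f _)

theorem rel_of_bad {f : Perm H} (h1 : ∀ h, f (f h) = h) (h2 : ∀ h, f h ≠ h) {a b : H}
    (hg : good v f a b) (ha : a ∈ bad v f) : Rel v (conj a b f) a b := by
  have hg' := hg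
  obtain ⟨g1, g2, g3, g4, g5, g6, g7⟩ := hg
  have hab : a ≠ b := fun h => g1 (by rw [h])
  have hb : b ≠ f a := fun h => g2 (by rw [h])
  rw [mem_bad] at ha
  unfold Rel
  have hbb : conj a b f b = f a := by
    rcases conj_cases h1 h2 hab hb b with h | h | h | h | h <;> grind
  rw [hbb]
  rcases ha with ha | ⟨y, hya, hvy, hfy⟩
  · left; exact ha
  · rcases conj_cases h1 h2 hab hb y with h | h | h | h | h
    · exact absurd h.1 hya
    · exact absurd (by rw [← h.1]; exact hvy) g1
    · left; rw [← h.1]; exact hvy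
    · exact absurd (by rw [← h.1]; exact hvy) g3
    · right; exact ⟨y, hvy, by rw [h.1]; exact hfy⟩



theorem step (hD : ∀ i, (univ.filter (fun h => v h = i)).card ≤ D) (k : ℕ) :
    ((matchings H).filter (fun f => (bad v f).card = k + 1)).card * ((k + 1) *
      (Fintype.card H - (4 * D + 2 * (D * D) + (k + 1)))) ≤
    ((matchings H).filter (fun f => (bad v f).card ≤ k)).card *
      (Fintype.card H * (D + D * D)) := by
  classical
  set N := (matchings H).filter (fun f => (bad v f).card = k + 1) with hN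
  set S := (matchings H).filter (fun f => (bad v f).card ≤ k) with hS
  let X : Finset (Σ _ : Perm H, Σ _ : H, H) :=
    N.sigma (fun f => (bad v f).sigma (fun a => univ.filter (fun b => good v f a b)))
  let Y : Finset (Σ _ : Perm H, H × H) :=
    S.sigma (fun f => univ.filter (fun p : H × H => Rel v f p.1 p.2))
  have hX : N.card * ((k + 1) * (Fintype.card H - (4 * D + 2 * (D * D) + (k + 1)))) ≤ X.card := by
    rw [card_sigma]
    refine le_trans ?_ (Finset.card_nsmul_le_sum N _
      ((k + 1) * (Fintype.card H - (4 * D + 2 * (D * D) + (k + 1)))) ?_)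
    · simp only [smul_eq_mul, Std.le_refl]
    intro f hf
    rw [card_sigma]
    have hb : (bad v f).card = k + 1 := (mem_filter.mp hf).2
    refine le_trans ?_ (Finset.card_nsmul_le_sum (bad v f) _
      (Fintype.card H - (4 * D + 2 * (D * D) + (k + 1))) ?_)
    · simp only [hb, smul_eq_mul, Std.le_refl]
    intro a ha
    have h1 := card_not_good hD (f := f) a
    have h2 := Finset.card_filter_add_card_filter_not (s := univ) (fun b => good v f a b)
    rw [card_univ] at h2
    omega
  have hY : Y.card ≤ S.card * (Fintype.card H * (D + D * D)) := by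
    rw [card_sigma]
    refine le_trans (Finset.sum_le_card_nsmul S _ (Fintype.card H * (D + D * D)) ?_) ?_
    · intro f hf
      exact card_Rel hD f
    · simp only [smul_eq_mul, Std.le_refl]
  have hXY : X.card ≤ Y.card := by
    refine Finset.card_le_card_of_injOn (fun t => ⟨conj t.2.1 t.2.2 t.1, (t.2.1, t.2.2)⟩) ?_ ?_
    · rintro ⟨f, a, b⟩ ht
      simp only [X, coe_sigma, Set.mem_sigma_iff, mem_coe, mem_filter, mem_univ, true_and] at ht
      obtain ⟨hf, ha, hg⟩ := ht
      obtain ⟨hfM, hfk⟩ := mem_filter.mp hf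
      have hM := mem_matchings.mp hfM
      simp only [Y, coe_sigma, Set.mem_sigma_iff, mem_coe, mem_filter, mem_univ, true_and]
      refine ⟨mem_filter.mpr ⟨conj_mem a b hfM, ?_⟩, rel_of_bad hM.1 hM.2 hg ha⟩
      have hsub : bad v (conj a b f) ⊆ (bad v f).erase a := by
        intro x hx
        rw [mem_bad] at hx
        have := bad_conj_aux hM.1 hM.2 hg x hx
        rw [mem_erase, mem_bad]
        exact this
      have := card_le_card hsub
      rw [card_erase_of_mem ha, hfk] at this
      simpa only [ge_iff_le, add_tsub_cancel_right] using this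
    · rintro ⟨f, a, b⟩ ht ⟨f', a', b'⟩ ht' h
      simp only [Sigma.mk.injEq, heq_eq_eq, Prod.mk.injEq] at h
      obtain ⟨h1, h2, h3⟩ := h
      subst h2 h3
      have : f = f' := by
        have := congrArg (conj a b) h1
        rwa [conj_conj, conj_conj] at this
      subst this
      rfl
  exact le_trans hX (le_trans hXY hY)

theorem step' (hD : ∀ i, (univ.filter (fun h => v h = i)).card ≤ D) {K k : ℕ}
    (hk : k + 1 ≤ K) (hm : 2 * (4 * D + 2 * (D * D) + K) ≤ Fintype.card H) :
    ((matchings H).filter (fun f => (bad v f).card ≤ k + 1)).card ≤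
      (1 + (2 * D + 2 * (D * D))) *
        ((matchings H).filter (fun f => (bad v f).card ≤ k)).card := by
  have h := step hD k
  have hsplit : ((matchings H).filter (fun f => (bad v f).card ≤ k + 1)).card ≤
      ((matchings H).filter (fun f => (bad v f).card ≤ k)).card +
      ((matchings H).filter (fun f => (bad v f).card = k + 1)).card := by
    classical
    refine le_trans (card_le_card ?_) (card_union_le _ _)
    intro f hf
    simp only [mem_filter, mem_union] at hf ⊢
    have : (bad v f).card ≤ k ∨ (bad v f).card = k + 1 := by omega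
    (clear * - hf this; tauto)
  set N := ((matchings H).filter (fun f => (bad v f).card = k + 1)).card with hN
  set S := ((matchings H).filter (fun f => (bad v f).card ≤ k)).card with hS
  set m := Fintype.card H with hmm
  have hm0 : 0 < m := by omega
  have h1 : m ≤ 2 * (m - (4 * D + 2 * (D * D) + (k + 1))) := by omega
  have h2 : N * m ≤ (2 * D + 2 * (D * D)) * S * m := by
    calc N * m ≤ N * (2 * (m - (4 * D + 2 * (D * D) + (k + 1)))) := Nat.mul_le_mul_left _ h1
      _ ≤ 2 * (N * ((k + 1) * (m - (4 * D + 2 * (D * D) + (k + 1))))) := by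
          have : (m - (4 * D + 2 * (D * D) + (k + 1))) ≤
            (k + 1) * (m - (4 * D + 2 * (D * D) + (k + 1))) :=
              Nat.le_mul_of_pos_left _ (Nat.succ_pos k)
          nlinarith only [this]
      _ ≤ 2 * (S * (m * (D + D * D))) := Nat.mul_le_mul_left 2 h
      _ = (2 * D + 2 * (D * D)) * S * m := by ring
  have h3 : N ≤ (2 * D + 2 * (D * D)) * S := Nat.le_of_mul_le_mul_right h2 hm0
  nlinarith only [hsplit, h3]

theorem steps (hD : ∀ i, (univ.filter (fun h => v h = i)).card ≤ D) {K : ℕ}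
    (hm : 2 * (4 * D + 2 * (D * D) + K) ≤ Fintype.card H) : ∀ k ≤ K,
    ((matchings H).filter (fun f => (bad v f).card ≤ k)).card ≤
      (1 + (2 * D + 2 * (D * D))) ^ k *
        ((matchings H).filter (fun f => (bad v f).card ≤ 0)).card := by
  intro k
  induction k with
  | zero => intro _; simp only [nonpos_iff_eq_zero, card_eq_zero, pow_zero, one_mul, Std.le_refl]
  | succ k ih =>
    intro hk
    refine le_trans (step' hD hk hm) ?_
    rw [pow_succ, mul_comm ((1 + (2 * D + 2 * (D * D))) ^ k), mul_assoc]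
    exact Nat.mul_le_mul_left _ (ih (by omega))

theorem card_le_conj {P Q : Perm H → Prop} [DecidablePred P] [DecidablePred Q] (x y : H)
    (h : ∀ f ∈ matchings H, P f → Q (conj x y f)) :
    ((matchings H).filter P).card ≤ ((matchings H).filter Q).card := by
  refine card_le_card_of_injOn (conj x y) ?_ ?_
  · intro f hf
    obtain ⟨h1, h2⟩ := mem_filter.mp (mem_coe.mp hf)
    exact mem_coe.mpr (mem_filter.mpr ⟨conj_mem x y h1, h f h1 h2⟩)
  · intro f _ g _ hfg
    have := congrArg (conj x y) hfg
    rwa [conj_conj, conj_conj] at this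

omit [Fintype H] in
theorem conj_apply_of_ne {x y h : H} (f : Perm H) (h1 : h ≠ x) (h2 : h ≠ y) :
    conj x y f h = swap x y (f h) := by
  simp only [conj, Perm.mul_apply, swap_apply_of_ne_of_ne h1 h2]

theorem one_pair {h x : H} (hx : x ≠ h) :
    ((matchings H).filter (fun f => f h = x)).card * (Fintype.card H - 1) ≤
      (matchings H).card := by
  have hmap : ∀ f ∈ matchings H, (fun f : Perm H => f h) f ∈ univ.erase h := by
    intro f hf
    exact mem_erase.mpr ⟨(mem_matchings.mp hf).2 h, mem_univ _⟩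
  rw [card_eq_sum_card_fiberwise hmap]
  refine le_trans ?_ (Finset.card_nsmul_le_sum _ _
    ((matchings H).filter (fun f => f h = x)).card ?_)
  · rw [card_erase_of_mem (mem_univ _), card_univ, smul_eq_mul, mul_comm]
  · intro y hy
    have hy' : y ≠ h := (mem_erase.mp hy).1
    refine card_le_conj x y (fun f _ hf => ?_)
    rw [conj_apply_of_ne f hx.symm hy'.symm, hf, swap_apply_left]

theorem two_pair {h x h' x' : H} (e1 : x ≠ h) (e2 : h' ≠ h) (e3 : h' ≠ x) (e4 : x' ≠ h)
    (e5 : x' ≠ x) (e6 : x' ≠ h') :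
    ((matchings H).filter (fun f => f h = x ∧ f h' = x')).card * (Fintype.card H - 3) ≤
      ((matchings H).filter (fun f => f h = x)).card := by
  have hmap : ∀ f ∈ (matchings H).filter (fun f => f h = x), (fun f : Perm H => f h') f ∈
      ((univ.erase h).erase x).erase h' := by
    intro f hf
    obtain ⟨hfM, hf1⟩ := mem_filter.mp hf
    obtain ⟨m1, m2⟩ := mem_matchings.mp hfM
    refine mem_erase.mpr ⟨m2 h', mem_erase.mpr ⟨?_, mem_erase.mpr ⟨?_, mem_univ _⟩⟩⟩
    · intro hh
      apply e2
      have hh2 : f h' = x := hh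
      have : f h' = f h := by rw [hh2, hf1]
      exact f.injective this
    · intro hh
      apply e3
      have hh2 : f h' = h := hh
      rw [← hf1, ← hh2]
      exact (m1 h').symm
  rw [card_eq_sum_card_fiberwise hmap]
  refine le_trans ?_ (Finset.card_nsmul_le_sum _ _
    ((matchings H).filter (fun f => f h = x ∧ f h' = x')).card ?_)
  · rw [card_erase_of_mem, card_erase_of_mem, card_erase_of_mem (mem_univ _), card_univ,
      smul_eq_mul, mul_comm]
    · rfl
    · exact mem_erase.mpr ⟨e1, mem_univ _⟩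
    · exact mem_erase.mpr ⟨e3, mem_erase.mpr ⟨e2, mem_univ _⟩⟩
  · intro y hy
    simp only [mem_erase, mem_univ, and_true] at hy
    obtain ⟨y1, y2, y3⟩ := hy
    rw [filter_filter]
    refine card_le_conj x' y (fun f _ hf => ?_)
    refine ⟨?_, ?_⟩
    · rw [conj_apply_of_ne f e4.symm y3.symm, hf.1, swap_apply_of_ne_of_ne e5.symm y2.symm]
    · rw [conj_apply_of_ne f e6.symm y1.symm, hf.2, swap_apply_left]

theorem first_moment_aux (hD : ∀ i, (univ.filter (fun h => v h = i)).card ≤ D)
    (hm : 6 ≤ Fintype.card H) (h : H) :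
    Fintype.card H * ((matchings H).filter (fun f => h ∈ bad v f)).card ≤
      (2 * D + 2 * (D * D)) * (matchings H).card := by
  classical
  set m := Fintype.card H with hmm
  set L := (univ.filter (fun x => v x = v h)).erase h with hL
  have hLc : L.card ≤ D := le_trans (card_le_card (erase_subset _ _)) (hD _)
  let R : H → Finset H := fun x => (univ.filter (fun x' => v x' = v x)).erase x
  have hRc : ∀ x, (R x).card ≤ D := fun x => le_trans (card_le_card (erase_subset _ _)) (hD _)
  have hsub : (matchings H).filter (fun f => h ∈ bad v f) ⊆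
      (L.biUnion (fun x => (matchings H).filter (fun f => f h = x))) ∪
      (L.biUnion (fun h' => (univ.filter (fun x => v x ≠ v h)).biUnion (fun x =>
        (R x).biUnion (fun x' => (matchings H).filter (fun f => f h = x ∧ f h' = x'))))) := by
    intro f hf
    obtain ⟨hfM, hb⟩ := mem_filter.mp hf
    obtain ⟨m1, m2⟩ := mem_matchings.mp hfM
    rw [mem_bad] at hb
    rw [mem_union]
    by_cases hc : v (f h) = v h
    · left
      refine mem_biUnion.mpr ⟨f h, ?_, mem_filter.mpr ⟨hfM, rfl⟩⟩
      exact mem_erase.mpr ⟨m2 h, mem_filter.mpr ⟨mem_univ _, hc⟩⟩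
    · right
      rcases hb with hb | ⟨h', hb1, hb2, hb3⟩
      · exact absurd hb hc
      · refine mem_biUnion.mpr ⟨h', ?_, mem_biUnion.mpr ⟨f h, ?_, mem_biUnion.mpr
          ⟨f h', ?_, mem_filter.mpr ⟨hfM, rfl, rfl⟩⟩⟩⟩
        · exact mem_erase.mpr ⟨hb1, mem_filter.mpr ⟨mem_univ _, hb2⟩⟩
        · exact mem_filter.mpr ⟨mem_univ _, hc⟩
        · exact mem_erase.mpr ⟨fun hh => hb1 (f.injective hh),
            mem_filter.mpr ⟨mem_univ _, hb3⟩⟩
  have hA : m * (L.biUnion (fun x => (matchings H).filter (fun f => f h = x))).card ≤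
      2 * D * (matchings H).card := by
    have h1 : (L.biUnion (fun x => (matchings H).filter (fun f => f h = x))).card ≤
        ∑ x ∈ L, ((matchings H).filter (fun f => f h = x)).card := card_biUnion_le
    calc m * (L.biUnion (fun x => (matchings H).filter (fun f => f h = x))).card
        ≤ m * ∑ x ∈ L, ((matchings H).filter (fun f => f h = x)).card :=
          Nat.mul_le_mul_left _ h1
      _ = ∑ x ∈ L, m * ((matchings H).filter (fun f => f h = x)).card := mul_sum _ _ _
      _ ≤ ∑ x ∈ L, 2 * (matchings H).card := by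
          refine sum_le_sum (fun x hx => ?_)
          have hx' : x ≠ h := (mem_erase.mp hx).1
          have h2 := one_pair hx'
          have h3 : m ≤ 2 * (m - 1) := by omega
          calc m * ((matchings H).filter (fun f => f h = x)).card
              ≤ (2 * (m - 1)) * ((matchings H).filter (fun f => f h = x)).card :=
                Nat.mul_le_mul_right _ h3
            _ = 2 * (((matchings H).filter (fun f => f h = x)).card * (m - 1)) := by ring
            _ ≤ 2 * (matchings H).card := Nat.mul_le_mul_left _ h2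
      _ = L.card * (2 * (matchings H).card) := by rw [sum_const, smul_eq_mul]
      _ ≤ D * (2 * (matchings H).card) := Nat.mul_le_mul_right _ hLc
      _ = 2 * D * (matchings H).card := by ring
  have hB : m * (L.biUnion (fun h' => (univ.filter (fun x => v x ≠ v h)).biUnion (fun x =>
        (R x).biUnion (fun x' => (matchings H).filter (fun f => f h = x ∧ f h' = x'))))).card ≤
      2 * (D * D) * (matchings H).card := by
    have hB1 : ∀ h' ∈ L, m * ((univ.filter (fun x => v x ≠ v h)).biUnion (fun x =>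
        (R x).biUnion (fun x' => (matchings H).filter (fun f => f h = x ∧ f h' = x')))).card ≤
        2 * D * (matchings H).card := by
      intro h' hh'
      have hh1 : h' ≠ h := (mem_erase.mp hh').1
      have hh2 : v h' = v h := (mem_filter.mp (mem_erase.mp hh').2).2
      calc m * ((univ.filter (fun x => v x ≠ v h)).biUnion (fun x =>
        (R x).biUnion (fun x' => (matchings H).filter (fun f => f h = x ∧ f h' = x')))).card
          ≤ m * ∑ x ∈ (univ.filter (fun x => v x ≠ v h)), ((R x).biUnion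
              (fun x' => (matchings H).filter (fun f => f h = x ∧ f h' = x'))).card :=
            Nat.mul_le_mul_left _ card_biUnion_le
        _ = ∑ x ∈ (univ.filter (fun x => v x ≠ v h)), m * ((R x).biUnion
              (fun x' => (matchings H).filter (fun f => f h = x ∧ f h' = x'))).card :=
            mul_sum _ _ _
        _ ≤ ∑ x ∈ (univ.filter (fun x => v x ≠ v h)),
              2 * D * ((matchings H).filter (fun f => f h = x)).card := by
            refine sum_le_sum (fun x hx => ?_)
            have hx1 : v x ≠ v h := (mem_filter.mp hx).2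
            calc m * ((R x).biUnion
                (fun x' => (matchings H).filter (fun f => f h = x ∧ f h' = x'))).card
                ≤ m * ∑ x' ∈ R x, ((matchings H).filter (fun f => f h = x ∧ f h' = x')).card :=
                  Nat.mul_le_mul_left _ card_biUnion_le
              _ = ∑ x' ∈ R x, m * ((matchings H).filter (fun f => f h = x ∧ f h' = x')).card :=
                  mul_sum _ _ _
              _ ≤ ∑ x' ∈ R x, 2 * ((matchings H).filter (fun f => f h = x)).card := by
                  refine sum_le_sum (fun x' hx' => ?_)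
                  have hx2 : x' ≠ x := (mem_erase.mp hx').1
                  have hx3 : v x' = v x := (mem_filter.mp (mem_erase.mp hx').2).2
                  have h2 := two_pair (h := h) (x := x) (h' := h') (x' := x')
                    (fun e => hx1 (by rw [e])) hh1 (fun e => hx1 (by rw [← e]; exact hh2))
                    (fun e => hx1 (by rw [← hx3, e])) hx2
                    (fun e => hx1 (by rw [← hx3, e]; exact hh2))
                  have h3 : m ≤ 2 * (m - 3) := by omega
                  calc m * ((matchings H).filter (fun f => f h = x ∧ f h' = x')).card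
                      ≤ (2 * (m - 3)) *
                        ((matchings H).filter (fun f => f h = x ∧ f h' = x')).card :=
                        Nat.mul_le_mul_right _ h3
                    _ = 2 * (((matchings H).filter (fun f => f h = x ∧ f h' = x')).card *
                        (m - 3)) := by ring
                    _ ≤ 2 * ((matchings H).filter (fun f => f h = x)).card :=
                        Nat.mul_le_mul_left _ h2
              _ = (R x).card * (2 * ((matchings H).filter (fun f => f h = x)).card) := by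
                  rw [sum_const, smul_eq_mul]
              _ ≤ D * (2 * ((matchings H).filter (fun f => f h = x)).card) :=
                  Nat.mul_le_mul_right _ (hRc x)
              _ = 2 * D * ((matchings H).filter (fun f => f h = x)).card := by ring
        _ ≤ ∑ x : H, 2 * D * ((matchings H).filter (fun f => f h = x)).card :=
            sum_le_sum_of_subset (filter_subset _ _)
        _ = 2 * D * ∑ x : H, ((matchings H).filter (fun f => f h = x)).card :=
            (mul_sum _ _ _).symm
        _ = 2 * D * (matchings H).card := by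
            rw [← card_eq_sum_card_fiberwise (f := fun f : Perm H => f h)
              (fun _ _ => mem_univ _)]
    calc m * (L.biUnion (fun h' => (univ.filter (fun x => v x ≠ v h)).biUnion (fun x =>
        (R x).biUnion (fun x' => (matchings H).filter (fun f => f h = x ∧ f h' = x'))))).card
        ≤ m * ∑ h' ∈ L, ((univ.filter (fun x => v x ≠ v h)).biUnion (fun x =>
        (R x).biUnion (fun x' => (matchings H).filter (fun f => f h = x ∧ f h' = x')))).card :=
          Nat.mul_le_mul_left _ card_biUnion_le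
      _ = ∑ h' ∈ L, m * ((univ.filter (fun x => v x ≠ v h)).biUnion (fun x =>
        (R x).biUnion (fun x' => (matchings H).filter (fun f => f h = x ∧ f h' = x')))).card :=
          mul_sum _ _ _
      _ ≤ ∑ h' ∈ L, 2 * D * (matchings H).card := sum_le_sum hB1
      _ = L.card * (2 * D * (matchings H).card) := by rw [sum_const, smul_eq_mul]
      _ ≤ D * (2 * D * (matchings H).card) := Nat.mul_le_mul_right _ hLc
      _ = 2 * (D * D) * (matchings H).card := by ring
  have hC := card_le_card hsub
  have hE := card_union_le (L.biUnion (fun x => (matchings H).filter (fun f => f h = x)))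
      (L.biUnion (fun h' => (univ.filter (fun x => v x ≠ v h)).biUnion (fun x =>
        (R x).biUnion (fun x' => (matchings H).filter (fun f => f h = x ∧ f h' = x')))))
  calc m * ((matchings H).filter (fun f => h ∈ bad v f)).card ≤ _ :=
        Nat.mul_le_mul_left m (le_trans hC hE)
    _ ≤ 2 * D * (matchings H).card + 2 * (D * D) * (matchings H).card := by
        rw [mul_add]; exact Nat.add_le_add hA hB
    _ = _ := by ring

theorem first_moment (hD : ∀ i, (univ.filter (fun h => v h = i)).card ≤ D)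
    (hm : 6 ≤ Fintype.card H) :
    ∑ f ∈ matchings H, (bad v f).card ≤ (2 * D + 2 * (D * D)) * (matchings H).card := by
  classical
  have h1 : ∑ f ∈ matchings H, (bad v f).card =
      ∑ h : H, ((matchings H).filter (fun f => h ∈ bad v f)).card := by
    simp only [card_eq_sum_ones, sum_filter]
    rw [sum_comm]
    refine sum_congr rfl (fun f _ => ?_)
    rw [← sum_filter]
    congr 1
    ext h
    simp only [subset_univ, filter_mem_eq_of_subset]
  have h2 : Fintype.card H * ∑ f ∈ matchings H, (bad v f).card ≤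
      Fintype.card H * ((2 * D + 2 * (D * D)) * (matchings H).card) := by
    rw [h1, mul_sum]
    refine le_trans (sum_le_sum (fun h _ => first_moment_aux hD hm h)) ?_
    rw [sum_const, smul_eq_mul, card_univ]
  exact Nat.le_of_mul_le_mul_left h2 (by omega)

/-- Abstract lower bound for the number of simple configurations. -/
theorem simple_abstract (hD : ∀ i, (univ.filter (fun h => v h = i)).card ≤ D)
    (hm : 6 ≤ Fintype.card H)
    (hm' : 2 * (4 * D + 2 * (D * D) + 2 * (2 * D + 2 * (D * D))) ≤ Fintype.card H) :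
    (matchings H).card ≤ 2 * ((1 + (2 * D + 2 * (D * D))) ^ (2 * (2 * D + 2 * (D * D))) *
      ((matchings H).filter (fun f => bad v f = ∅)).card) := by
  classical
  set K0 := 2 * D + 2 * (D * D) with hK0
  have h1 := steps (v := v) hD hm' (2 * K0) le_rfl
  have h2 := first_moment (v := v) hD hm
  have h3 : (2 * K0 + 1) * ((matchings H).filter (fun f => ¬ (bad v f).card ≤ 2 * K0)).card ≤
      ∑ f ∈ matchings H, (bad v f).card := by
    calc (2 * K0 + 1) * ((matchings H).filter (fun f => ¬ (bad v f).card ≤ 2 * K0)).card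
        = ∑ f ∈ (matchings H).filter (fun f => ¬ (bad v f).card ≤ 2 * K0), (2 * K0 + 1) := by
          rw [sum_const, smul_eq_mul, mul_comm]
      _ ≤ ∑ f ∈ (matchings H).filter (fun f => ¬ (bad v f).card ≤ 2 * K0), (bad v f).card := by
          refine sum_le_sum (fun f hf => ?_)
          have := (mem_filter.mp hf).2
          omega
      _ ≤ ∑ f ∈ matchings H, (bad v f).card := sum_le_sum_of_subset (filter_subset _ _)
  have h4 := Finset.card_filter_add_card_filter_not (s := matchings H)
    (fun f => (bad v f).card ≤ 2 * K0)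
  have h5 : ((matchings H).filter (fun f => (bad v f).card ≤ 0)) =
      ((matchings H).filter (fun f => bad v f = ∅)) := by
    refine filter_congr (fun f _ => ?_)
    rw [Nat.le_zero, card_eq_zero]
  rw [h5] at h1
  set A := ((matchings H).filter (fun f => (bad v f).card ≤ 2 * K0)).card
  set B := ((matchings H).filter (fun f => ¬ (bad v f).card ≤ 2 * K0)).card
  set M := (matchings H).card
  have h6 : M ≤ 2 * A := by
    by_contra hcon
    push Not at hcon
    have h7 : M + 1 ≤ 2 * B := by (clear * - h4 hcon; omega)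
    have h8 : (2 * K0 + 1) * (M + 1) ≤ (2 * K0 + 1) * (2 * B) := Nat.mul_le_mul_left _ h7
    nlinarith only [h3, h2, h4, hcon, hK0]
  exact le_trans h6 (Nat.mul_le_mul_left 2 h1)

end count

end Vale.Agent.P156.Sw

namespace Vale.Agent.P156

open Finset Sw

theorem bad_eq_empty_iff {n d : ℕ} (f : Equiv.Perm (HE n d)) :
    bad (Prod.fst : HE n d → Fin n) f = ∅ ↔ IsSimple f := by
  constructor
  · intro h
    have hx : ∀ x, ¬ ((f x).1 = x.1 ∨ ∃ h', h' ≠ x ∧ h'.1 = x.1 ∧ (f h').1 = (f x).1) := by
      intro x hx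
      have := mem_bad.mpr hx
      rw [h] at this
      exact absurd this (notMem_empty _)
    refine ⟨fun x hx' => hx x (Or.inl hx'), fun u k l hkl => ?_⟩
    by_contra hne
    refine hx (u, l) (Or.inr ⟨(u, k), ?_, rfl, hkl⟩)
    intro he
    exact hne (Prod.mk.inj he).2
  · rintro ⟨h1, h2⟩
    rw [eq_empty_iff_forall_notMem]
    intro x hx
    rcases mem_bad.mp hx with hx | ⟨y, hy1, hy2, hy3⟩
    · exact h1 x hx
    · apply hy1
      obtain ⟨u, k⟩ := x
      obtain ⟨u', l⟩ := y
      simp only at hy2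
      subst hy2
      rw [h2 u' l k hy3]

/-- A uniformly random matching of the configuration model is simple with probability bounded
below by a constant depending only on `d`. -/
theorem simple_lower (d : ℕ) : ∃ c : ℝ, 0 < c ∧ ∃ n0 : ℕ, ∀ n ≥ n0, Even (n * d) →
    c * ((matchings (HE n d)).card : ℝ) ≤
      (((matchings (HE n d)).filter IsSimple).card : ℝ) := by
  rcases Nat.eq_zero_or_pos d with hd | hd
  · subst hd
    refine ⟨1, one_pos, 0, fun n _ _ => ?_⟩
    rw [one_mul]
    have : (matchings (HE n 0)).filter IsSimple = matchings (HE n 0) := by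
      refine filter_true_of_mem (fun f _ => ⟨fun h => Fin.elim0 h.2, fun u k => Fin.elim0 k⟩)
    rw [this]
  · set K0 := 2 * d + 2 * (d * d) with hK0
    set C : ℕ := 2 * (1 + K0) ^ (2 * K0) with hC
    have hCpos : 0 < C := by positivity
    refine ⟨1 / (C : ℝ), by positivity, 6 + 2 * (4 * d + 2 * (d * d) + 2 * K0),
      fun n hn _ => ?_⟩
    have hcard : Fintype.card (HE n d) = n * d := by simp only [HE, Fintype.card_prod, Fintype.card_fin]
    have hnd : n ≤ n * d := Nat.le_mul_of_pos_right n hd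
    have hfib : ∀ i, (univ.filter (fun h : HE n d => h.1 = i)).card ≤ d := by
      intro i
      have : (univ.filter (fun h : HE n d => h.1 = i)) ⊆ univ.image (fun k : Fin d => (i, k)) := by
        intro h hh
        have := (mem_filter.mp hh).2
        refine mem_image.mpr ⟨h.2, mem_univ _, ?_⟩
        rw [← this]
      refine le_trans (card_le_card this) (le_trans card_image_le ?_)
      simp only [card_univ, Fintype.card_fin, Std.le_refl]
    have h := simple_abstract (H := HE n d) (v := Prod.fst) (D := d) hfib (by omega) (by omega)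
    have h' : (matchings (HE n d)).card ≤ C * ((matchings (HE n d)).filter IsSimple).card := by
      have he : ((matchings (HE n d)).filter (fun f => bad (Prod.fst : HE n d → Fin n) f = ∅)) =
          ((matchings (HE n d)).filter IsSimple) := filter_congr (fun f _ => bad_eq_empty_iff f)
      rw [he, ← mul_assoc] at h
      exact h
    have h'' : ((matchings (HE n d)).card : ℝ) ≤
        (C : ℝ) * (((matchings (HE n d)).filter IsSimple).card : ℝ) := by exact_mod_cast h'
    rw [div_mul_eq_mul_div, one_mul, div_le_iff₀ (by exact_mod_cast hCpos), mul_comm]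
    exact h''

end Vale.Agent.P156
end
end

section

section

namespace Vale.Agent.P156

open Finset

variable {n d : ℕ}

theorem toGraph_adj {f : Equiv.Perm (HE n d)} (hf : IsMatching f) (hs : IsSimple f)
    {u v : Fin n} : (toGraph f).Adj u v ↔ ∃ k : Fin d, (f (u, k)).1 = v := by
  have hsymm : ∀ u v : Fin n, (∃ k : Fin d, (f (u, k)).1 = v) →
      ∃ k : Fin d, (f (v, k)).1 = u := by
    rintro u v ⟨k, hk⟩
    refine ⟨(f (u, k)).2, ?_⟩
    have h1 : ((v, (f (u, k)).2) : HE n d) = f (u, k) := by rw [← hk]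
    rw [h1, hf.1]
  unfold toGraph
  rw [SimpleGraph.fromRel_adj]
  constructor
  · rintro ⟨_, h | h⟩
    · exact h
    · exact hsymm v u h
  · intro h
    refine ⟨?_, Or.inl h⟩
    rintro rfl
    obtain ⟨k, hk⟩ := h
    exact hs.1 (u, k) hk

theorem neighborFinset_toGraph {f : Equiv.Perm (HE n d)} (hf : IsMatching f) (hs : IsSimple f)
    (u : Fin n) [Fintype ((toGraph f).neighborSet u)] :
    (toGraph f).neighborFinset u = univ.image (fun k : Fin d => (f (u, k)).1) := by
  ext v
  rw [SimpleGraph.mem_neighborFinset, toGraph_adj hf hs]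
  simp only [mem_image, mem_univ, true_and]

theorem injective_of_simple {f : Equiv.Perm (HE n d)} (hs : IsSimple f) (u : Fin n) :
    Function.Injective (fun k : Fin d => (f (u, k)).1) := fun k l h => hs.2 u k l h

theorem toGraph_regular {f : Equiv.Perm (HE n d)} (hf : IsMatching f) (hs : IsSimple f)
    [(toGraph f).LocallyFinite] : (toGraph f).IsRegularOfDegree d := by
  intro u
  rw [← SimpleGraph.card_neighborFinset_eq_degree, neighborFinset_toGraph hf hs,
    card_image_of_injective _ (injective_of_simple hs u), card_univ, Fintype.card_fin]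

theorem adj_sum {f : Equiv.Perm (HE n d)} (hf : IsMatching f) (hs : IsSimple f)
    {R : Type*} [CommRing R] [DecidableRel (toGraph f).Adj] (x : Fin n → R) (u : Fin n) :
    ((toGraph f).adjMatrix R).mulVec x u = ∑ k : Fin d, x (f (u, k)).1 := by
  rw [SimpleGraph.adjMatrix_mulVec_apply, neighborFinset_toGraph hf hs,
    sum_image (fun k _ l _ h => injective_of_simple hs u h)]

/-- The involution attached to a family of bijections from `Fin d` to the neighbourhoods. -/
def ofEquivs (G : SimpleGraph (Fin n)) (b : ∀ u, Fin d ≃ G.neighborSet u) (h : HE n d) :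
    HE n d :=
  ((b h.1 h.2).1, (b (b h.1 h.2).1).symm ⟨h.1, (b h.1 h.2).2.symm⟩)

theorem ofEquivs_spec (G : SimpleGraph (Fin n)) (b : ∀ u, Fin d ≃ G.neighborSet u)
    {u w : Fin n} {k l : Fin d} (h1 : (b u k).1 = w) (h2 : (b w l).1 = u) :
    ofEquivs G b (u, k) = (w, l) := by
  subst h1
  unfold ofEquivs
  simp only [Prod.mk.injEq, true_and]
  rw [Equiv.symm_apply_eq]
  exact Subtype.ext h2.symm

theorem ofEquivs_invol (G : SimpleGraph (Fin n)) (b : ∀ u, Fin d ≃ G.neighborSet u) :
    Function.Involutive (ofEquivs G b) := by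
  rintro ⟨u, k⟩
  have h2 : (b (ofEquivs G b (u, k)).1 (ofEquivs G b (u, k)).2).1 = u :=
    congrArg Subtype.val ((b (b u k).1).apply_symm_apply ⟨u, (b u k).2.symm⟩)
  exact ofEquivs_spec G b (w := u) (l := k) (u := (ofEquivs G b (u, k)).1)
    (k := (ofEquivs G b (u, k)).2) h2 rfl

theorem card_graph_aux (G : SimpleGraph (Fin n)) [DecidableRel G.Adj]
    (hG : G.IsRegularOfDegree d) :
    Fintype.card (∀ u, Fin d ≃ G.neighborSet u) = d.factorial ^ n := by
  rw [Fintype.card_pi]
  have : ∀ u, Fintype.card (Fin d ≃ G.neighborSet u) = d.factorial := by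
    intro u
    have hc : Fintype.card (Fin d) = Fintype.card (G.neighborSet u) := by
      rw [Fintype.card_fin, SimpleGraph.card_neighborSet_eq_degree]
      exact (hG u).symm
    rw [Fintype.card_equiv (Fintype.equivOfCardEq hc), Fintype.card_fin]
  rw [prod_congr rfl (fun u _ => this u)]
  simp only [prod_const, card_univ, Fintype.card_fin]

theorem graph_count (n d : ℕ) (G : SimpleGraph (Fin n)) [DecidableRel G.Adj]
    (hG : G.IsRegularOfDegree d)
    [DecidablePred (fun f : Equiv.Perm (HE n d) => IsSimple f ∧ toGraph f = G)] :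
    ((matchings (HE n d)).filter (fun f => IsSimple f ∧ toGraph f = G)).card =
      d.factorial ^ n := by
  classical
  rw [← card_graph_aux G hG, ← card_univ]
  symm
  refine card_bij (fun b _ => (ofEquivs_invol G b).toPerm) ?_ ?_ ?_
  · intro b _
    have hadj : ∀ u v, G.Adj u v ↔ ∃ k : Fin d, (ofEquivs G b (u, k)).1 = v := by
      intro u v
      constructor
      · intro h
        refine ⟨(b u).symm ⟨v, h⟩, ?_⟩
        simp only [ofEquivs, Equiv.apply_symm_apply]
      · rintro ⟨k, rfl⟩
        exact (b u k).2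
    have hm : IsMatching (ofEquivs_invol G b).toPerm := by
      refine ⟨fun h => ?_, fun h hh => ?_⟩
      · exact ofEquivs_invol G b h
      · have h1 : (ofEquivs G b h).1 = h.1 := congrArg Prod.fst hh
        exact (b h.1 h.2).2.ne' h1
    have hsimp : IsSimple (ofEquivs_invol G b).toPerm := by
      refine ⟨fun h hh => ?_, fun u k l hkl => ?_⟩
      · exact (b h.1 h.2).2.ne' hh
      · have : (b u k).1 = (b u l).1 := hkl
        exact (b u).injective (Subtype.ext this)
    refine mem_filter.mpr ⟨mem_filter.mpr ⟨mem_univ _, hm⟩, hsimp, ?_⟩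
    ext u v
    rw [toGraph_adj hm hsimp, hadj]
    rfl
  · intro b _ b' _ h
    funext u
    refine Equiv.ext (fun k => Subtype.ext ?_)
    have := congrArg (fun f : Equiv.Perm (HE n d) => (f (u, k)).1) h
    exact this
  · intro f hf
    obtain ⟨hfM, hs, hGf⟩ := mem_filter.mp hf
    have hm : IsMatching f := (mem_filter.mp hfM).2
    have hmem : ∀ u k, (f (u, k)).1 ∈ G.neighborSet u := by
      intro u k
      rw [SimpleGraph.mem_neighborSet, ← hGf, toGraph_adj hm hs]
      exact ⟨k, rfl⟩
    let b : ∀ u, Fin d ≃ G.neighborSet u := fun u =>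
      Equiv.ofBijective (fun k => ⟨(f (u, k)).1, hmem u k⟩) (by
        constructor
        · intro k l h
          exact hs.2 u k l (congrArg Subtype.val h)
        · rintro ⟨v, hv⟩
          rw [SimpleGraph.mem_neighborSet, ← hGf, toGraph_adj hm hs] at hv
          obtain ⟨k, hk⟩ := hv
          exact ⟨k, Subtype.ext hk⟩)
    refine ⟨b, mem_univ _, ?_⟩
    refine Equiv.ext ?_
    rintro ⟨u, k⟩
    have h2 : (b (f (u, k)).1 (f (u, k)).2).1 = u := by
      change (f (f (u, k))).1 = u
      rw [hm.1]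
    exact ofEquivs_spec G b (w := (f (u, k)).1) (l := (f (u, k)).2) rfl h2

end Vale.Agent.P156
end
end

section

section

open Polynomial

namespace Vale.Agent.P156

/-- Every nonconstant integer polynomial has a root modulo arbitrarily large primes. -/
lemma exists_prime_root (f : ℤ[X]) (hf : 0 < f.natDegree) (B : ℕ) :
    ∃ p : ℕ, p.Prime ∧ B < p ∧ ∃ a : ℤ, (p : ℤ) ∣ f.eval a := by
  by_cases hc : f.eval 0 = 0
  · obtain ⟨p, hp, hprime⟩ := Nat.exists_infinite_primes (B + 1)
    exact ⟨p, hprime, hp, 0, by rw [hc]; exact dvd_zero _⟩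
  set c := f.eval 0 with hcdef
  -- values 0, c, -c are attained finitely often
  have hne : ∀ z : ℤ, f - C z ≠ 0 := by
    intro z h
    have : f = C z := sub_eq_zero.mp h
    rw [this, natDegree_C] at hf
    exact lt_irrefl _ hf
  let bad : Finset ℤ := ((f - C 0).roots.toFinset ∪ (f - C c).roots.toFinset)
    ∪ (f - C (-c)).roots.toFinset
  have hinj : Function.Injective (fun k : ℕ => c * ((B.factorial : ℤ) * k)) := by
    intro k l h
    have hB : (B.factorial : ℤ) ≠ 0 := by exact_mod_cast Nat.factorial_ne_zero B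
    have h1 := mul_left_cancel₀ hc h
    have h2 := mul_left_cancel₀ hB h1
    exact_mod_cast h2
  obtain ⟨x, ⟨k, rfl⟩, hx⟩ := (Set.infinite_range_of_injective hinj).exists_notMem_finset bad
  simp only at hx
  set m : ℤ := (B.factorial : ℤ) * k with hm
  have hval : ∀ z : ℤ, c * m ∉ (f - C z).roots → f.eval (c * m) ≠ z := by
    intro z hz h
    apply hz
    rw [mem_roots (hne z)]
    simp [IsRoot, h]
  simp only [bad, Finset.mem_union, Multiset.mem_toFinset, not_or] at hx
  have h0 := hval 0 hx.1.1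
  have h1 := hval c hx.1.2
  have h2 := hval (-c) hx.2
  -- factor out c
  obtain ⟨u, hu⟩ : ∃ w : ℤ, f.eval (c * m) = c * (1 + m * w) := by
    have : c * m ∣ f.eval (c * m) - f.eval 0 := by
      have := sub_dvd_eval_sub (c * m) 0 f
      simpa only [sub_zero] using this
    obtain ⟨w, hw⟩ := this
    refine ⟨w, ?_⟩
    have : f.eval (c * m) = c + c * m * w := by rw [← hw, ← hcdef]; ring
    rw [this]; ring
  have hu1 : (1 + m * u).natAbs ≠ 1 := by
    intro h
    rcases Int.natAbs_eq (1 + m * u) with h' | h'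
    · rw [h] at h'
      apply h1; rw [hu, h']; simp
    · rw [h] at h'
      apply h2; rw [hu, h']; simp
  obtain ⟨p, hp, hpd⟩ := Nat.exists_prime_and_dvd hu1
  refine ⟨p, hp, ?_, c * m, ?_⟩
  · by_contra hle
    push Not at hle
    have h3 : p ∣ B.factorial := (Nat.Prime.dvd_factorial hp).mpr hle
    have h4 : (p : ℤ) ∣ m := by
      rw [hm]
      exact Dvd.dvd.mul_right (by exact_mod_cast h3) _
    have h5 : (p : ℤ) ∣ 1 + m * u := Int.natCast_dvd.mpr hpd
    have h6 : (p : ℤ) ∣ 1 := by
      have := dvd_sub h5 (Dvd.dvd.mul_right h4 u)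
      simpa only [add_sub_cancel_right] using this
    have h7 : p ∣ 1 := by exact_mod_cast h6
    exact hp.one_lt.ne' (Nat.dvd_one.mp h7)
  · rw [hu]
    exact Dvd.dvd.mul_left (Int.natCast_dvd.mpr hpd) _

end Vale.Agent.P156
end
end

section

section

namespace Vale.Agent.P156.Gap

open Polynomial Matrix Unitary

/-- determinant of a polynomial in a real symmetric matrix -/
theorem det_aeval_eq {n : ℕ} {A : Matrix (Fin n) (Fin n) ℝ} (hA : A.IsHermitian) (f : ℝ[X]) :
    (aeval A f).det = ∏ i, f.eval (hA.eigenvalues i) := by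
  conv_lhs => rw [hA.spectral_theorem]
  rw [Polynomial.aeval_algHom_apply, conjStarAlgAut_apply, Matrix.det_mul_right_comm,
    Unitary.mul_star_self_of_mem hA.eigenvectorUnitary.2, one_mul]
  have h1 : aeval (diagonal (RCLike.ofReal ∘ hA.eigenvalues) : Matrix (Fin n) (Fin n) ℝ) f =
      diagonal (fun i => f.eval (hA.eigenvalues i)) := by
    have h2 : (diagonal (RCLike.ofReal ∘ hA.eigenvalues) : Matrix (Fin n) (Fin n) ℝ) =
        (Matrix.diagonalAlgHom ℝ) hA.eigenvalues := rfl
    rw [h2, Polynomial.aeval_algHom_apply]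
    show diagonal (aeval hA.eigenvalues f) = _
    congr 1
    funext i
    have h3 := Polynomial.aeval_algHom_apply (Pi.evalAlgHom ℝ (fun _ : Fin n => ℝ) i)
      hA.eigenvalues f
    exact h3.symm
  rw [h1, det_diagonal]

theorem eigenvalue_abs_le {n d : ℕ} (G : SimpleGraph (Fin n)) [DecidableRel G.Adj]
    (hA : (G.adjMatrix ℝ).IsHermitian) (hG : G.IsRegularOfDegree d) (i : Fin n) :
    |hA.eigenvalues i| ≤ d := by
  have h1 : Module.End.HasEigenvalue (Matrix.toLin' (G.adjMatrix ℝ)) (hA.eigenvalues i) := by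
    rw [Module.End.hasEigenvalue_iff_mem_spectrum, Matrix.spectrum_toLin',
      hA.spectrum_real_eq_range_eigenvalues]
    exact ⟨i, rfl⟩
  obtain ⟨k, hk⟩ := eigenvalue_mem_ball h1
  rw [Metric.mem_closedBall, Real.dist_eq] at hk
  have h2 : G.adjMatrix ℝ k k = 0 := by simp
  rw [h2, sub_zero] at hk
  refine le_trans hk ?_
  have h3 : ∑ j ∈ Finset.univ.erase k, ‖G.adjMatrix ℝ k j‖ ≤ ∑ j, G.adjMatrix ℝ k j := by
    calc ∑ j ∈ Finset.univ.erase k, ‖G.adjMatrix ℝ k j‖ ≤ ∑ j, ‖G.adjMatrix ℝ k j‖ :=
          Finset.sum_le_sum_of_subset_of_nonneg (Finset.erase_subset _ _)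
            (fun _ _ _ => norm_nonneg _)
      _ = ∑ j, G.adjMatrix ℝ k j := by
          refine Finset.sum_congr rfl (fun j _ => ?_)
          rw [SimpleGraph.adjMatrix_apply]
          split_ifs <;> simp
  refine le_trans h3 (le_of_eq ?_)
  have h4 := SimpleGraph.adjMatrix_mulVec_const_apply (α := ℝ) (G := G) (a := 1) (v := k)
  rw [hG k] at h4
  simp only [mulVec, dotProduct, Function.const_apply, mul_one] at h4
  exact h4

theorem exists_int_poly (E : ℝ) : ∃ (f : ℤ[X]) (b : ℝ), b ≠ 0 ∧
    ∀ x : ℝ, (f.map (Int.castRingHom ℝ)).eval x = b * aeval x (minpoly ℚ E) := by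
  obtain ⟨b, hbm, hb⟩ := IsLocalization.integerNormalization_spec (nonZeroDivisors ℤ)
    (minpoly ℚ E)
  refine ⟨IsLocalization.integerNormalization (nonZeroDivisors ℤ) (minpoly ℚ E), ((b : ℤ) : ℝ),
    ?_, fun x => ?_⟩
  · exact_mod_cast nonZeroDivisors.ne_zero hbm
  · have h1 : (Int.castRingHom ℝ) = (algebraMap ℚ ℝ).comp (algebraMap ℤ ℚ) := by
      exact RingHom.ext_int _ _
    rw [h1, ← Polynomial.map_map, hb, Polynomial.eval_map, ← Polynomial.aeval_def, map_zsmul,
      zsmul_eq_mul]

theorem adj_map_cast {n : ℕ} (G : SimpleGraph (Fin n)) [DecidableRel G.Adj] {R S : Type*}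
    [CommRing R] [CommRing S] (φ : R →+* S) : (G.adjMatrix R).map φ = G.adjMatrix S := by
  ext i j
  simp only [Matrix.map_apply, SimpleGraph.adjMatrix_apply]
  split_ifs <;> simp

theorem eval_charpoly_eq {n : ℕ} (G : SimpleGraph (Fin n)) [DecidableRel G.Adj]
    (hA : (G.adjMatrix ℝ).IsHermitian) (x : ℝ) :
    aeval x (G.adjMatrix ℚ).charpoly = ∏ i, (x - hA.eigenvalues i) := by
  rw [Polynomial.aeval_def, ← Polynomial.eval_map, ← Matrix.charpoly_map]
  have h1 : (G.adjMatrix ℚ).map (algebraMap ℚ ℝ) = G.adjMatrix ℝ := adj_map_cast G _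
  rw [h1, hA.charpoly_eq, Polynomial.eval_prod]
  simp only [Real.ringHom_apply, eval_sub, eval_X, eval_C]

theorem not_root {n : ℕ} {E : ℝ} (hI : IsIntegral ℚ E) (G : SimpleGraph (Fin n))
    [DecidableRel G.Adj] (hA : (G.adjMatrix ℝ).IsHermitian)
    (hE : ∀ i, hA.eigenvalues i ≠ E) (i : Fin n) :
    aeval (hA.eigenvalues i) (minpoly ℚ E) ≠ 0 := by
  intro h
  have h1 : minpoly ℚ E = minpoly ℚ (hA.eigenvalues i) :=
    minpoly.eq_of_irreducible_of_monic (minpoly.irreducible hI) h (minpoly.monic hI)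
  have h2 : aeval (hA.eigenvalues i) (G.adjMatrix ℚ).charpoly = 0 := by
    rw [eval_charpoly_eq G hA]
    exact Finset.prod_eq_zero (Finset.mem_univ i) (sub_self _)
  have h3 : minpoly ℚ E ∣ (G.adjMatrix ℚ).charpoly := by
    rw [h1]
    exact minpoly.dvd _ _ h2
  obtain ⟨r, hr⟩ := h3
  have h4 : aeval E (G.adjMatrix ℚ).charpoly = 0 := by
    rw [hr, map_mul, minpoly.aeval, zero_mul]
  rw [eval_charpoly_eq G hA, Finset.prod_eq_zero_iff] at h4
  obtain ⟨j, _, hj⟩ := h4
  exact hE j (sub_eq_zero.mp hj).symm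

theorem det_int {n : ℕ} (G : SimpleGraph (Fin n)) [DecidableRel G.Adj] (f : ℤ[X]) :
    ∃ m : ℤ, (aeval (G.adjMatrix ℝ) (f.map (Int.castRingHom ℝ))).det = m := by
  refine ⟨(aeval (G.adjMatrix ℤ) f).det, ?_⟩
  have h1 : G.adjMatrix ℝ = (Int.castRingHom ℝ).mapMatrix.toIntAlgHom (G.adjMatrix ℤ) :=
    (adj_map_cast G (Int.castRingHom ℝ)).symm
  have h2 : aeval (G.adjMatrix ℝ) (f.map (Int.castRingHom ℝ)) = aeval (G.adjMatrix ℝ) f := by
    exact Polynomial.aeval_map_algebraMap ℝ (G.adjMatrix ℝ) f
  rw [h2, h1, Polynomial.aeval_algHom_apply]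
  exact (RingHom.map_det (Int.castRingHom ℝ) _).symm

/-- An algebraic number which is not an eigenvalue keeps an exponential distance from the
spectrum of every regular graph of the given degree. -/
theorem alg_gap (d : ℕ) (E : ℝ) (hE : IsAlgebraic ℤ E) : ∃ c : ℝ, 0 < c ∧ ∀ (n : ℕ)
    (G : SimpleGraph (Fin n)) [DecidableRel G.Adj] (hA : (G.adjMatrix ℝ).IsHermitian),
    G.IsRegularOfDegree d → (∀ i, hA.eigenvalues i ≠ E) →
    ∀ i, c ^ n ≤ |hA.eigenvalues i - E| := by
  have hI : IsIntegral ℚ E := by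
    have h1 : IsAlgebraic ℚ E := hE.extendScalars (algebraMap ℤ ℚ).injective_int
    exact h1.isIntegral
  obtain ⟨f, b, hb, hf⟩ := exists_int_poly E
  set F := f.map (Int.castRingHom ℝ) with hF
  have hroot : F.IsRoot E := by
    rw [IsRoot.def, hf, minpoly.aeval, mul_zero]
  obtain ⟨g, hg⟩ := dvd_iff_isRoot.mpr hroot
  obtain ⟨C1, hC1⟩ := (isCompact_Icc (a := -(d : ℝ)) (b := d)).exists_bound_of_continuousOn
    F.continuous.continuousOn
  obtain ⟨C2, hC2⟩ := (isCompact_Icc (a := -(d : ℝ)) (b := d)).exists_bound_of_continuousOn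
    g.continuous.continuousOn
  set K : ℝ := max 1 (max C1 C2) with hK
  have hK1 : 1 ≤ K := le_max_left _ _
  have hK0 : 0 < K := by linarith
  have hKC1 : C1 ≤ K := le_trans (le_max_left _ _) (le_max_right _ _)
  have hKC2 : C2 ≤ K := le_trans (le_max_right _ _) (le_max_right _ _)
  refine ⟨K⁻¹, by positivity, fun n G _ hA hG hne i => ?_⟩
  have hmem : ∀ j, hA.eigenvalues j ∈ Set.Icc (-(d : ℝ)) d := fun j =>
    abs_le.mp (eigenvalue_abs_le G hA hG j)
  have hb1 : ∀ j, |F.eval (hA.eigenvalues j)| ≤ K := fun j =>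
    le_trans (hC1 _ (hmem j)) hKC1
  have hb2 : |F.eval (hA.eigenvalues i)| ≤ K * |hA.eigenvalues i - E| := by
    rw [hg, eval_mul, abs_mul, mul_comm]
    have h1 : |g.eval (hA.eigenvalues i)| ≤ K := le_trans (hC2 _ (hmem i)) hKC2
    have h2 : eval (hA.eigenvalues i) (X - C E) = hA.eigenvalues i - E := by simp
    rw [h2]
    exact mul_le_mul_of_nonneg_right h1 (abs_nonneg _)
  have hdet := det_aeval_eq hA F
  obtain ⟨m, hm⟩ := det_int G f
  rw [← hF, hdet] at hm
  have hne0 : ∏ j, F.eval (hA.eigenvalues j) ≠ 0 := by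
    rw [Finset.prod_ne_zero_iff]
    intro j _
    rw [hf]
    exact mul_ne_zero hb (not_root hI G hA hne j)
  have hm0 : m ≠ 0 := by
    intro h
    rw [h, Int.cast_zero] at hm
    exact hne0 hm
  have h1 : (1 : ℝ) ≤ |∏ j, F.eval (hA.eigenvalues j)| := by
    rw [hm, ← Int.cast_abs]
    exact_mod_cast Int.one_le_abs hm0
  rw [Finset.abs_prod, ← Finset.mul_prod_erase Finset.univ _ (Finset.mem_univ i)] at h1
  have h2 : ∏ j ∈ Finset.univ.erase i, |F.eval (hA.eigenvalues j)| ≤ K ^ (n - 1) := by
    calc ∏ j ∈ Finset.univ.erase i, |F.eval (hA.eigenvalues j)|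
        ≤ ∏ j ∈ Finset.univ.erase i, K :=
          Finset.prod_le_prod (fun j _ => abs_nonneg _) (fun j _ => hb1 j)
      _ = K ^ (n - 1) := by
          rw [Finset.prod_const, Finset.card_erase_of_mem (Finset.mem_univ i), Finset.card_univ,
            Fintype.card_fin]
  have hn : n = (n - 1) + 1 := by
    have := i.pos
    omega
  have h3 : 1 ≤ K ^ n * |hA.eigenvalues i - E| := by
    calc (1 : ℝ) ≤ _ := h1
      _ ≤ (K * |hA.eigenvalues i - E|) * K ^ (n - 1) :=
          mul_le_mul hb2 h2 (Finset.prod_nonneg (fun j _ => abs_nonneg _)) (by (clear * - hA; positivity))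
      _ = K ^ ((n - 1) + 1) * |hA.eigenvalues i - E| := by ring
      _ = K ^ n * |hA.eigenvalues i - E| := by rw [← hn]
  rw [inv_pow, inv_le_iff_one_le_mul₀ (by positivity)]
  linarith only [h3]

end Vale.Agent.P156.Gap
end
end

section

section

open Finset Polynomial

namespace Vale.Agent.P156

/-- `E` is an eigenvalue of the adjacency matrix of `G`. -/
def IsEig {n : ℕ} (G : SimpleGraph (Fin n)) (E : ℝ) : Prop :=
  ∃ x : Fin n → ℝ, x ≠ 0 ∧ (adj G).mulVec x = E • x

lemma isEig_iff_charpoly {n : ℕ} (G : SimpleGraph (Fin n)) (E : ℝ) :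
    IsEig G E ↔ (adj G).charpoly.eval E = 0 := by
  rw [Matrix.eval_charpoly, ← Matrix.exists_mulVec_eq_zero_iff]
  unfold IsEig
  refine exists_congr (fun x => and_congr_right (fun _ => ?_))
  rw [Matrix.sub_mulVec, sub_eq_zero, Matrix.scalar_apply, ← Matrix.smul_one_eq_diagonal,
    Matrix.smul_mulVec, Matrix.one_mulVec]
  exact eq_comm

lemma isEig_eig {n : ℕ} (G : SimpleGraph (Fin n)) (i : Fin n) : IsEig G (eig G i) := by
  refine ⟨_, ?_, (adj_isHermitian G).mulVec_eigenvectorBasis i⟩
  intro h
  have h1 := (adj_isHermitian G).eigenvectorBasis.orthonormal.ne_zero i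
  apply h1
  ext j
  exact congrFun h j

lemma isEig_iff_exists {n : ℕ} (G : SimpleGraph (Fin n)) (E : ℝ) :
    IsEig G E ↔ ∃ i, eig G i = E := by
  constructor
  · intro h
    rw [isEig_iff_charpoly, (adj_isHermitian G).charpoly_eq, eval_prod] at h
    rw [Finset.prod_eq_zero_iff] at h
    obtain ⟨i, _, hi⟩ := h
    refine ⟨i, ?_⟩
    simp only [eval_sub, eval_X, eval_C, sub_eq_zero] at hi
    exact hi.symm
  · rintro ⟨i, rfl⟩
    exact isEig_eig G i

open Classical in
/-- The integer adjacency matrix. -/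
noncomputable def adjZ {n : ℕ} (G : SimpleGraph (Fin n)) : Matrix (Fin n) (Fin n) ℤ :=
  G.adjMatrix ℤ

lemma adjZ_map {n : ℕ} (G : SimpleGraph (Fin n)) :
    (adjZ G).map (Int.castRingHom ℝ) = adj G := by
  classical
  ext i j
  simp only [adjZ, adj, Matrix.map_apply, SimpleGraph.adjMatrix_apply]
  split_ifs <;> simp

lemma isEig_iff_aeval {n : ℕ} (G : SimpleGraph (Fin n)) (E : ℝ) :
    IsEig G E ↔ aeval E (adjZ G).charpoly = 0 := by
  rw [isEig_iff_charpoly, ← adjZ_map, Matrix.charpoly_map, eval_map, aeval_def]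
  rfl

lemma isIntegral_of_isEig {n : ℕ} {G : SimpleGraph (Fin n)} {E : ℝ} (h : IsEig G E) :
    IsIntegral ℤ E := by
  rw [isEig_iff_aeval] at h
  exact ⟨(adjZ G).charpoly, (adjZ G).charpoly_monic, h⟩

/-- Reduction of an eigenvalue modulo `p`. -/
lemma bad_of_isEig {n d : ℕ} {f : Equiv.Perm (HE n d)} (hf : IsMatching f) (hs : IsSimple f)
    {E : ℝ} (hE : IsEig (toGraph f) E) {p : ℕ} [Fact p.Prime] {a : ℤ}
    (ha : (p : ℤ) ∣ (minpoly ℤ E).eval a) : f ∈ badF n d (a : ZMod p) := by
  classical
  have hint := isIntegral_of_isEig hE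
  rw [isEig_iff_aeval] at hE
  have hdvd := minpoly.isIntegrallyClosed_dvd hint hE
  obtain ⟨g, hg⟩ := hdvd
  have h1 : (p : ℤ) ∣ (adjZ (toGraph f)).charpoly.eval a := by
    rw [hg, eval_mul]
    exact Dvd.dvd.mul_right ha _
  set A : Matrix (Fin n) (Fin n) (ZMod p) := (adjZ (toGraph f)).map (Int.castRingHom (ZMod p))
    with hA
  have h2 : A.charpoly.eval (a : ZMod p) = 0 := by
    rw [hA, Matrix.charpoly_map, eval_map]
    have : ((a : ℤ) : ZMod p) = Int.castRingHom (ZMod p) a := rfl
    rw [this, eval₂_at_apply]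
    exact (ZMod.intCast_zmod_eq_zero_iff_dvd _ _).mpr h1
  rw [Matrix.eval_charpoly, ← Matrix.exists_mulVec_eq_zero_iff] at h2
  obtain ⟨v, hv0, hv⟩ := h2
  rw [Matrix.sub_mulVec, sub_eq_zero, Matrix.scalar_apply, ← Matrix.smul_one_eq_diagonal,
    Matrix.smul_mulVec, Matrix.one_mulVec] at hv
  unfold badF
  rw [Finset.mem_filter]
  refine ⟨mem_matchings.mpr hf, v, hv0, fun u => ?_⟩
  have h3 := congrFun hv u
  have h4 : A = (toGraph f).adjMatrix (ZMod p) := by
    ext i j
    simp only [hA, adjZ, Matrix.map_apply, SimpleGraph.adjMatrix_apply]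
    split_ifs <;> simp
  rw [h4, adj_sum hf hs] at h3
  unfold mulM
  rw [← h3]
  simp

lemma minpoly_eval_ne_zero {E : ℝ} (hint : IsIntegral ℤ E) {d : ℕ} (hE : E ≠ d) :
    (minpoly ℤ E).eval (d : ℤ) ≠ 0 := by
  intro h
  have h1 : (X - C (d : ℤ)) ∣ minpoly ℤ E := dvd_iff_isRoot.mpr h
  have hirr := minpoly.irreducible hint
  obtain ⟨g, hg⟩ := h1
  rcases hirr.isUnit_or_isUnit hg with hu | hu
  · exact absurd hu (not_isUnit_X_sub_C _)
  · have hae := minpoly.aeval ℤ E
    rw [hg, map_mul] at hae
    rcases mul_eq_zero.mp hae with h2 | h2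
    · simp only [map_sub, aeval_X, aeval_C] at h2
      apply hE
      have := sub_eq_zero.mp h2
      simpa using this
    · obtain ⟨c, hc, rfl⟩ := Polynomial.isUnit_iff.mp hu
      rw [aeval_C] at h2
      have h3 : c = 0 := by
        have : ((c : ℤ) : ℝ) = 0 := by simpa using h2
        exact_mod_cast this
      rw [h3] at hc
      exact not_isUnit_zero hc

lemma card_regular_mul (n d : ℕ) (A : SimpleGraph (Fin n) → Prop) [DecidablePred A] :
    ((regularGraphs n d).filter A).card * d.factorial ^ n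
      = (((matchings (HE n d)).filter IsSimple).filter (fun f => A (toGraph f))).card := by
  classical
  rw [Finset.card_eq_sum_card_fiberwise (f := fun f : Equiv.Perm (HE n d) => toGraph f)
    (t := (regularGraphs n d).filter A)]
  · rw [← smul_eq_mul, ← Finset.sum_const]
    refine Finset.sum_congr rfl (fun G hG => ?_)
    rw [Finset.mem_filter] at hG
    have hreg : G.IsRegularOfDegree d := by
      have := hG.1
      unfold regularGraphs at this
      exact (Finset.mem_filter.mp this).2
    rw [← graph_count n d G hreg]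
    congr 1
    ext f
    simp only [Finset.mem_filter]
    constructor
    · rintro ⟨h1, h2, h3⟩
      exact ⟨⟨⟨h1, h2⟩, by rw [h3]; exact hG.2⟩, h3⟩
    · rintro ⟨⟨⟨h1, h2⟩, _⟩, h3⟩
      exact ⟨h1, h2, h3⟩
  · intro f hf
    simp only [Finset.coe_filter, Set.mem_ofPred_eq, Finset.mem_filter] at hf ⊢
    refine ⟨?_, hf.2⟩
    unfold regularGraphs
    rw [Finset.mem_filter]
    exact ⟨Finset.mem_univ _, toGraph_regular (mem_matchings.mp hf.1.1) hf.1.2⟩

/-- For every real `E ≠ d` the number `E` is asymptotically almost surely not an eigenvalue. -/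
theorem spec_prob (d : ℕ) (hd : 3 ≤ d) (E : ℝ) (hE : E ≠ d) (ε : ℝ) (hε : 0 < ε) :
    ∃ n0 : ℕ, ∀ n ≥ n0, Even (n * d) → unifProb n d (fun G => IsEig G E) ≤ ε := by
  classical
  by_cases hint : IsIntegral ℤ E
  swap
  · refine ⟨0, fun n _ _ => ?_⟩
    have : (regularGraphs n d).filter (fun G => IsEig G E) = ∅ := by
      rw [Finset.filter_eq_empty_iff]
      intro G _ h
      exact hint (isIntegral_of_isEig h)
    unfold unifProb
    rw [this]
    simp only [card_empty, CharP.cast_eq_zero, zero_div, hε.le]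
  obtain ⟨c, hc, n1, hn1⟩ := simple_lower d
  have hP := minpoly_eval_ne_zero hint hE
  set P0 := minpoly ℤ E with hP0
  -- choose the prime
  obtain ⟨B, hB⟩ := exists_nat_gt (2 / (c * ε) + 1)
  have hdeg : 0 < P0.natDegree := minpoly.natDegree_pos hint
  obtain ⟨p, hp, hpB, a, ha⟩ := exists_prime_root P0 hdeg (B + 2 + (P0.eval (d : ℤ)).natAbs)
  have hfact : Fact p.Prime := ⟨hp⟩
  have hp2 : p ≠ 2 := by omega
  have hα : (a : ZMod p) ≠ (d : ZMod p) := by
    intro h
    have h1 : (p : ℤ) ∣ P0.eval (d : ℤ) := by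
      have h2 : (p : ℤ) ∣ a - d := by
        rw [← ZMod.intCast_zmod_eq_zero_iff_dvd]
        push_cast
        rw [h, sub_self]
      have h3 : (a - d) ∣ P0.eval a - P0.eval (d : ℤ) := sub_dvd_eval_sub a (d : ℤ) P0
      have h4 := h2.trans h3
      have h5 := dvd_sub ha h4
      simpa only [sub_sub_cancel] using h5
    have h6 : p ∣ (P0.eval (d : ℤ)).natAbs := Int.natCast_dvd.mp h1
    have h7 := Nat.le_of_dvd (Int.natAbs_pos.mpr hP) h6
    omega
  obtain ⟨n0, hn0⟩ := badF_le d hd p hp2 (a : ZMod p) hα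
  refine ⟨max n0 n1, fun n hn heven => ?_⟩
  have hbad := hn0 n (le_trans (le_max_left _ _) hn) heven
  have hsimple := hn1 n (le_trans (le_max_right _ _) hn) heven
  set M : ℝ := ((matchings (HE n d)).card : ℝ) with hM
  have hMpos : 0 < M := by
    rw [hM]; exact_mod_cast Finset.card_pos.mpr (matchings_HE_nonempty heven)
  have hK : (0 : ℝ) < ((d.factorial ^ n : ℕ) : ℝ) := by
    exact_mod_cast pow_pos (Nat.factorial_pos d) n
  -- numerator
  have hnum : (((regularGraphs n d).filter (fun G => IsEig G E)).card : ℝ)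
      * ((d.factorial ^ n : ℕ) : ℝ) ≤ ((badF n d (a : ZMod p)).card : ℝ) := by
    rw [← Nat.cast_mul, card_regular_mul]
    have : ((matchings (HE n d)).filter IsSimple).filter (fun f => IsEig (toGraph f) E)
        ⊆ badF n d (a : ZMod p) := by
      intro f hf
      simp only [Finset.mem_filter] at hf
      exact bad_of_isEig (mem_matchings.mp hf.1.1) hf.1.2 hf.2 ha
    exact_mod_cast Finset.card_le_card this
  -- denominator
  have hden : ((regularGraphs n d).card : ℝ) * ((d.factorial ^ n : ℕ) : ℝ)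
      = (((matchings (HE n d)).filter IsSimple).card : ℝ) := by
    have := card_regular_mul n d (fun _ => True)
    rw [Finset.filter_true_of_mem (fun _ _ => trivial),
      Finset.filter_true_of_mem (fun _ _ => trivial)] at this
    rw [← Nat.cast_mul, this]
  have hp1 : (2 / (c * ε) + 1 : ℝ) < p := by
    have : (B : ℝ) < p := by exact_mod_cast (by (clear * - hpB hp2; omega) : B < p)
    linarith only [hB, this]
  have hcε : 0 < c * ε := mul_pos hc hε
  have hp3 : 2 < (c * ε) * ((p : ℝ) - 1) := by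
    have h1 : 2 / (c * ε) < (p : ℝ) - 1 := by linarith only [hp1]
    rwa [div_lt_iff₀' hcε] at h1
  have hp4 : 0 < (p : ℝ) - 1 := by
    have : 0 < 2 / (c * ε) := by positivity
    linarith only [hp1, this]
  have hDpos : 0 < ((regularGraphs n d).card : ℝ) := by
    have h1 : 0 < ((regularGraphs n d).card : ℝ) * ((d.factorial ^ n : ℕ) : ℝ) := by
      rw [hden]
      exact lt_of_lt_of_le (mul_pos hc hMpos) hsimple
    exact (mul_pos_iff_of_pos_right hK).mp h1
  have hbad' : ((badF n d (a : ZMod p)).card : ℝ) ≤ (c * ε) * M := by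
    have h1 : ((badF n d (a : ZMod p)).card : ℝ) * ((p : ℝ) - 1)
        ≤ ((c * ε) * M) * ((p : ℝ) - 1) := by
      refine hbad.trans ?_
      nlinarith
    exact le_of_mul_le_mul_right h1 hp4
  have hfinal : (((regularGraphs n d).filter (fun G => IsEig G E)).card : ℝ)
      ≤ ε * ((regularGraphs n d).card : ℝ) := by
    have h1 : (((regularGraphs n d).filter (fun G => IsEig G E)).card : ℝ)
        * ((d.factorial ^ n : ℕ) : ℝ) ≤ (ε * ((regularGraphs n d).card : ℝ))
        * ((d.factorial ^ n : ℕ) : ℝ) := by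
      calc _ ≤ ((badF n d (a : ZMod p)).card : ℝ) := hnum
        _ ≤ (c * ε) * M := hbad'
        _ = ε * (c * M) := by ring
        _ ≤ ε * (((matchings (HE n d)).filter IsSimple).card : ℝ) :=
            mul_le_mul_of_nonneg_left hsimple hε.le
        _ = _ := by rw [← hden]; ring
    exact le_of_mul_le_mul_right h1 hK
  unfold unifProb
  rw [div_le_iff₀ hDpos]
  exact hfinal

end Vale.Agent.P156
end
end

section

section

open Finset Polynomial

namespace Vale.Agent.P156

lemma abs_eig_le {n d : ℕ} {G : SimpleGraph (Fin n)} (hG : G ∈ regularGraphs n d) {E : ℝ}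
    (h : IsEig G E) : |E| ≤ d := by
  classical
  obtain ⟨x, hx0, hx⟩ := h
  have hreg : G.IsRegularOfDegree d := by
    unfold regularGraphs at hG
    exact (Finset.mem_filter.mp hG).2
  obtain ⟨u0, hu0⟩ := Function.ne_iff.mp hx0
  obtain ⟨u, _, hu⟩ := Finset.exists_max_image univ (fun u => |x u|) ⟨u0, Finset.mem_univ _⟩
  have hpos : 0 < |x u| := lt_of_lt_of_le (abs_pos.mpr hu0) (hu u0 (Finset.mem_univ _))
  have h1 := congrFun hx u
  unfold adj at h1
  rw [SimpleGraph.adjMatrix_mulVec_apply] at h1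
  have h2 : |E| * |x u| ≤ d * |x u| := by
    calc |E| * |x u| = |(E • x) u| := by simp [abs_mul]
      _ = |∑ w ∈ G.neighborFinset u, x w| := by rw [h1]
      _ ≤ ∑ w ∈ G.neighborFinset u, |x w| := Finset.abs_sum_le_sum_abs _ _
      _ ≤ ∑ _w ∈ G.neighborFinset u, |x u| :=
          Finset.sum_le_sum (fun w _ => hu w (Finset.mem_univ _))
      _ = d * |x u| := by
          rw [Finset.sum_const, SimpleGraph.card_neighborFinset_eq_degree, hreg u, nsmul_eq_mul]
  exact le_of_mul_le_mul_right h2 hpos

/-- All complex conjugates of an adjacency eigenvalue are again adjacency eigenvalues. -/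
lemma norm_conj_le {n d : ℕ} {G : SimpleGraph (Fin n)} (hG : G ∈ regularGraphs n d) {E : ℝ}
    (h : IsEig G E) {z : ℂ} (hz : aeval z (minpoly ℤ E) = 0) : ‖z‖ ≤ d := by
  have hint := isIntegral_of_isEig h
  have hae := (isEig_iff_aeval G E).mp h
  obtain ⟨g, hg⟩ := minpoly.isIntegrallyClosed_dvd hint hae
  have h1 : aeval z (adjZ G).charpoly = 0 := by rw [hg, map_mul, hz, zero_mul]
  have h2 : (((adj G).charpoly).map (algebraMap ℝ ℂ)).eval z = 0 := by
    rw [← adjZ_map, Matrix.charpoly_map, Polynomial.map_map, eval_map]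
    rw [aeval_def] at h1
    have : (algebraMap ℝ ℂ).comp (Int.castRingHom ℝ) = algebraMap ℤ ℂ := RingHom.ext_int _ _
    rw [this]
    exact h1
  rw [(adj_isHermitian G).charpoly_eq] at h2
  simp only [Polynomial.map_prod, Polynomial.map_sub, map_X, map_C, eval_prod, eval_sub, eval_X,
    eval_C] at h2
  rw [Finset.prod_eq_zero_iff] at h2
  obtain ⟨i, _, hi⟩ := h2
  have h3 : z = ((eig G i : ℝ) : ℂ) := by
    have := sub_eq_zero.mp hi
    simpa [eig] using this
  rw [h3, Complex.norm_real, Real.norm_eq_abs]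
  exact abs_eig_le hG (isEig_eig G i)

/-- For `β ≠ 0` and `n` large, `E + β / n` is not an eigenvalue of any `d`-regular graph. -/
theorem eventually_not_eig (d : ℕ) (E β : ℝ) (hβ : β ≠ 0) :
    ∃ n0 : ℕ, ∀ n ≥ n0, ∀ G ∈ regularGraphs n d, ¬ IsEig G (E + β / n) := by
  by_contra hcon
  push Not at hcon
  -- the infinite set of bad indices
  let T : Set ℕ := {n | 1 ≤ n ∧ ∃ G ∈ regularGraphs n d, IsEig G (E + β / n)}
  have hT : T.Infinite := by
    rw [Set.infinite_iff_exists_gt]
    intro N
    obtain ⟨n, hn, G, hG, hE⟩ := hcon (N + 1)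
    exact ⟨n, ⟨by omega, G, hG, hE⟩, by omega⟩
  obtain ⟨n1, hn1⟩ := hT.nonempty
  obtain ⟨n2, hn2, hn12⟩ := hT.exists_gt n1
  have hθ : ∀ n ∈ T, IsIntegral ℤ (E + β / n) := by
    rintro n ⟨_, G, _, hE⟩
    exact isIntegral_of_isEig hE
  -- the number field generated by two of them
  set θ1 : ℝ := E + β / n1 with hθ1
  set θ2 : ℝ := E + β / n2 with hθ2
  have hi1 : IsIntegral ℚ θ1 := (hθ n1 hn1).tower_top
  have hi2 : IsIntegral ℚ θ2 := (hθ n2 hn2).tower_top
  let K : IntermediateField ℚ ℝ := IntermediateField.adjoin ℚ {θ1, θ2}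
  have hfin : FiniteDimensional ℚ K := by
    refine IntermediateField.finiteDimensional_adjoin ?_
    intro x hx
    rcases hx with rfl | hx
    · exact hi1
    · rw [Set.mem_singleton_iff] at hx; rw [hx]; exact hi2
  have hn1R : (n1 : ℝ) ≠ 0 := by
    have := hn1.1
    exact_mod_cast (by omega : n1 ≠ 0)
  have hn2R : (n2 : ℝ) ≠ 0 := by
    have := hn2.1
    exact_mod_cast (by omega : n2 ≠ 0)
  have hm1 : θ1 ∈ K := IntermediateField.subset_adjoin _ _ (by simp)
  have hm2 : θ2 ∈ K := IntermediateField.subset_adjoin _ _ (by simp)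
  have hnat : ∀ m : ℕ, (m : ℝ) ∈ K := fun m => natCast_mem K m
  have hβK : β ∈ K := by
    have hne : (n2 : ℝ) - n1 ≠ 0 := by
      have : (n1 : ℝ) < n2 := by exact_mod_cast hn12
      linarith only [this]
    have : β = (θ1 - θ2) * (n1 * n2) / (n2 - n1) := by
      rw [hθ1, hθ2]
      field_simp
      ring
    rw [this]
    exact div_mem (mul_mem (sub_mem hm1 hm2) (mul_mem (hnat _) (hnat _)))
      (sub_mem (hnat _) (hnat _))
  have hEK : E ∈ K := by
    have : E = θ1 - β / n1 := by rw [hθ1]; ring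
    rw [this]
    exact sub_mem hm1 (div_mem hβK (hnat _))
  have hK : NumberField K := { to_charZero := inferInstance, to_finiteDimensional := hfin }
  have hfinite := NumberField.Embeddings.finite_of_norm_le K ℂ (d : ℝ)
  -- injection of T into this finite set
  let φ : ℕ → K := fun n => ⟨E + β / n, add_mem hEK (div_mem hβK (hnat _))⟩
  have hmaps : Set.MapsTo φ T {x : K | IsIntegral ℤ x ∧ ∀ ψ : K →+* ℂ, ‖ψ x‖ ≤ d} := by
    intro n hn
    obtain ⟨hn1', G, hG, hE⟩ := hn
    have hint : IsIntegral ℤ (φ n) := by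
      rw [← isIntegral_algebraMap_iff (FaithfulSMul.algebraMap_injective K ℝ)]
      exact isIntegral_of_isEig hE
    refine ⟨hint, fun ψ => ?_⟩
    refine norm_conj_le hG hE (z := ψ (φ n)) ?_
    have h1 : aeval (φ n) (minpoly ℤ (E + β / n)) = 0 := by
      have h2 : algebraMap K ℝ (aeval (φ n) (minpoly ℤ (E + β / n))) = 0 := by
        rw [← aeval_algebraMap_apply]
        exact minpoly.aeval ℤ (E + β / n)
      exact (map_eq_zero_iff _ (FaithfulSMul.algebraMap_injective K ℝ)).mp h2
    have h3 : ψ (aeval (φ n) (minpoly ℤ (E + β / n))) = aeval (ψ (φ n)) (minpoly ℤ (E + β / n)) := by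
      rw [aeval_def, aeval_def, hom_eval₂]
      congr 1
      exact RingHom.ext_int _ _
    rw [← h3, h1, map_zero]
  have hinj : Set.InjOn φ T := by
    intro a ha b hb hab
    have h1 : E + β / a = E + β / b := congrArg Subtype.val hab
    have haR : (a : ℝ) ≠ 0 := by
      have := ha.1
      exact_mod_cast (by omega : a ≠ 0)
    have hbR : (b : ℝ) ≠ 0 := by
      have := hb.1
      exact_mod_cast (by omega : b ≠ 0)
    have h2 : β / a = β / b := by linarith only [h1]
    rw [div_eq_div_iff haR hbR] at h2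
    have h3 := mul_left_cancel₀ hβ h2
    exact_mod_cast h3.symm
  exact hT (Set.Finite.of_injOn hmaps hinj hfinite)

end Vale.Agent.P156
end
end

section

section

open Finset Filter

namespace Vale.Agent.P156

lemma unifProb_nonneg (n d : ℕ) (A : SimpleGraph (Fin n) → Prop) : 0 ≤ unifProb n d A := by
  unfold unifProb
  positivity

lemma mem_event {n d : ℕ} {A : SimpleGraph (Fin n) → Prop} {inst : DecidablePred A}
    {G : SimpleGraph (Fin n)} :
    G ∈ @Finset.filter _ A inst (regularGraphs n d) ↔ G ∈ regularGraphs n d ∧ A G :=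
  @Finset.mem_filter _ _ inst _ _

lemma unifProb_mono (n d : ℕ) {A B : SimpleGraph (Fin n) → Prop}
    (h : ∀ G ∈ regularGraphs n d, A G → B G) : unifProb n d A ≤ unifProb n d B := by
  unfold unifProb
  refine div_le_div_of_nonneg_right ?_ (by positivity)
  norm_cast
  refine Finset.card_le_card (fun G hG => ?_)
  have h1 := mem_event.mp hG
  exact mem_event.mpr ⟨h1.1, h G h1.1 h1.2⟩

lemma unifProb_eq_zero (n d : ℕ) {A : SimpleGraph (Fin n) → Prop}
    (h : ∀ G ∈ regularGraphs n d, ¬ A G) : unifProb n d A = 0 := by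
  unfold unifProb
  rw [div_eq_zero_iff]
  left
  norm_cast
  rw [Finset.card_eq_zero, Finset.eq_empty_iff_forall_notMem]
  intro G hG
  have h1 := mem_event.mp hG
  exact h G h1.1 h1.2

lemma unifProb_or_le (n d : ℕ) (A B : SimpleGraph (Fin n) → Prop) :
    unifProb n d (fun G => A G ∨ B G) ≤ unifProb n d A + unifProb n d B := by
  classical
  unfold unifProb
  rw [← add_div]
  refine div_le_div_of_nonneg_right ?_ (by positivity)
  norm_cast
  refine le_trans (Finset.card_le_card (fun G hG => ?_)) (Finset.card_union_le _ _)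
  have h1 := mem_event.mp hG
  rw [Finset.mem_union]
  rcases h1.2 with h | h
  · exact Or.inl (mem_event.mpr ⟨h1.1, h⟩)
  · exact Or.inr (mem_event.mpr ⟨h1.1, h⟩)

lemma unifProb_exists_le (n d : ℕ) {ι : Type*} (S : Finset ι)
    (A : ι → SimpleGraph (Fin n) → Prop) :
    unifProb n d (fun G => ∃ i ∈ S, A i G) ≤ ∑ i ∈ S, unifProb n d (A i) := by
  classical
  induction S using Finset.induction_on with
  | empty =>
    rw [Finset.sum_empty, unifProb_eq_zero]
    rintro G _ ⟨i, hi, _⟩
    exact absurd hi (Finset.notMem_empty i)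
  | insert a s ha ih =>
    rw [Finset.sum_insert ha]
    refine le_trans (le_trans (unifProb_mono n d (B := fun G => A a G ∨ ∃ i ∈ s, A i G) ?_)
      (unifProb_or_le n d _ _)) (add_le_add le_rfl ih)
    rintro G _ ⟨i, hi, h⟩
    rcases Finset.mem_insert.mp hi with rfl | hi
    · exact Or.inl h
    · exact Or.inr ⟨i, hi, h⟩

lemma three_le_real {d : ℕ} (hd : 3 ≤ d) : (3 : ℝ) ≤ d := by exact_mod_cast hd

lemma bulk_sq {d : ℕ} (hd : 3 ≤ d) {E : ℝ} (hE : |E| < 2 * Real.sqrt (d - 1)) :
    E ^ 2 < 4 * (d - 1) := by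
  have h3 := three_le_real hd
  have h1 : (0 : ℝ) ≤ (d : ℝ) - 1 := by linarith only [h3]
  have h2 : |E| ^ 2 < (2 * Real.sqrt (d - 1)) ^ 2 :=
    pow_lt_pow_left₀ hE (abs_nonneg E) two_ne_zero
  rw [sq_abs, mul_pow, Real.sq_sqrt h1] at h2
  linarith only [h2]

lemma rho_pos {d : ℕ} (hd : 3 ≤ d) {E : ℝ} (hE : |E| < 2 * Real.sqrt (d - 1)) :
    0 < rho d E := by
  have h3 := three_le_real hd
  have hsq := bulk_sq hd hE
  unfold rho
  have h4 : 0 < Real.sqrt (4 * (d - 1) - E ^ 2) := Real.sqrt_pos.mpr (by linarith only [hsq])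
  have h5 : (0 : ℝ) < d ^ 2 - E ^ 2 := by nlinarith only [hsq, sq_nonneg ((d : ℝ) - 2)]
  have h6 : (0 : ℝ) < d := by linarith only [h3]
  positivity

lemma bulk_ne {d : ℕ} (hd : 3 ≤ d) {E : ℝ} (hE : |E| < 2 * Real.sqrt (d - 1)) : E ≠ d := by
  rintro rfl
  have h3 := three_le_real hd
  have hsq := bulk_sq hd hE
  nlinarith only [hsq, sq_nonneg ((d : ℝ) - 2)]

lemma Xi_ne_zero_iff (n d : ℕ) (E : ℝ) (G : SimpleGraph (Fin n)) {B : Set ℝ}
    (hB : MeasurableSet B) :
    Xi n d E G B ≠ 0 ↔ ∃ i, n * rho d E * (eig G i - E) ∈ B := by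
  unfold Xi
  rw [MeasureTheory.Measure.finsetSum_apply, Ne, Finset.sum_eq_zero_iff]
  push Not
  constructor
  · rintro ⟨i, _, hi⟩
    refine ⟨i, ?_⟩
    rw [MeasureTheory.Measure.dirac_apply' _ hB] at hi
    by_contra hcon
    exact hi (Set.indicator_of_notMem hcon _)
  · rintro ⟨i, hi⟩
    refine ⟨i, Finset.mem_univ _, ?_⟩
    rw [MeasureTheory.Measure.dirac_apply' _ hB, Set.indicator_of_mem hi]
    simp

end Vale.Agent.P156
end
end

section

section

open Finset Polynomial Filter Topology

namespace Vale.Agent.P156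

/-- Adjacency eigenvalues of bounded algebraic degree form a finite set. -/
theorem finite_small_degree (d K : ℕ) :
    {θ : ℝ | (∃ n : ℕ, ∃ G ∈ regularGraphs n d, IsEig G θ) ∧
      (minpoly ℚ θ).natDegree ≤ K}.Finite := by
  classical
  let C := Nat.ceil (max (d : ℝ) 1 ^ K * (K.choose (K / 2)))
  have := bUnion_roots_finite (algebraMap ℤ ℝ) K (Set.finite_Icc (-C : ℤ) C)
  refine this.subset ?_
  rintro θ ⟨⟨n, G, hG, hE⟩, hdeg⟩
  have hint := isIntegral_of_isEig hE
  have hmap := minpoly.isIntegrallyClosed_eq_field_fractions' ℚ hint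
  have hdegZ : (minpoly ℤ θ).natDegree ≤ K := by
    rw [← (minpoly.monic hint).natDegree_map (algebraMap ℤ ℚ), ← hmap]
    exact hdeg
  simp only [Set.mem_iUnion]
  refine ⟨minpoly ℤ θ, ⟨hdegZ, fun i => ?_⟩, ?_⟩
  · rw [Set.mem_Icc, ← abs_le, ← @Int.cast_le ℝ]
    have h1 := coeff_bdd_of_roots_le (B := (d : ℝ)) (d := K) (algebraMap ℤ ℂ)
      (minpoly.monic hint) (IsAlgClosed.splits _) hdegZ (fun z hz => by
        refine norm_conj_le hG hE ?_
        rw [mem_roots'] at hz
        rw [aeval_def, ← eval_map]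
        exact hz.2) i
    rw [coeff_map, eq_intCast, Complex.norm_intCast] at h1
    rw [Int.cast_abs]
    refine h1.trans ?_
    have h2 : max (d : ℝ) 1 ^ K * ((K.choose (K / 2) : ℕ) : ℝ) ≤ (C : ℝ) := Nat.le_ceil _
    rw [Int.cast_natCast]
    exact h2
  · rw [Finset.mem_coe, Multiset.mem_toFinset, mem_roots', IsRoot, eval_map, ← aeval_def]
    exact ⟨((minpoly.monic hint).map _).ne_zero, minpoly.aeval ℤ θ⟩

/-- The probability that some eigenvalue other than `d` has algebraic degree at most `K` tends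
to zero. -/
theorem low_degree_prob (d : ℕ) (hd : 3 ≤ d) (K : ℕ) :
    ∀ ε > 0, ∃ n0 : ℕ, ∀ n ≥ n0, Even (n * d) →
      unifProb n d (fun G => ∃ i, eig G i ≠ d ∧ (minpoly ℚ (eig G i)).natDegree ≤ K) ≤ ε := by
  classical
  intro ε hε
  set S : Finset ℝ := (finite_small_degree d K).toFinset.erase (d : ℝ) with hS
  have h1 : ∀ θ ∈ S, ∃ n0 : ℕ, ∀ n ≥ n0, Even (n * d) →
      unifProb n d (fun G => IsEig G θ) ≤ ε / (S.card + 1) := by
    intro θ hθ
    exact spec_prob d hd θ (Finset.ne_of_mem_erase hθ) _ (by (clear * - hε; positivity))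
  choose! f hf using h1
  refine ⟨S.sup f, fun n hn hev => ?_⟩
  refine le_trans (unifProb_mono n d (B := fun G => ∃ θ ∈ S, IsEig G θ) ?_) ?_
  · rintro G hG ⟨i, hi, hdeg⟩
    refine ⟨eig G i, ?_, isEig_eig G i⟩
    rw [hS, Finset.mem_erase, Set.Finite.mem_toFinset]
    exact ⟨hi, ⟨n, G, hG, isEig_eig G i⟩, hdeg⟩
  · refine le_trans (unifProb_exists_le n d S _) ?_
    calc ∑ θ ∈ S, unifProb n d (fun G => IsEig G θ) ≤ ∑ _θ ∈ S, ε / (S.card + 1) :=
          Finset.sum_le_sum (fun θ hθ => hf θ hθ n
            (le_trans (Finset.le_sup (f := f) hθ) hn) hev)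
      _ = S.card * (ε / (S.card + 1)) := by rw [Finset.sum_const, nsmul_eq_mul]
      _ ≤ ε := by
          rw [mul_div_assoc', div_le_iff₀ (by (clear * -; positivity))]
          nlinarith only [hε]

/-- Exponentially small windows at algebraic energies. -/
theorem window_prob (d : ℕ) (hd : 3 ≤ d) (E : ℝ) (hE : |E| < 2 * Real.sqrt (d - 1))
    (hA : IsAlgebraic ℚ E) : ∃ c : ℝ, 0 < c ∧ ∀ ε > 0, ∃ n0 : ℕ, ∀ n ≥ n0, Even (n * d) →
      unifProb n d (fun G => Xi n d E G (Set.Icc (-c ^ n) (c ^ n)) ≠ 0) ≤ ε := by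
  classical
  have hρ := rho_pos hd hE
  obtain ⟨c, hc, hgap⟩ := Gap.alg_gap d E ((IsFractionRing.isAlgebraic_iff ℤ ℚ ℝ).mpr hA)
  set m : ℝ := min (rho d E) 1 / 2 with hm
  have hm0 : 0 < m := by
    have : 0 < min (rho d E) 1 := lt_min hρ one_pos
    positivity
  have hm1 : m < rho d E := by
    have := min_le_left (rho d E) 1
    rw [hm]; linarith only [hρ, this]
  have hm2 : m ≤ 1 := by
    have := min_le_right (rho d E) 1
    rw [hm]; linarith only [this]
  refine ⟨m * c, by positivity, fun ε hε => ?_⟩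
  obtain ⟨n0, hn0⟩ := spec_prob d hd E (bulk_ne hd hE) ε hε
  refine ⟨n0 + 1, fun n hn hev => le_trans (unifProb_mono n d ?_) (hn0 n (by omega) hev)⟩
  intro G hG h
  rw [Xi_ne_zero_iff n d E G measurableSet_Icc] at h
  obtain ⟨i, hi⟩ := h
  by_contra hcon
  rw [isEig_iff_exists] at hcon
  push Not at hcon
  have hreg : G.IsRegularOfDegree d := by
    unfold regularGraphs at hG
    exact (Finset.mem_filter.mp hG).2
  have h2 : c ^ n ≤ |eig G i - E| := hgap n G (adj_isHermitian G) hreg hcon i
  have hnR : (1 : ℝ) ≤ n := by exact_mod_cast (by omega : 1 ≤ n)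
  have h3 : |n * rho d E * (eig G i - E)| ≤ (m * c) ^ n := by
    rw [abs_le]; exact ⟨by simpa only using hi.1, hi.2⟩
  rw [abs_mul, abs_of_pos (by (clear * - hnR hρ; positivity))] at h3
  have h4 : m ^ n ≤ m := by
    calc m ^ n ≤ m ^ 1 := pow_le_pow_of_le_one hm0.le hm2 (by omega)
      _ = m := pow_one m
  have h5 : (m * c) ^ n < n * rho d E * |eig G i - E| := by
    calc (m * c) ^ n = m ^ n * c ^ n := mul_pow _ _ _
      _ ≤ m * c ^ n := by (clear * - h4 hc; gcongr)
      _ < rho d E * c ^ n := by (clear * - hm1 hc; gcongr)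
      _ ≤ n * rho d E * |eig G i - E| := by
          have : rho d E ≤ n * rho d E := by nlinarith only [hρ, hnR]
          (clear * - this h2 hc hnR hρ; gcongr)
  linarith only [h3, h5]

end Vale.Agent.P156
end
end
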